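import Vale.Agent.P078.AllMasa.Profile

/-! Improvements of a state that do not increase the potential, and approximate minimisers. -/

namespace Vale.Agent.P078.AllMasa

set_option linter.unusedSectionVars false

open Filter Topology ComplexOrder
open Vale.Agent.P078.Tracial

variable {M X : Type} [CStarAlgebra M] [PartialOrder M] [StarOrderedRing M]
variable [TopologicalSpace X] [CompactSpace X] [T2Space X] [TotallyDisconnectedSpace X]
variable {P : Prm M} {C : SCore M X}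

private theorem wt_apply (s : Col M X) (x : X) :
    P.wt s x = s.act x * s.W x + P.Wf * s.ass x
      + (1 - s.act x - s.ass x) * min (s.W x) 0 := by
  simp [Prm.wt]

private theorem U_apply {r : ℕ} (s : Config M X r) (x : X) :
    Config.U s x = 1 - ∑ c, (s c).ass x := by
  simp [Config.U]

private theorem Wlo_le_zero (P : Prm M) : P.Wlo ≤ 0 := by
  have h0 := P.b1_pos
  have h1 : P.t ^ 6 ≤ 1 := pow_le_one₀ P.t_pos.le (by linarith [P.t_le])
  unfold Prm.Wlo
  rw [sub_nonpos, one_le_div h0]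
  unfold Prm.b1
  linarith

private theorem Wf_lt_Wm (P : Prm M) : P.Wf < P.Wm := by
  have h : 0 < P.t ^ 4 := pow_pos P.t_pos 4
  unfold Prm.Wf Prm.Wm Prm.ξf Prm.ξm
  linarith

private theorem Wlo_le_Wf (P : Prm M) : P.Wlo ≤ P.Wf := by
  have h0 := Wlo_le_zero P
  have h : P.t ^ 4 ≤ (1 / 100) ^ 4 := pow_le_pow_left₀ P.t_pos.le P.t_le 4
  unfold Prm.Wf Prm.ξf
  norm_num at h
  linarith

private theorem Wlo_le_wt {s : Col M X} (h : s.Ok P C) (x : X) : P.Wlo ≤ P.wt s x := by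
  rw [wt_apply]
  rcases h.act_01 x with ha | ha
  · rcases h.ass_01 x with he | he
    · simp only [ha, he, zero_mul, mul_zero, sub_zero, one_mul, zero_add]
      exact le_min (h.W_mem x).1 (Wlo_le_zero P)
    · simp only [ha, he, zero_mul, mul_one, sub_zero, sub_self, zero_add, add_zero]
      exact Wlo_le_Wf P
  · simp only [ha, h.act_ass x ha, sub_self, zero_mul, mul_zero, one_mul, add_zero]
    exact (h.W_mem x).1

private theorem pot_nonneg {s : Col M X} (h : s.Ok P C) : 0 ≤ P.pot C s := by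
  have h1 := C.tr_nonneg h.Z_nonneg
  have h2 : 0 ≤ C.tr (P.R C s) := C.tr_nonneg (h.mat_pos.ringInverse).nonneg
  have h3 : 0 ≤ C.ig (P.wt s) - P.Wlo := by
    have hle : ContinuousMap.const X P.Wlo ≤ P.wt s :=
      ContinuousMap.le_def.2 fun x => Wlo_le_wt h x
    have := C.ig_mono hle
    rw [C.ig_const] at this
    linarith
  have h4 := C.tr_nonneg h.G_nonneg
  have h5 := P.l_pos
  have h6 := P.ν_pos
  unfold Prm.pot
  positivity

theorem Prm.Psi_nonneg (hP : P.Ok C) {r : ℕ} {s : Config M X r} (hs : StateOk P C s) :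
    0 ≤ P.Psi C s :=
  Finset.sum_nonneg fun c _ => pot_nonneg (hs.col c)

theorem exists_near_min (hP : P.Ok C) {r : ℕ} {s0 : Config M X r} (h0 : StateOk P C s0) {ζ : ℝ}
    (hζ : 0 < ζ) : ∃ s : Config M X r, StateOk P C s ∧ P.Psi C s ≤ P.Psi C s0 ∧ P.IsMin C s ζ := by
  set V := {v : ℝ | ∃ t : Config M X r, StateOk P C t ∧ P.Psi C t = v}
  have hne : V.Nonempty := ⟨_, s0, h0, rfl⟩
  have hbd : BddBelow V := ⟨0, by rintro v ⟨t, ht, rfl⟩; exact Prm.Psi_nonneg hP ht⟩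
  obtain ⟨v, ⟨t, ht, rfl⟩, hv⟩ := exists_lt_of_csInf_lt hne (lt_add_of_pos_right (sInf V) hζ)
  by_cases hle : P.Psi C t ≤ P.Psi C s0
  · exact ⟨t, ht, hle, fun t' ht' => by linarith [csInf_le hbd ⟨t', ht', rfl⟩]⟩
  · exact ⟨s0, h0, le_rfl, fun t' ht' => by linarith [csInf_le hbd ⟨t', ht', rfl⟩]⟩

/-- Lowering the weight enlarges the slack and lowers the potential. -/
private theorem pot_mono {s s' : Col M X} (hm : IsStrictlyPositive (P.mat C s)) (hG : s'.G = s.G)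
    (hZ : s'.Z = s.Z) (hw : P.wt s' ≤ P.wt s) :
    P.mat C s ≤ P.mat C s' ∧ P.pot C s' ≤ P.pot C s := by
  have h1 : P.mat C s ≤ P.mat C s' := by
    unfold Prm.mat
    rw [hG, hZ]
    exact sub_le_sub_left (add_le_add le_rfl (C.r_mono hw)) _
  refine ⟨h1, ?_⟩
  have h2 : C.tr (P.R C s') ≤ C.tr (P.R C s) :=
    C.tr_mono (CStarAlgebra.ringInverse_le_ringInverse h1 hm)
  have h3 := C.ig_mono hw
  have h4 : 0 ≤ P.eP ^ 2 := sq_nonneg _
  have h5 := P.l_pos.le
  unfold Prm.pot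
  rw [hG, hZ]
  gcongr

/-- The excess of the resolvent over the upper clipping level moves into the slack. -/
private theorem exists_clipG {s : Col M X} (h : s.Ok P C) :
    ∃ (G' : Mˣ) (Z' : M), (⟨s.act, s.ass, s.b, s.W, G', Z'⟩ : Col M X).Ok P C ∧
      (G' : M) ≤ algebraMap ℝ M P.Λ ∧
      P.pot C ⟨s.act, s.ass, s.b, s.W, G', Z'⟩ ≤ P.pot C s := by
  have hsa : IsSelfAdjoint (s.G : M) := IsSelfAdjoint.of_nonneg h.G_nonneg
  have hΛ := P.Λ_pos
  have hpos := fun t (ht : t ∈ spectrum ℝ (s.G : M)) => Core.spectrum_unit_pos h.G_nonneg ht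
  have hne : ∀ t ∈ spectrum ℝ (s.G : M), min t P.Λ ≠ 0 :=
    fun t ht => (lt_min (hpos t ht) hΛ).ne'
  set G' := cfcUnits (fun t => min t P.Λ) (s.G : M) hne
  have hG'v : (G' : M) = cfc (fun t => min t P.Λ) (s.G : M) := val_cfcUnits _ _ hne
  have hG'i : (↑G'⁻¹ : M) = cfc (fun t => (min t P.Λ)⁻¹) (s.G : M) := val_inv_cfcUnits _ _ hne
  have hcI : ContinuousOn (fun t : ℝ => (min t P.Λ)⁻¹) (spectrum ℝ (s.G : M)) :=
    ContinuousOn.inv₀ (by fun_prop) hne
  have hcG : ContinuousOn (fun t : ℝ => t⁻¹) (spectrum ℝ (s.G : M)) :=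
    ContinuousOn.inv₀ continuousOn_id fun t ht => (hpos t ht).ne'
  have hinv : (↑s.G⁻¹ : M) = cfc (fun t : ℝ => t⁻¹) (s.G : M) := (cfc_inv_id s.G hsa).symm
  have hG0 : 0 ≤ (G' : M) := by
    rw [hG'v]; exact cfc_nonneg fun t ht => (lt_min (hpos t ht) hΛ).le
  have hle : (G' : M) ≤ s.G := by
    rw [hG'v]
    calc cfc (fun t => min t P.Λ) (s.G : M) ≤ cfc (fun t => t) (s.G : M) :=
          cfc_mono fun t _ => min_le_left _ _
      _ = s.G := cfc_id' ℝ (s.G : M)
  have hD0 : 0 ≤ (↑G'⁻¹ : M) - ↑s.G⁻¹ := by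
    rw [hG'i, hinv, ← cfc_sub _ _ _ hcI hcG]
    exact cfc_nonneg fun t ht =>
      sub_nonneg.2 (inv_anti₀ (lt_min (hpos t ht) hΛ) (min_le_left _ _))
  have hD : (↑G'⁻¹ : M) - ↑s.G⁻¹ ≤ (1 / P.Λ ^ 2) • ((s.G : M) - G') := by
    rw [hG'i, hinv, hG'v, ← cfc_sub _ _ _ hcI hcG]
    nth_rewrite 2 [← cfc_id' ℝ (s.G : M)]
    rw [← cfc_sub (fun t : ℝ => t) (fun t => min t P.Λ) (s.G : M),
      ← cfc_smul (1 / P.Λ ^ 2) _ (s.G : M)]
    refine cfc_mono (fun t ht => ?_) (hcI.sub hcG)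
    have ht0 := hpos t ht
    rcases le_total t P.Λ with h1 | h1
    · simp [min_eq_left h1]
    · rw [min_eq_right h1, smul_eq_mul, inv_sub_inv hΛ.ne' ht0.ne', one_div_mul_eq_div]
      refine div_le_div_of_nonneg_left (by linarith) (by positivity) ?_
      rw [sq]; exact mul_le_mul_of_nonneg_left h1 hΛ.le
  set Z' : M := s.Z + ((↑G'⁻¹ : M) - ↑s.G⁻¹) with hZ'
  have hmat : P.mat C ⟨s.act, s.ass, s.b, s.W, G', Z'⟩ = P.mat C s := by
    show 1 + Z' - ((↑G'⁻¹ : M) + P.y + C.r (P.wt s)) =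
      1 + s.Z - ((↑s.G⁻¹ : M) + P.y + C.r (P.wt s))
    rw [hZ']; abel
  refine ⟨G', Z', ⟨h.act_01, h.ass_01, h.act_ass, h.act_b, h.W_mem, hG0,
    add_nonneg h.Z_nonneg hD0, hmat ▸ h.mat_pos, fun x hx => ?_⟩, ?_, ?_⟩
  · have h1 := h.inv x hx
    have h2 := ContinuousMap.le_def.1 (C.Er_mono hle) x
    show s.b x + 2 * P.b1 ≤ FP P.κ (1 - s.W x) - C.Er (G' : M) x
    linarith
  · rw [hG'v]
    exact cfc_le_algebraMap _ _ _ fun t _ => min_le_right _ _
  · have h1 := C.tr_mono hD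
    rw [C.tr_smul, C.tr_sub (s.G : M)] at h1
    have h2 : 1 / P.Λ ^ 2 ≤ P.ν := by
      rw [div_le_iff₀ (by positivity)]; exact P.νΛ
    have h3 : 0 ≤ C.tr (s.G : M) - C.tr (G' : M) := sub_nonneg.2 (C.tr_mono hle)
    have h4 := mul_le_mul_of_nonneg_right h2 h3
    unfold Prm.pot Prm.R
    rw [hmat]
    show C.tr Z' + P.eP ^ 2 * C.tr (Ring.inverse (P.mat C s)) + P.l * (C.ig (P.wt s) - P.Wlo)
        + P.ν * C.tr (G' : M) ≤ _
    rw [hZ', C.tr_add]
    linarith

/-- The slack is raised to the lower clipping level. -/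
private theorem exists_liftZ {s : Col M X} (h : s.Ok P C) :
    ∃ Z' : M, (⟨s.act, s.ass, s.b, s.W, s.G, Z'⟩ : Col M X).Ok P C ∧
      algebraMap ℝ M P.eP ≤ P.mat C ⟨s.act, s.ass, s.b, s.W, s.G, Z'⟩ ∧
      P.pot C ⟨s.act, s.ass, s.b, s.W, s.G, Z'⟩ ≤ P.pot C s := by
  have he := P.eP_pos
  obtain ⟨u, hu⟩ := h.mat_pos.isUnit
  have hu0 : 0 ≤ (u : M) := hu ▸ h.mat_pos.nonneg
  have hsa : IsSelfAdjoint (u : M) := IsSelfAdjoint.of_nonneg hu0
  have hpos := fun t (ht : t ∈ spectrum ℝ (u : M)) => Core.spectrum_unit_pos hu0 ht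
  have hne : ∀ t ∈ spectrum ℝ (u : M), max t P.eP ≠ 0 :=
    fun t _ => (lt_max_of_lt_right he).ne'
  set v := cfcUnits (fun t => max t P.eP) (u : M) hne
  have hv : (v : M) = cfc (fun t => max t P.eP) (u : M) := val_cfcUnits _ _ hne
  have hvi : (↑v⁻¹ : M) = cfc (fun t => (max t P.eP)⁻¹) (u : M) := val_inv_cfcUnits _ _ hne
  have hcI : ContinuousOn (fun t : ℝ => (max t P.eP)⁻¹) (spectrum ℝ (u : M)) :=
    ContinuousOn.inv₀ (by fun_prop) hne
  have hcu : ContinuousOn (fun t : ℝ => t⁻¹) (spectrum ℝ (u : M)) :=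
    ContinuousOn.inv₀ continuousOn_id fun t ht => (hpos t ht).ne'
  have hinv : (↑u⁻¹ : M) = cfc (fun t : ℝ => t⁻¹) (u : M) := (cfc_inv_id u hsa).symm
  have hle : (u : M) ≤ v := by
    rw [hv]
    calc (u : M) = cfc (fun t : ℝ => t) (u : M) := (cfc_id' ℝ (u : M)).symm
      _ ≤ cfc (fun t => max t P.eP) (u : M) := cfc_mono fun t _ => le_max_left _ _
  have hev : algebraMap ℝ M P.eP ≤ (v : M) := by
    rw [hv]
    exact algebraMap_le_cfc _ _ _ fun t _ => le_max_right _ _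
  have hD : (v : M) - u ≤ (P.eP ^ 2) • ((↑u⁻¹ : M) - ↑v⁻¹) := by
    rw [hvi, hinv, hv, ← cfc_sub _ _ _ hcu hcI]
    nth_rewrite 2 [← cfc_id' ℝ (u : M)]
    rw [← cfc_sub (fun t => max t P.eP) (fun t : ℝ => t) (u : M),
      ← cfc_smul (P.eP ^ 2) (fun t : ℝ => t⁻¹ - (max t P.eP)⁻¹) (u : M) (hcu.sub hcI)]
    refine cfc_mono (fun t ht => ?_) (by fun_prop) (continuousOn_const.fun_smul (hcu.fun_sub hcI))
    have ht0 := hpos t ht
    rcases le_total P.eP t with h1 | h1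
    · simp [max_eq_left h1]
    · rw [max_eq_right h1, smul_eq_mul, inv_sub_inv ht0.ne' he.ne', mul_div_assoc',
        le_div_iff₀ (mul_pos ht0 he)]
      nlinarith [mul_le_mul_of_nonneg_left (mul_le_mul_of_nonneg_right h1 he.le) (sub_nonneg.2 h1)]
  set Z' : M := s.Z + ((v : M) - u) with hZ'
  have hmat : P.mat C ⟨s.act, s.ass, s.b, s.W, s.G, Z'⟩ = v := by
    show 1 + Z' - ((↑s.G⁻¹ : M) + P.y + C.r (P.wt s)) = v
    rw [hZ', hu]; unfold Prm.mat; abel
  have hvpos : IsStrictlyPositive (v : M) := IsStrictlyPositive.of_le h.mat_pos (hu ▸ hle)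
  refine ⟨Z', ⟨h.act_01, h.ass_01, h.act_ass, h.act_b, h.W_mem, h.G_nonneg,
    add_nonneg h.Z_nonneg (sub_nonneg.2 hle), hmat.symm ▸ hvpos, h.inv⟩, hmat.symm ▸ hev, ?_⟩
  have h1 := C.tr_mono hD
  rw [C.tr_smul, C.tr_sub (↑u⁻¹ : M)] at h1
  unfold Prm.pot Prm.R
  rw [hmat, ← hu, Ring.inverse_unit, Ring.inverse_unit]
  show C.tr Z' + P.eP ^ 2 * C.tr (↑v⁻¹ : M) + P.l * (C.ig (P.wt s) - P.Wlo)
      + P.ν * C.tr (s.G : M) ≤ _
  rw [hZ', C.tr_add]
  linarith

private theorem exists_clip {s : Col M X} (h : s.Ok P C) :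
    ∃ (G' : Mˣ) (Z' : M), (⟨s.act, s.ass, s.b, s.W, G', Z'⟩ : Col M X).Ok P C ∧
      (G' : M) ≤ algebraMap ℝ M P.Λ ∧
      algebraMap ℝ M P.eP ≤ P.mat C ⟨s.act, s.ass, s.b, s.W, G', Z'⟩ ∧
      P.pot C ⟨s.act, s.ass, s.b, s.W, G', Z'⟩ ≤ P.pot C s := by
  obtain ⟨G', Z1, h1, hG, hp1⟩ := exists_clipG h
  obtain ⟨Z', h2, he, hp2⟩ := exists_liftZ h1
  exact ⟨G', Z', h2, hG, he, hp2.trans hp1⟩

variable {r : ℕ}

/-- Colours heavier than the window are assigned. -/
private theorem exists_assign {s : Config M X r} (hs : StateOk P C s) :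
    ∃ s' : Config M X r, StateOk P C s' ∧
      (∀ c, (s' c).G = (s c).G ∧ P.mat C (s c) ≤ P.mat C (s' c)) ∧
      P.Psi C s' ≤ P.Psi C s ∧ ∀ c x, (s' c).act x = 1 → (s' c).W x ≤ P.Wm := by
  have hUone : ∀ c x, (s c).act x = 1 → Config.U s x = 1 := fun c x hx => by
    rcases hs.U_01 x with h' | h'
    · have := hs.act_le c x; linarith
    · exact h'
  have hass0 : ∀ x, Config.U s x = 1 → ∀ c, (s c).ass x = 0 := fun x hx c => by
    have h0 : ∀ d ∈ (Finset.univ : Finset (Fin r)), 0 ≤ (s d).ass x := fun d _ => by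
      rcases (hs.col d).ass_01 x with h' | h' <;> simp [h']
    have h1 : ∑ d, (s d).ass x = 0 := by rw [U_apply] at hx; linarith
    exact (Finset.sum_eq_zero_iff_of_nonneg h0).1 h1 c (Finset.mem_univ c)
  have hcl : ∀ c, ∃ V : Set X, IsClopen V ∧
      {x | 1 ≤ (s c).act x ∧ P.Wm ≤ (s c).W x} ⊆ V ∧
      V ⊆ {x | 1 / 2 < (s c).act x ∧ P.Wf < (s c).W x} := fun c => by
    refine exists_clopen_of_closed_subset_open ?_ ?_ ?_
    · exact (isClosed_le continuous_const ((s c).act.continuous)).inter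
        (isClosed_le continuous_const ((s c).W.continuous))
    · exact (isOpen_lt continuous_const ((s c).act.continuous)).inter
        (isOpen_lt continuous_const ((s c).W.continuous))
    · rintro x ⟨h1, h2⟩
      exact ⟨by linarith, lt_of_lt_of_le (Wf_lt_Wm P) h2⟩
  choose S hS hSge hSle using hcl
  obtain ⟨t, ht01, htS, htsum⟩ := exists_disjointify S hS
  have htact : ∀ c x, t c x = 1 → (s c).act x = 1 ∧ P.Wf ≤ (s c).W x := fun c x h => by
    obtain ⟨h1, h2⟩ := hSle c (htS c x h)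
    rcases (hs.col c).act_01 x with h' | h'
    · linarith
    · exact ⟨h', h2.le⟩
  set T : C(X, ℝ) := 1 - ∑ c, t c with hTdef
  have hT : ∀ x, (T x = 1 ∧ (∀ c, t c x = 0) ∧ ∀ c, x ∉ S c) ∨
      (T x = 0 ∧ Config.U s x = 1) := by
    intro x
    rcases htsum x with ⟨h0, hn⟩ | h1
    · refine Or.inl ⟨by simp [hTdef, h0], fun c => ?_, hn⟩
      rcases ht01 c x with h | h
      · exact h
      · exact absurd (htS c x h) (hn c)
    · refine Or.inr ⟨by simp [hTdef, h1], ?_⟩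
      by_contra hU
      have : ∑ c, t c x = 0 := Finset.sum_eq_zero fun c _ => by
        rcases ht01 c x with h | h
        · exact h
        · exact absurd (hUone c x (htact c x h).1) hU
      linarith
  set s' : Config M X r := fun c => ⟨(s c).act * T, (s c).ass + t c, (s c).b * T, (s c).W,
    (s c).G, (s c).Z⟩ with hs'def
  have hU' : Config.U s' = Config.U s * T := by
    ext x
    have hsum : Config.U s' x = Config.U s x - ∑ c, t c x := by
      simp [Config.U, hs'def, Finset.sum_add_distrib]; ring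
    have hTx : T x = 1 - ∑ c, t c x := by simp [hTdef]
    rw [hsum, ContinuousMap.mul_apply, hTx]
    rcases hT x with ⟨_, h, _⟩ | ⟨h, hU⟩
    · simp [h]
    · rw [hU]; ring
  have hwt : ∀ c, P.wt (s' c) ≤ P.wt (s c) := fun c => by
    refine ContinuousMap.le_def.2 fun x => ?_
    rw [wt_apply, wt_apply]
    rcases hT x with ⟨h, h0, _⟩ | ⟨h, hU⟩
    · simp [hs'def, h, h0 c]
    · rcases ht01 c x with h' | h'
      · rcases (hs.col c).act_01 x with ha | ha
        · simp [hs'def, h, h', ha]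
        · simp [hs'def, h, h', ha, hass0 x hU c]
      · obtain ⟨ha, hb⟩ := htact c x h'
        simp [hs'def, h, h', ha, hass0 x hU c]
        linarith
  have hmono := fun c => pot_mono (s := s c) (s' := s' c) (hs.col c).mat_pos rfl rfl (hwt c)
  refine ⟨s', ⟨fun c => ⟨fun x => ?_, fun x => ?_, fun x hx => ?_, fun x hx => ?_,
      (hs.col c).W_mem, (hs.col c).G_nonneg, (hs.col c).Z_nonneg,
      IsStrictlyPositive.of_le (hs.col c).mat_pos (hmono c).1, fun x hx => ?_⟩,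
      fun x => ?_, fun c x => ?_, ?_, fun c x hx => ?_⟩,
    fun c => ⟨rfl, (hmono c).1⟩, Finset.sum_le_sum fun c _ => (hmono c).2, fun c x hx => ?_⟩
  · rcases hT x with ⟨h, _⟩ | ⟨h, _⟩
    · simpa [hs'def, h] using (hs.col c).act_01 x
    · simp [hs'def, h]
  · rcases ht01 c x with h | h
    · simpa [hs'def, h] using (hs.col c).ass_01 x
    · simp [hs'def, h, hass0 x (hUone c x (htact c x h).1) c]
  · rcases hT x with ⟨h, h0, _⟩ | ⟨h, _⟩
    · simp [hs'def, h] at hx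
      simp [hs'def, h0 c, (hs.col c).act_ass x hx]
    · simp [hs'def, h] at hx
  · rcases hT x with ⟨h, _⟩ | ⟨h, _⟩
    · simp [hs'def, h] at hx
      simpa [hs'def, h] using (hs.col c).act_b x hx
    · simp [hs'def, h] at hx
  · rcases hT x with ⟨h, _⟩ | ⟨h, _⟩
    · simp [hs'def, h] at hx
      simpa [hs'def, h] using (hs.col c).inv x hx
    · simp [hs'def, h] at hx
  · rw [hU']
    rcases hT x with ⟨h, _⟩ | ⟨h, _⟩
    · simpa [h] using hs.U_01 x
    · simp [h]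
  · rw [hU']
    rcases hT x with ⟨h, _⟩ | ⟨h, _⟩
    · simpa [hs'def, h] using hs.act_le c x
    · simp [hs'def, h]
  · rw [hU', ← smul_mul_assoc, ← hs.b_sum, Finset.sum_mul]
  · rcases hT x with ⟨h, _⟩ | ⟨h, _⟩
    · simp [hs'def, h] at hx
      simpa [hs'def, h] using hs.b_drop c x hx
    · simp [hs'def, h]
  · rcases hT x with ⟨h, _, hn⟩ | ⟨h, _⟩
    · simp [hs'def, h] at hx
      by_contra hb
      exact hn c (hSge c ⟨hx.ge, le_of_lt (not_le.1 hb)⟩)
    · simp [hs'def, h] at hx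

/-- Colours with a low budget are deactivated. -/
private theorem exists_drop {s : Config M X r} (hs : StateOk P C s)
    (hG : ∀ c, ((s c).G : M) ≤ algebraMap ℝ M P.Λ)
    (hm : ∀ c, algebraMap ℝ M P.eP ≤ P.mat C (s c))
    (hhigh : ∀ c x, (s c).act x = 1 → (s c).W x ≤ P.Wm) :
    ∃ s' : Config M X r, StateOk P C s' ∧ (∀ c, P.Good C (s' c)) ∧
      P.Psi C s' ≤ P.Psi C s := by
  have hcl : ∀ c, ∃ V : Set X, IsClopen V ∧
      {x | 1 ≤ (s c).act x ∧ (s c).b x ≤ -P.b1 / 2} ⊆ V ∧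
      V ⊆ {x | 1 / 2 < (s c).act x ∧ (s c).b x < 0} := fun c => by
    refine exists_clopen_of_closed_subset_open ?_ ?_ ?_
    · exact (isClosed_le continuous_const ((s c).act.continuous)).inter
        (isClosed_le ((s c).b.continuous) continuous_const)
    · exact (isOpen_lt continuous_const ((s c).act.continuous)).inter
        (isOpen_lt ((s c).b.continuous) continuous_const)
    · rintro x ⟨h1, h2⟩
      exact ⟨by linarith, lt_of_le_of_lt h2 (by linarith [P.b1_pos])⟩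
  choose D hD hDge hDle using hcl
  set d : Fin r → C(X, ℝ) := fun c => ind (D c) (hD c) with hd
  set s' : Config M X r := fun c => ⟨(s c).act * (1 - d c), (s c).ass, (s c).b, (s c).W,
    (s c).G, (s c).Z⟩ with hs'def
  have hcase : ∀ c x, (x ∈ D c ∧ (s' c).act x = 0 ∧ (s c).act x = 1 ∧ (s c).b x < 0) ∨
      (x ∉ D c ∧ (s' c).act x = (s c).act x) := fun c x => by
    by_cases h : x ∈ D c
    · refine Or.inl ⟨h, by simp [hs'def, hd, ind_mem _ h], ?_, (hDle c h).2⟩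
      rcases (hs.col c).act_01 x with h' | h'
      · exact absurd (hDle c h).1 (by rw [h']; norm_num)
      · exact h'
    · exact Or.inr ⟨h, by simp [hs'def, hd, ind_notMem _ h]⟩
  have hback : ∀ c x, (s' c).act x = 1 → (s c).act x = 1 ∧ x ∉ D c := fun c x hx => by
    rcases hcase c x with ⟨_, h, _⟩ | ⟨hn, h⟩ <;> rw [h] at hx
    · norm_num at hx
    · exact ⟨hx, hn⟩
  have hwt : ∀ c, P.wt (s' c) ≤ P.wt (s c) := fun c => by
    refine ContinuousMap.le_def.2 fun x => ?_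
    rw [wt_apply, wt_apply]
    show (s' c).act x * (s c).W x + P.Wf * (s c).ass x +
      (1 - (s' c).act x - (s c).ass x) * min ((s c).W x) 0 ≤ _
    rcases hcase c x with ⟨_, h, ha, _⟩ | ⟨_, h⟩ <;> rw [h]
    simp [ha, (hs.col c).act_ass x ha]
  have hmono := fun c => pot_mono (s := s c) (s' := s' c) (hs.col c).mat_pos rfl rfl (hwt c)
  have hU : Config.U s' = Config.U s := rfl
  refine ⟨s', ⟨fun c => ⟨fun x => ?_, (hs.col c).ass_01, fun x hx => ?_, fun x hx => ?_,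
      (hs.col c).W_mem, (hs.col c).G_nonneg, (hs.col c).Z_nonneg,
      IsStrictlyPositive.of_le (hs.col c).mat_pos (hmono c).1, fun x hx => ?_⟩,
      hs.U_01, fun c x => ?_, hs.b_sum, fun c x hx => ?_⟩,
    fun c => ⟨fun x hx => ?_, fun x hx => hhigh c x (hback c x hx).1, hG c,
      (hm c).trans (hmono c).1⟩, Finset.sum_le_sum fun c _ => (hmono c).2⟩
  · rcases hcase c x with ⟨_, h, _⟩ | ⟨_, h⟩ <;> rw [h]
    · exact Or.inl rfl
    · exact (hs.col c).act_01 x
  · exact (hs.col c).act_ass x (hback c x hx).1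
  · exact (hs.col c).act_b x (hback c x hx).1
  · exact (hs.col c).inv x (hback c x hx).1
  · rw [hU]
    rcases hcase c x with ⟨_, h, _⟩ | ⟨_, h⟩ <;> rw [h]
    · rcases hs.U_01 x with h' | h' <;> simp [h']
    · exact hs.act_le c x
  · rcases hcase c x with ⟨_, _, _, h⟩ | ⟨_, h⟩
    · exact h.le
    · rw [h] at hx; exact hs.b_drop c x hx
  · obtain ⟨h1, h2⟩ := hback c x hx
    by_contra hb
    exact h2 (hDge c ⟨h1.ge, le_of_lt (not_le.1 hb)⟩)

/-- Assigning, deactivating and clipping lead to good colours. -/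
theorem exists_improve (hP : P.Ok C) {r : ℕ} {s : Config M X r} (hs : StateOk P C s) :
    ∃ s' : Config M X r, StateOk P C s' ∧ (∀ c, P.Good C (s' c)) ∧ P.Psi C s' ≤ P.Psi C s := by
  choose G' Z' hok hG hm hp using fun c => exists_clip (hs.col c)
  set s1 : Config M X r := fun c => ⟨(s c).act, (s c).ass, (s c).b, (s c).W, G' c, Z' c⟩
  have hs1 : StateOk P C s1 := ⟨hok, hs.U_01, hs.act_le, hs.b_sum, hs.b_drop⟩
  obtain ⟨s2, hs2, hk2, hP2, hhigh⟩ := exists_assign hs1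
  obtain ⟨s3, hs3, hgood, hP3⟩ := exists_drop hs2 (fun c => by rw [(hk2 c).1]; exact hG c)
    (fun c => (hm c).trans (hk2 c).2) hhigh
  exact ⟨s3, hs3, hgood, hP3.trans (hP2.trans (Finset.sum_le_sum fun c _ => hp c))⟩

end Vale.Agent.P078.AllMasa
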