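import Vale.Agent.P078.Tracial.Clean

/-! Abstract data for so-paving over an arbitrary MASA: a C-star algebra with a faithful state
that is centralised by a commutative subalgebra `C(X)`, the expectation onto it, weak convergence
of pinchings to the expectation and weak compactness of bounded sets. No trace is assumed. -/

namespace Vale.Agent.P078.AllMasa

open Filter Topology ComplexOrder
open Vale.Agent.P078.Tracial

/-- The data of a MASA with a faithful normal invariant state. -/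
structure SCore (M X : Type) [CStarAlgebra M] [PartialOrder M] [StarOrderedRing M]
    [TopologicalSpace X] [CompactSpace X] [T2Space X] [TotallyDisconnectedSpace X] where
  φ : M →L[ℂ] ℂ
  ι : C(X, ℂ) →⋆ₐ[ℂ] M
  E : M →L[ℂ] C(X, ℂ)
  φ_one : φ 1 = 1
  φ_pos : ∀ a, 0 ≤ φ (star a * a)
  φ_faithful : ∀ a, φ (star a * a) = 0 → a = 0
  E_ι : ∀ f, E (ι f) = f
  E_bimod : ∀ f g z, E (ι f * z * ι g) = f * E z * g
  E_star : ∀ z, E (star z) = star (E z)
  E_pos : ∀ a x, 0 ≤ E (star a * a) x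
  φ_E : ∀ z, φ (ι (E z)) = φ z
  pinch_tendsto : ∀ a z b : M, Tendsto (fun π : DiscreteQuotient X =>
      φ (a * (∑ i : π, ι (toC (cellFn π i)) * z * ι (toC (cellFn π i))) * b))
      atBot (𝓝 (φ (a * ι (E z) * b)))
  weakLimit : ∀ {κ : Type} (U : Ultrafilter κ) (f : κ → M) (B : ℝ), (∀ i, ‖f i‖ ≤ B) →
    ∃ w : M, ‖w‖ ≤ B ∧
      ∀ a b : M, Tendsto (fun i => φ (a * f i * b)) U (𝓝 (φ (a * w * b)))

namespace SCore

set_option linter.unusedSectionVars false

variable {M X : Type} [CStarAlgebra M] [PartialOrder M] [StarOrderedRing M]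
variable [TopologicalSpace X] [CompactSpace X] [T2Space X] [TotallyDisconnectedSpace X]
variable (C : SCore M X)

/-- Real functions inside the algebra. -/
noncomputable def r (f : C(X, ℝ)) : M := C.ι (toC f)

/-- Real part of the expectation. -/
noncomputable def Er (z : M) : C(X, ℝ) := reC (C.E z)

/-- Real part of the state. -/
noncomputable def tr (z : M) : ℝ := (C.φ z).re

/-- The integral of a real function. -/
noncomputable def ig (f : C(X, ℝ)) : ℝ := C.tr (C.r f)

/-- The projection of a cell. -/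
noncomputable def e (π : DiscreteQuotient X) (i : π) : M := C.r (cellFn π i)

/-- Pinching along a partition. -/
noncomputable def pinch (π : DiscreteQuotient X) (z : M) : M :=
  ∑ i : π, C.e π i * z * C.e π i

/-- The positive map `f ↦ E (z f star z)`. -/
noncomputable def K (z : M) (f : C(X, ℝ)) : C(X, ℝ) := C.Er (z * C.r f * star z)

/-- The part with zero expectation. -/
noncomputable def off (G : M) : M := G - C.r (C.Er G)

/-- Pinching along finitely many colours. -/
noncomputable def spinch {κ : Type} [Fintype κ] (p : κ → C(X, ℝ)) (z : M) : M :=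
  ∑ i, C.r (p i) * z * C.r (p i)

/-! Real functions inside the algebra. -/

theorem r_add (f g : C(X, ℝ)) : C.r (f + g) = C.r f + C.r g := by
  simp [r, toC_add, map_add]

theorem r_sub (f g : C(X, ℝ)) : C.r (f - g) = C.r f - C.r g := by
  simp [r, toC_sub, map_sub]

theorem r_neg (f : C(X, ℝ)) : C.r (-f) = -C.r f := by simp [r, toC_neg, map_neg]

theorem r_mul (f g : C(X, ℝ)) : C.r (f * g) = C.r f * C.r g := by
  simp [r, toC_mul, map_mul]

theorem r_zero : C.r 0 = 0 := by simp [r, toC_zero]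

theorem r_one : C.r 1 = 1 := by simp [r, toC_one]

theorem r_smul (c : ℝ) (f : C(X, ℝ)) : C.r (c • f) = c • C.r f := by
  simp only [r, toC_smul, ← Complex.coe_smul, map_smul]

theorem r_sum {α : Type*} (s : Finset α) (f : α → C(X, ℝ)) :
    C.r (∑ i ∈ s, f i) = ∑ i ∈ s, C.r (f i) :=
  map_sum (AddMonoidHom.mk' (C.r) C.r_add) f s

theorem r_const (c : ℝ) : C.r (ContinuousMap.const X c) = algebraMap ℝ M c := by
  have h : (ContinuousMap.const X c) = c • (1 : C(X, ℝ)) := by ext x; simp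
  rw [h, r_smul, r_one, Algebra.algebraMap_eq_smul_one]

theorem star_r (f : C(X, ℝ)) : star (C.r f) = C.r f := by
  simp only [r, ← map_star, star_toC]

theorem r_isSelfAdjoint (f : C(X, ℝ)) : IsSelfAdjoint (C.r f) := C.star_r f

theorem r_comm (f g : C(X, ℝ)) : C.r f * C.r g = C.r g * C.r f := by
  rw [← r_mul, mul_comm, r_mul]

theorem r_nonneg {f : C(X, ℝ)} (hf : 0 ≤ f) : 0 ≤ C.r f := by
  let s : C(X, ℝ) := ⟨fun x => Real.sqrt (f x), by fun_prop⟩
  have h : f = s * s := by
    ext x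
    exact (Real.mul_self_sqrt (ContinuousMap.le_def.1 hf x)).symm
  calc (0 : M) ≤ star (C.r s) * C.r s := star_mul_self_nonneg _
    _ = C.r f := by rw [star_r, ← r_mul, ← h]

theorem r_mono {f g : C(X, ℝ)} (h : f ≤ g) : C.r f ≤ C.r g := by
  rw [← sub_nonneg, ← r_sub]
  exact C.r_nonneg (sub_nonneg.2 h)

theorem norm_r_le (f : C(X, ℝ)) : ‖C.r f‖ ≤ ‖f‖ := by
  refine (NonUnitalStarAlgHom.norm_apply_le C.ι (toC f)).trans ?_
  refine (ContinuousMap.norm_le _ (norm_nonneg f)).2 fun x => ?_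
  simpa using f.norm_coe_le_norm x

theorem continuous_r : Continuous C.r := by
  refine AddMonoidHomClass.continuous_of_bound (AddMonoidHom.mk' C.r C.r_add) 1 ?_
  intro f
  simpa using C.norm_r_le f

/-! The expectation. -/

theorem Er_apply (z : M) (x : X) : C.Er z x = (C.E z x).re := rfl

theorem Er_add (a b : M) : C.Er (a + b) = C.Er a + C.Er b := by ext x; simp [Er]

theorem Er_sub (a b : M) : C.Er (a - b) = C.Er a - C.Er b := by ext x; simp [Er]

theorem Er_neg (a : M) : C.Er (-a) = -C.Er a := by ext x; simp [Er]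

theorem Er_zero : C.Er 0 = 0 := by ext x; simp [Er]

theorem Er_smul (c : ℝ) (a : M) : C.Er (c • a) = c • C.Er a := by
  ext x
  simp only [Er, reC_apply, ← Complex.coe_smul, map_smul, ContinuousMap.smul_apply]
  simp

theorem Er_sum {α : Type*} (s : Finset α) (f : α → M) :
    C.Er (∑ i ∈ s, f i) = ∑ i ∈ s, C.Er (f i) :=
  map_sum (AddMonoidHom.mk' (C.Er) C.Er_add) f s

theorem Er_r (f : C(X, ℝ)) : C.Er (C.r f) = f := by
  rw [Er, r, C.E_ι, reC_toC]

theorem Er_one : C.Er 1 = 1 := by rw [← C.r_one, Er_r]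

theorem Er_bimod (f g : C(X, ℝ)) (z : M) :
    C.Er (C.r f * z * C.r g) = f * C.Er z * g := by
  ext x
  simp only [Er, r, C.E_bimod, reC_apply, ContinuousMap.mul_apply, toC_apply,
    Complex.re_mul_ofReal, Complex.re_ofReal_mul]

theorem Er_r_mul (f : C(X, ℝ)) (z : M) : C.Er (C.r f * z) = f * C.Er z := by
  simpa [r_one] using C.Er_bimod f 1 z

theorem Er_mul_r (z : M) (f : C(X, ℝ)) : C.Er (z * C.r f) = C.Er z * f := by
  simpa [r_one] using C.Er_bimod 1 f z

theorem Er_star (z : M) : C.Er (star z) = C.Er z := by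
  ext x; simp [Er, C.E_star]

theorem E_im_eq_zero {z : M} (hz : IsSelfAdjoint z) (x : X) : (C.E z x).im = 0 := by
  have h := C.E_star z
  rw [hz.star_eq] at h
  have h2 := congrArg (fun f : C(X, ℂ) => (f x).im) h
  simp at h2
  linarith

theorem E_eq_toC_Er {z : M} (hz : IsSelfAdjoint z) : C.E z = toC (C.Er z) := by
  ext x
  rw [toC_apply, Er_apply]
  apply Complex.ext <;> simp [C.E_im_eq_zero hz x]

theorem Er_nonneg {z : M} (hz : 0 ≤ z) : 0 ≤ C.Er z := by
  obtain ⟨s, rfl⟩ := CStarAlgebra.nonneg_iff_eq_star_mul_self.1 hz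
  refine ContinuousMap.le_def.2 fun x => ?_
  simpa [Er] using (Complex.le_def.1 (C.E_pos s x)).1

theorem Er_mono {a b : M} (h : a ≤ b) : C.Er a ≤ C.Er b := by
  rw [← sub_nonneg, ← Er_sub]
  exact C.Er_nonneg (sub_nonneg.2 h)

theorem Er_algebraMap (c : ℝ) : C.Er (algebraMap ℝ M c) = ContinuousMap.const X c := by
  rw [← C.r_const, Er_r]

theorem norm_Er_le {z : M} (hz : IsSelfAdjoint z) : ‖C.Er z‖ ≤ ‖z‖ := by
  refine (ContinuousMap.norm_le _ (norm_nonneg z)).2 fun x => abs_le.2 ⟨?_, ?_⟩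
  · have h := ContinuousMap.le_def.1
      (C.Er_mono (IsSelfAdjoint.neg_algebraMap_norm_le_self hz)) x
    rw [Er_neg, Er_algebraMap] at h
    simpa using h
  · have h := ContinuousMap.le_def.1
      (C.Er_mono (IsSelfAdjoint.le_algebraMap_norm_self hz)) x
    rw [Er_algebraMap] at h
    simpa using h

theorem continuous_Er : Continuous C.Er := by
  have h : Continuous (fun f : C(X, ℂ) => reC f) :=
    ContinuousMap.continuous_postcomp ⟨Complex.re, Complex.continuous_re⟩
  exact h.comp C.E.continuous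

/-! The state. -/

theorem tr_add (a b : M) : C.tr (a + b) = C.tr a + C.tr b := by simp [tr]

theorem tr_sub (a b : M) : C.tr (a - b) = C.tr a - C.tr b := by simp [tr]

theorem tr_neg (a : M) : C.tr (-a) = -C.tr a := by simp [tr]

theorem tr_zero : C.tr 0 = 0 := by simp [tr]

theorem tr_smul (c : ℝ) (a : M) : C.tr (c • a) = c * C.tr a := by
  simp only [tr, ← Complex.coe_smul, map_smul, smul_eq_mul, Complex.re_ofReal_mul]

theorem tr_sum {α : Type*} (s : Finset α) (f : α → M) :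
    C.tr (∑ i ∈ s, f i) = ∑ i ∈ s, C.tr (f i) :=
  map_sum (AddMonoidHom.mk' (C.tr) C.tr_add) f s

theorem tr_one : C.tr 1 = 1 := by simp [tr, C.φ_one]

theorem tr_algebraMap (c : ℝ) : C.tr (algebraMap ℝ M c) = c := by
  rw [Algebra.algebraMap_eq_smul_one, tr_smul, tr_one, mul_one]

theorem tr_nonneg {a : M} (ha : 0 ≤ a) : 0 ≤ C.tr a := by
  obtain ⟨s, rfl⟩ := CStarAlgebra.nonneg_iff_eq_star_mul_self.1 ha
  exact (Complex.le_def.1 (C.φ_pos s)).1

theorem tr_mono {a b : M} (h : a ≤ b) : C.tr a ≤ C.tr b := by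
  rw [← sub_nonneg, ← tr_sub]
  exact C.tr_nonneg (sub_nonneg.2 h)

theorem continuous_tr : Continuous C.tr := Complex.continuous_re.comp C.φ.continuous

/-- The subalgebra lies in the centraliser of the state. -/
theorem φ_ι_comm (f : C(X, ℂ)) (z : M) : C.φ (C.ι f * z) = C.φ (z * C.ι f) := by
  have h1 : C.E (C.ι f * z) = f * C.E z := by simpa using C.E_bimod f 1 z
  have h2 : C.E (z * C.ι f) = C.E z * f := by simpa using C.E_bimod 1 f z
  rw [← C.φ_E, h1, ← C.φ_E (z * _), h2, mul_comm]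

theorem tr_r_comm (f : C(X, ℝ)) (z : M) : C.tr (C.r f * z) = C.tr (z * C.r f) := by
  rw [tr, r, φ_ι_comm, ← r, ← tr]

theorem ig_Er {z : M} (hz : IsSelfAdjoint z) : C.ig (C.Er z) = C.tr z := by
  rw [ig, r, ← C.E_eq_toC_Er hz, tr, C.φ_E, ← tr]

theorem tr_r_mul (f : C(X, ℝ)) {z : M} (hz : IsSelfAdjoint z) :
    C.tr (C.r f * z) = C.ig (f * C.Er z) := by
  have h : C.E (C.r f * z) = toC (f * C.Er z) := by
    have h1 := C.E_bimod (toC f) 1 z
    rw [map_one, mul_one, mul_one] at h1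
    rw [r, h1, toC_mul, C.E_eq_toC_Er hz]
  rw [tr, ← C.φ_E, h]
  rfl

theorem ig_add (f g : C(X, ℝ)) : C.ig (f + g) = C.ig f + C.ig g := by
  rw [ig, r_add, tr_add]; rfl

theorem ig_sub (f g : C(X, ℝ)) : C.ig (f - g) = C.ig f - C.ig g := by
  rw [ig, r_sub, tr_sub]; rfl

theorem ig_neg (f : C(X, ℝ)) : C.ig (-f) = -C.ig f := by
  rw [ig, r_neg, tr_neg]; rfl

theorem ig_zero : C.ig 0 = 0 := by rw [ig, r_zero, tr_zero]

theorem ig_one : C.ig 1 = 1 := by rw [ig, r_one, tr_one]

theorem ig_const (c : ℝ) : C.ig (ContinuousMap.const X c) = c := by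
  rw [ig, r_const, tr_algebraMap]

theorem ig_smul (c : ℝ) (f : C(X, ℝ)) : C.ig (c • f) = c * C.ig f := by
  rw [ig, r_smul, tr_smul]; rfl

theorem ig_sum {α : Type*} (s : Finset α) (f : α → C(X, ℝ)) :
    C.ig (∑ i ∈ s, f i) = ∑ i ∈ s, C.ig (f i) :=
  map_sum (AddMonoidHom.mk' (C.ig) C.ig_add) f s

theorem ig_nonneg {f : C(X, ℝ)} (hf : 0 ≤ f) : 0 ≤ C.ig f := C.tr_nonneg (C.r_nonneg hf)

theorem ig_mono {f g : C(X, ℝ)} (h : f ≤ g) : C.ig f ≤ C.ig g := by
  rw [← sub_nonneg, ← ig_sub]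
  exact C.ig_nonneg (sub_nonneg.2 h)

theorem ig_le_of_le {f : C(X, ℝ)} {c : ℝ} (h : ∀ x, f x ≤ c) : C.ig f ≤ c := by
  rw [← C.ig_const c]
  exact C.ig_mono (ContinuousMap.le_def.2 fun x => by simpa using h x)

theorem abs_ig_le_norm (f : C(X, ℝ)) : |C.ig f| ≤ ‖f‖ := by
  refine abs_le.2 ⟨?_, C.ig_le_of_le fun x => (abs_le.1 (f.norm_coe_le_norm x)).2⟩
  have h : C.ig (-f) ≤ ‖f‖ := C.ig_le_of_le fun x => by
    have := (abs_le.1 (f.norm_coe_le_norm x)).1
    simpa using neg_le.1 this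
  rw [ig_neg] at h
  linarith

/-- A nonnegative function with integral zero vanishes. -/
theorem eq_zero_of_ig_eq_zero {f : C(X, ℝ)} (hf : 0 ≤ f) (h : C.ig f = 0) : f = 0 := by
  let s : C(X, ℝ) := ⟨fun x => Real.sqrt (f x), by fun_prop⟩
  have hs : s * s = f := by
    ext x; exact Real.mul_self_sqrt (ContinuousMap.le_def.1 hf x)
  have h0 : C.φ (star (C.r s) * C.r s) = 0 := by
    refine Complex.ext ?_ (Complex.le_def.1 (C.φ_pos (C.r s))).2.symm
    rw [Complex.zero_re, ← h, ← hs, star_r, ← r_mul]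
    rfl
  have h1 : C.r f = 0 := by rw [← hs, r_mul, C.φ_faithful _ h0, mul_zero]
  have h2 := congrArg C.Er h1
  rwa [Er_r, Er_zero] at h2

/-- Weakly equal elements are equal. -/
theorem ext_weak {x y : M} (h : ∀ a b, C.φ (a * x * b) = C.φ (a * y * b)) : x = y := by
  refine sub_eq_zero.1 (C.φ_faithful _ ?_)
  have h1 := h (star (x - y)) 1
  rw [mul_one, mul_one] at h1
  rw [mul_sub, map_sub, h1, sub_self]

/-- What commutes with the subalgebra lies in it. -/
theorem eq_ι_E_of_comm {x : M} (h : ∀ f, C.r f * x = x * C.r f) : x = C.ι (C.E x) := by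
  classical
  refine C.ext_weak fun a b => tendsto_nhds_unique ?_ (C.pinch_tendsto a x b)
  refine tendsto_const_nhds.congr fun π => ?_
  have hp : ∑ i : π, C.r (cellFn π i) * x * C.r (cellFn π i) = x := by
    simp only [h, mul_assoc, ← r_mul, cellFn_mul_cellFn, if_pos]
    rw [← Finset.mul_sum, ← r_sum, sum_cellFn, r_one, mul_one]
  exact congrArg (fun y => C.φ (a * y * b)) hp.symm

theorem e_mul_e (π : DiscreteQuotient X) [DecidableEq π] (i j : π) :
    C.e π i * C.e π j = if i = j then C.e π i else 0 := by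
  rw [e, e, ← r_mul, cellFn_mul_cellFn]
  split_ifs
  · rfl
  · exact C.r_zero

theorem sum_e (π : DiscreteQuotient X) : ∑ i : π, C.e π i = 1 := by
  rw [← C.r_one, ← sum_cellFn π, C.r_sum]; rfl

theorem Er_off (G : M) : C.Er (C.off G) = 0 := by rw [off, Er_sub, Er_r, sub_self]

theorem off_isSelfAdjoint {G : M} (hG : IsSelfAdjoint G) : IsSelfAdjoint (C.off G) :=
  hG.sub (C.r_isSelfAdjoint _)

end SCore

end Vale.Agent.P078.AllMasa
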