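import Vale.Agent.P078.AllMasa.Part
import Vale.Agent.P078.AllMasa.Cov.Limit

/-! Second moments of the projected noise: all are controlled by one contraction on formal sums
of weighted normalising translations. -/

namespace Vale.Agent.P078.AllMasa

set_option linter.unusedSectionVars false

open Filter Topology ComplexOrder
open Vale.Agent.P078.Tracial

variable {M X : Type} [CStarAlgebra M] [PartialOrder M] [StarOrderedRing M]
variable [TopologicalSpace X] [CompactSpace X] [T2Space X] [TotallyDisconnectedSpace X]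
variable {r : ℕ} {d : LData X r}

theorem LData.norm_P_le (hd : d.Ok) (n : ℕ) (u : Fin r → C(X, ℝ)) :
    ‖d.P n u‖ ≤ 2 ^ n * ‖u‖ := by
  have hB := hd.B_pos.le
  have hK : ∀ c (f : C(X, ℝ)) x, |(d.F c).K f x| ≤ d.B * ‖f‖ := fun c f x => by
    have hpos : ∀ g : C(X, ℝ), 0 ≤ g → 0 ≤ (d.F c).K g x := fun g hg => by
      simpa using ContinuousMap.le_def.1 ((d.F c).K_nonneg (hd.symm c).g_nonneg hg) x
    have h1 := hpos (‖f‖ • 1 + f) (ContinuousMap.le_def.2 fun y => by
      have := abs_le.1 (f.norm_coe_le_norm y)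
      simp; linarith)
    have h2 := hpos (‖f‖ • 1 + (-1 : ℝ) • f) (ContinuousMap.le_def.2 fun y => by
      have := abs_le.1 (f.norm_coe_le_norm y)
      simp; linarith)
    simp only [Fam.K_add, Fam.K_smul, ContinuousMap.add_apply, ContinuousMap.smul_apply,
      smul_eq_mul] at h1 h2
    have h3 := mul_le_mul_of_nonneg_left (hd.K_le c x) (norm_nonneg f)
    exact abs_le.2 ⟨by linarith, by linarith⟩
  have hact : ∀ c (f : C(X, ℝ)), ‖d.act c * f‖ ≤ ‖f‖ := fun c f =>
    (ContinuousMap.norm_le _ (norm_nonneg f)).2 fun x => by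
      rcases hd.act_01 c x with h | h <;> simp [h]
      simpa using f.norm_coe_le_norm x
  have hLc : ∀ c (f : C(X, ℝ)), ‖d.Lc c f‖ ≤ 2 * d.B * ‖f‖ := fun c f => by
    rw [LData.Lc_apply]
    refine (hact c _).trans ((ContinuousMap.norm_le _ (by positivity)).2 fun x => ?_)
    have h1 := hK c (d.act c * f) x
    have h2 := (d.act c * f).norm_coe_le_norm x
    have h3 : |d.e c x| ≤ d.B := by
      have := ContinuousMap.le_def.1 (hd.e_nonneg c) x
      rw [abs_of_nonneg (by simpa using this)]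
      exact hd.e_le c x
    have h4 := hact c f
    simp only [ContinuousMap.sub_apply, ContinuousMap.mul_apply, Real.norm_eq_abs] at h1 h2 ⊢
    refine (abs_sub _ _).trans ?_
    rw [abs_mul (d.e c x)]
    nlinarith [mul_le_mul h3 h2 (abs_nonneg _) hB]
  have hstep : ∀ w : Fin r → C(X, ℝ), ‖d.step w‖ ≤ 2 * ‖w‖ := fun w => by
    have hL : ‖d.L w‖ ≤ 2 * d.B * r * ‖w‖ := by
      rw [LData.L_apply]
      refine (norm_sum_le _ _).trans ((Finset.sum_le_sum fun c _ => (hLc c _).trans
        (mul_le_mul_of_nonneg_left (norm_le_pi_norm w c) (by positivity))).trans_eq ?_)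
      simp; ring
    refine (pi_norm_le_iff_of_nonneg (by positivity)).2 fun c => ?_
    rw [LData.step_apply]
    refine (norm_sub_le _ _).trans ?_
    have h1 := norm_le_pi_norm w c
    have h2 : ‖d.Tn⁻¹ • d.Lc c (d.L w)‖ ≤ ‖w‖ := by
      rw [norm_smul, norm_inv, Real.norm_of_nonneg (LData.Tn_pos hd).le,
        inv_mul_le_iff₀ (LData.Tn_pos hd)]
      refine (hLc c _).trans ((mul_le_mul_of_nonneg_left hL (by positivity)).trans ?_)
      rw [LData.Tn]
      nlinarith [mul_nonneg (sq_nonneg (2 * d.B)) (norm_nonneg w)]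
    linarith
  rw [LData.P, LinearMap.comp_apply]
  induction n with
  | zero =>
    rw [pow_zero, pow_zero, Module.End.one_apply, one_mul]
    refine (pi_norm_le_iff_of_nonneg (norm_nonneg u)).2 fun c => ?_
    exact (hact c _).trans (norm_le_pi_norm u c)
  | succ n ih =>
    rw [pow_succ', Module.End.mul_apply, pow_succ']
    refine (hstep _).trans ?_
    rw [mul_assoc]
    linarith

theorem eventually_loss_le (C : SCore M X) (hd : d.Ok) (hF : ∀ c, (d.F c).FromNrm C) (n : ℕ)
    (c : Fin r) {G : M} (hG : 0 ≤ G) (a : M) {ε : ℝ} (hε : 0 < ε) :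
    ∀ᶠ π : DiscreteQuotient X in atBot,
      ∑ c', ∑ j : π, C.tr (a * (C.r (d.P n (unitVec π c' j) c) * G
          * C.r (d.P n (unitVec π c' j) c)) * star a)
        ≤ C.tr (a * C.r (d.act c * C.Er G) * star a) + ε := by
  have h := LData.tendsto_rows (C := C) (hF := hF) hd 1 c n G a
  have hle := LData.ipR_rows_le (C := C) (hF := hF) hd hG a 1 c n
  rw [one_mul, C.form_mulS _ _ (IsSelfAdjoint.of_nonneg hG), mul_right_comm,
    LData.act_mul_act hd] at hle
  exact (h.eventually_le_const (lt_add_of_le_of_pos hle hε)).mono fun π hπ => by simpa using hπ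

theorem eventually_sq_le (C : SCore M X) (hd : d.Ok) (hF : ∀ c, (d.F c).FromNrm C) (n : ℕ)
    (c : Fin r) {f : C(X, ℝ)} (hf : 0 ≤ f) {ε : ℝ} (hε : 0 < ε) :
    ∀ᶠ π : DiscreteQuotient X in atBot,
      ∑ c', ∑ j : π, C.ig (f * (d.P n (unitVec π c' j) c * d.P n (unitVec π c' j) c))
        ≤ C.ig (f * d.act c) + ε := by
  have hG : (0 : M) ≤ C.r f := C.r_nonneg hf
  have h := LData.tendsto_rows (C := C) (hF := hF) hd 1 c n (C.r f) 1
  have hle := LData.ipR_rows_le (C := C) (hF := hF) hd hG 1 1 c n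
  rw [one_mul, C.form_mulS _ _ (C.r_isSelfAdjoint f), C.Er_r, mul_right_comm,
    LData.act_mul_act hd, one_mul, star_one, mul_one, mul_comm (d.act c)] at hle
  refine (h.eventually_le_const (lt_add_of_le_of_pos hle hε)).mono fun π hπ => le_trans ?_ hπ
  refine le_of_eq (Finset.sum_congr rfl fun c' _ => Finset.sum_congr rfl fun j _ => ?_)
  simp only [one_mul, star_one, mul_one, ← C.r_mul, SCore.ig, OneMemClass.coe_one,
    Module.End.one_apply]
  congr 2
  ring

theorem eventually_sq_eq_diag (C : SCore M X) (hd : d.Ok) (hF : ∀ c, (d.F c).FromNrm C) (n : ℕ)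
    (c : Fin r) (f : C(X, ℝ)) {ε : ℝ} (hε : 0 < ε) :
    ∀ᶠ π : DiscreteQuotient X in atBot,
      |∑ c', ∑ j : π, C.ig (f * (d.P n (unitVec π c' j) c * d.P n (unitVec π c' j) c))
        - ∑ j : π, C.ig (f * (cellFn π j * d.P n (d.P n (unitVec π c j)) c))| ≤ ε := by
  have h1 := LData.tendsto_rows (C := C) (hF := hF) hd 1 c n (C.r f) 1
  rw [LData.ipR_rows_eq hd (C.r_isSelfAdjoint f)] at h1
  have h2 := C.tendsto_form (C.r f) 1 (C.mulS (d.act c)) (d.rowS C hF 1 c (2 * n) c)
  have h3 := h1.sub h2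
  rw [sub_self] at h3
  refine ((tendsto_zero_iff_abs_tendsto_zero _).1 h3 |>.eventually_le_const hε).mono fun π hπ =>
    le_trans (le_of_eq ?_) hπ
  simp only [Function.comp_apply]
  congr 2
  · refine Finset.sum_congr rfl fun c' _ => Finset.sum_congr rfl fun j _ => ?_
    simp only [one_mul, star_one, mul_one, ← C.r_mul, SCore.ig, OneMemClass.coe_one,
      Module.End.one_apply]
    congr 2
    ring
  · rw [C.cov_r_one]
    refine Finset.sum_congr rfl fun j _ => ?_
    rw [SCore.coe_mulS, mulC_apply, LData.coe_rowS, LData.rowPow_cell hd, LData.P_P hd,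
      mul_comm (d.act c), mul_assoc (cellFn π j), OneMemClass.coe_one, Module.End.one_apply,
      LData.act_P hd]

theorem eventually_row_le (C : SCore M X) (hd : d.Ok) (hF : ∀ c, (d.F c).FromNrm C) (n : ℕ)
    (c : Fin r) {F' : Fam X} (hF' : F'.FromNrm C) {f : C(X, ℝ)} (hf : 0 ≤ f) {A : ℝ}
    (hA : ∀ᶠ π : DiscreteQuotient X in atBot,
      ∑ j : π, C.ig (f * (F'.K (d.act c * cellFn π j) * F'.K (d.act c * cellFn π j))) ≤ A)
    {ε : ℝ} (hε : 0 < ε) :
    ∀ᶠ π : DiscreteQuotient X in atBot,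
      ∑ c', ∑ j : π, C.ig (f * (F'.K (d.P n (unitVec π c' j) c)
          * F'.K (d.P n (unitVec π c' j) c))) ≤ A + ε := by
  have hG : (0 : M) ≤ C.r f := C.r_nonneg hf
  set W := F'.toOps C hF'
  have h := LData.tendsto_rows (C := C) (hF := hF) hd W c n (C.r f) 1
  have hle := LData.ipR_rows_le (C := C) (hF := hF) hd hG 1 W c n
  have hA' : C.form (C.r f) 1 (W * C.mulS (d.act c)) (W * C.mulS (d.act c)) ≤ A := by
    refine le_of_tendsto (C.tendsto_form (C.r f) 1 _ _) (hA.mono fun π hπ => le_trans ?_ hπ)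
    rw [C.cov_r_one]
    simp [W, Fam.coe_toOps]
  refine (h.eventually_le_const (lt_add_of_le_of_pos (hle.trans hA') hε)).mono fun π hπ =>
    le_trans ?_ hπ
  refine le_of_eq (Finset.sum_congr rfl fun c' _ => Finset.sum_congr rfl fun j _ => ?_)
  simp only [one_mul, star_one, mul_one, ← C.r_mul, SCore.ig, W, Fam.coe_toOps, Fam.Kl_apply]
  congr 2
  ring

theorem eventually_residual_le (C : SCore M X) (hd : d.Ok) (hF : ∀ c, (d.F c).FromNrm C) {n : ℕ}
    (hn : 0 < n) {ε : ℝ} (hε : 0 < ε) :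
    ∀ᶠ π : DiscreteQuotient X in atBot,
      ∑ c, ∑ j : π, C.ig (d.L (d.P n (unitVec π c j)) * d.L (d.P n (unitVec π c j)))
        ≤ d.Tn / n * C.ig d.U + ε := by
  exact (LData.tendsto_budget (C := C) (hF := hF) hd n).eventually_le_const
    (lt_add_of_le_of_pos (LData.budget_le hd hn) hε)

/-- A crude bound for any positive linear map, used for tails of kernels. -/
theorem exists_crude_le (C : SCore M X) (hd : d.Ok) (n : ℕ) (c : Fin r) :
    ∃ Cst : ℝ, 0 ≤ Cst ∧ ∀ Q : C(X, ℝ) →ₗ[ℝ] C(X, ℝ), (∀ f, 0 ≤ f → 0 ≤ Q f) →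
      ∀ π₀ : DiscreteQuotient X, ∀ᶠ π : DiscreteQuotient X in atBot,
        ∑ c', ∑ j : π, C.ig (Q (d.P n (unitVec π c' j) c) * Q (d.P n (unitVec π c' j) c))
          ≤ Cst * ∑ i : π₀, C.ig (Q (cellFn π₀ i) * Q (cellFn π₀ i)) := by
  have h : ∀ c', d.rowPow 1 c n c' ∈ wtSpan X := fun c' =>
    d.rowPow_mem_wtSpan (by
      rw [show (1 : Module.End ℝ C(X, ℝ)) = mulC 1 from LinearMap.ext fun f => by simp]
      exact mulC_mem_wtSpan 1) c n c'
  choose K hK hb using fun c' => exists_crude_of_mem_wtSpan C (h c')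
  refine ⟨∑ c', K c', Finset.sum_nonneg fun c' _ => hK c', fun Q hQ π₀ => ?_⟩
  filter_upwards [eventually_all.2 fun c' => hb c' Q hQ π₀] with π hπ
  rw [Finset.sum_mul]
  refine Finset.sum_le_sum fun c' _ => le_trans (le_of_eq ?_) (hπ c')
  simp [LData.rowPow_cell hd]

end Vale.Agent.P078.AllMasa
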