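import Vale.Agent.P078.AllMasa.Defect.Link
import Vale.Agent.P078.AllMasa.Defect.Bound

/-! The defect of the smoothed projection: symmetric kernels with a common supersolution lose at
most a square root of the number of colours. Proved on the lifted space `L2 (X × (0, ∞))`, where
the translations preserve the measure and the diagonal is symmetric on a closed operator algebra. -/

namespace Vale.Agent.P078.AllMasa

set_option linter.unusedSectionVars false

open Filter Topology MeasureTheory
open Vale.Agent.P078.Tracial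

variable {X : Type} [TopologicalSpace X] [CompactSpace X] [T2Space X] [TotallyDisconnectedSpace X]
variable [MeasurableSpace X] [BorelSpace X]

theorem eventually_defect_le {μ : Measure X} [IsFiniteMeasure μ] [μ.Regular] {r : ℕ}
    {d : LData X r} (hd : d.Ok) (hnull : ∀ c k, ((d.F c).p k).NullPres μ) {τ0 : ℝ} (hτ0 : 0 < τ0)
    (hsuper : ∀ c (f : C(X, ℝ)), 0 ≤ f →
      (∫ x, d.act c x * (d.F c).K (d.act c * f) x ∂μ) + τ0 * ∫ x, d.act c x * f x ∂μ
        ≤ ∫ x, d.e c x * (d.act c x * f x) ∂μ)
    (n : ℕ) {ε : ℝ} (hε : 0 < ε) :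
    ∀ᶠ π : DiscreteQuotient X in atBot,
      ∑ c, ∑ j : π, ∫ x, cellFn π j x
          * (d.act c x * cellFn π j x - d.P n (d.P n (unitVec π c j)) c x) ∂μ
        ≤ 4 * √r * (∫ x, d.U x ∂μ) + ε := by
  rcases Nat.eq_zero_or_pos r with rfl | hr
  · refine Eventually.of_forall fun π => ?_
    simp only [Finset.univ_eq_empty, Finset.sum_empty, Nat.cast_zero, Real.sqrt_zero, mul_zero,
      zero_mul, zero_add]
    exact hε.le
  have hns : ∀ c k, ((d.F c).p k).NS μ := fun c k => Lift.ns_of_symm hd hnull c k
  filter_upwards [Lift.eventually_lifted_le hd hnull hns hτ0 hsuper hr n (half_pos hε),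
    NormedAddGroup.tendsto_nhds_zero.1 (Lift.tendsto_link hd hns n) (ε / 2) (half_pos hε)]
    with π h1 h2
  have h3 := (abs_le.1 ((Complex.abs_re_le_norm _).trans h2.le)).2
  simp only [Complex.sub_re, Complex.ofReal_re] at h3
  linarith

end Vale.Agent.P078.AllMasa
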