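import Vale.Agent.P078.AllMasa.Ops

/-! The states, the potential and the invariants of the one-sided argument. -/

namespace Vale.Agent.P078.AllMasa

set_option linter.unusedSectionVars false

open Filter Topology ComplexOrder
open Vale.Agent.P078.Tracial

/-- The profile of the budget. -/
noncomputable def FP (κ ξ : ℝ) : ℝ := 1 / ξ + κ / (ξ ^ 2 * √ξ)

/-- The derivative of the profile in the weight. -/
noncomputable def DP (κ ξ : ℝ) : ℝ := 1 / ξ ^ 2 + 5 / 2 * (κ / (ξ ^ 3 * √ξ))

/-- Half the second derivative of the profile in the weight. -/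
noncomputable def QP (κ ξ : ℝ) : ℝ := 1 / ξ ^ 3 + 35 / 8 * (κ / (ξ ^ 4 * √ξ))

/-- The parameters: the element, the scale, the budget and the small constants. -/
structure Prm (M : Type) where
  y : M
  t : ℝ
  S : ℝ
  eP : ℝ
  l : ℝ
  ν : ℝ
  Λ : ℝ
  t_pos : 0 < t
  t_le : t ≤ 1 / 100
  S_nonneg : 0 ≤ S
  eP_pos : 0 < eP
  l_pos : 0 < l
  l_le : l ≤ 1
  ν_pos : 0 < ν
  ν_le : ν ≤ 1
  Λ_pos : 0 < Λ
  νΛ : 1 ≤ ν * Λ ^ 2

namespace Prm

variable {M : Type} (P : Prm M)

/-- The bound of the element. -/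
noncomputable def β : ℝ := P.t ^ 3

/-- The scale of the excess. -/
noncomputable def κ : ℝ := 4 * P.t ^ 6

/-- The initial budget. -/
noncomputable def b0 : ℝ := P.t ^ 6

/-- The lower margin of the budget. -/
noncomputable def b1 : ℝ := P.t ^ 6 / 4

/-- The least distance of a weight from one. -/
noncomputable def ξa : ℝ := 12 * P.t ^ 4

/-- The distance from one at which a colour is assigned. -/
noncomputable def ξm : ℝ := 16 * P.t ^ 4

/-- The distance from one of the weight of an assigned colour. -/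
noncomputable def ξf : ℝ := 20 * P.t ^ 4

/-- The lower bound of the weight. -/
noncomputable def Wlo : ℝ := 1 - 4 / P.b1

/-- The weight of an assigned colour. -/
noncomputable def Wf : ℝ := 1 - P.ξf

/-- The cap of the weight. -/
noncomputable def Wa : ℝ := 1 - P.ξa

/-- The window of the weight. -/
noncomputable def Wm : ℝ := 1 - P.ξm

/-- The least slope in the window. -/
noncomputable def Dmin : ℝ := P.b1 ^ 2 / 16

/-- The largest slope. -/
noncomputable def Dmax : ℝ := 4 / P.ξa ^ 2

/-- The least price. -/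
noncomputable def pmin : ℝ := P.l / P.Dmax

/-- The largest price. -/
noncomputable def pmax : ℝ := 2 / P.Dmin

theorem b1_pos : 0 < P.b1 := by unfold b1; have := P.t_pos; positivity

theorem κ_pos : 0 < P.κ := by unfold κ; have := P.t_pos; positivity

theorem ξa_pos : 0 < P.ξa := by unfold ξa; have := P.t_pos; positivity

theorem Dmin_pos : 0 < P.Dmin := by unfold Dmin; have := P.b1_pos; positivity

theorem Dmax_pos : 0 < P.Dmax := by unfold Dmax; have := P.ξa_pos; positivity

theorem pmin_pos : 0 < P.pmin := div_pos P.l_pos P.Dmax_pos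

end Prm

variable {M X : Type} [CStarAlgebra M] [PartialOrder M] [StarOrderedRing M]
variable [TopologicalSpace X] [CompactSpace X] [T2Space X] [TotallyDisconnectedSpace X]

/-- The data of one colour. -/
structure Col (M X : Type) [Monoid M] [TopologicalSpace X] where
  act : C(X, ℝ)
  ass : C(X, ℝ)
  b : C(X, ℝ)
  W : C(X, ℝ)
  G : Mˣ
  Z : M

/-- A colouring in progress. -/
abbrev Config (M X : Type) [Monoid M] [TopologicalSpace X] (r : ℕ) := Fin r → Col M X

/-- A colouring: finitely many projections with sum one. -/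
def IsCol {κ : Type} [Fintype κ] (p : κ → C(X, ℝ)) : Prop :=
  (∀ i x, p i x = 0 ∨ p i x = 1) ∧ ∑ i, p i = 1

/-- The unassigned set. -/
noncomputable def Config.U {r : ℕ} (s : Config M X r) : C(X, ℝ) := 1 - ∑ c, (s c).ass

namespace Prm

variable (P : Prm M) (C : SCore M X)

/-- The distance of the weight from one, clamped from below. -/
noncomputable def xi (s : Col M X) : C(X, ℝ) := ⟨fun x => max (1 - s.W x) P.ξa, by fun_prop⟩

theorem xi_pos (s : Col M X) (x : X) : 0 < P.xi s x := lt_max_of_lt_right P.ξa_pos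

/-- The slope at the weight. -/
noncomputable def Dc (s : Col M X) : C(X, ℝ) :=
  ⟨fun x => DP P.κ (P.xi s x), by
    have h := P.xi_pos s
    have h' : ∀ x, √(P.xi s x) ≠ 0 := fun x => (Real.sqrt_pos.2 (h x)).ne'
    have h'' := fun x => (h x).ne'
    unfold DP
    fun_prop (disch := first | intro x; simp [h' x, h'' x] | exact h'' | exact h')⟩

/-- Half the curvature at the weight. -/
noncomputable def Qc (s : Col M X) : C(X, ℝ) :=
  ⟨fun x => QP P.κ (P.xi s x), by
    have h := P.xi_pos s
    have h' : ∀ x, √(P.xi s x) ≠ 0 := fun x => (Real.sqrt_pos.2 (h x)).ne'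
    have h'' := fun x => (h x).ne'
    unfold QP
    fun_prop (disch := first | intro x; simp [h' x, h'' x] | exact h'' | exact h')⟩

theorem Dc_pos (s : Col M X) (x : X) : 0 < P.Dc s x := by
  show 0 < DP P.κ (P.xi s x)
  have := P.κ_pos
  have := P.xi_pos s x
  unfold DP; positivity

/-- The inverse slope. -/
noncomputable def iD (s : Col M X) : C(X, ℝ) :=
  ⟨fun x => (P.Dc s x)⁻¹, (map_continuous (P.Dc s)).inv₀ fun x => (P.Dc_pos s x).ne'⟩

/-- The weight of one colour. -/
noncomputable def wt (s : Col M X) : C(X, ℝ) :=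
  s.act * s.W + P.Wf • s.ass + (1 - s.act - s.ass) * ⟨fun x => min (s.W x) 0, by fun_prop⟩

/-- The slack matrix of one colour. -/
noncomputable def mat (s : Col M X) : M :=
  1 + s.Z - ((↑s.G⁻¹ : M) + P.y + C.r (P.wt s))

/-- The inverse of the slack. -/
noncomputable def R (s : Col M X) : M := Ring.inverse (P.mat C s)

/-- The potential of one colour. -/
noncomputable def pot (s : Col M X) : ℝ :=
  C.tr s.Z + P.eP ^ 2 * C.tr (P.R C s) + P.l * (C.ig (P.wt s) - P.Wlo)
    + P.ν * C.tr (s.G : M)

/-- The total potential. -/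
noncomputable def Psi {r : ℕ} (s : Config M X r) : ℝ := ∑ c, P.pot C (s c)

/-- The derivative of the potential in the slack. -/
noncomputable def VG (s : Col M X) (x : M) : ℝ := P.eP ^ 2 * C.tr (P.R C s * x * P.R C s)

/-- The derivative of the potential in the weight. -/
noncomputable def VW (s : Col M X) (f : C(X, ℝ)) : ℝ := P.VG C s (C.r f) + P.l * C.ig f

end Prm

/-- The hypotheses on the element. -/
structure Prm.Ok (P : Prm M) (C : SCore M X) : Prop where
  y_sa : IsSelfAdjoint P.y
  Er_y : C.Er P.y = 0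
  norm_y : ‖P.y‖ ≤ P.β

/-- Validity of the data of one colour. -/
structure Col.Ok (s : Col M X) (P : Prm M) (C : SCore M X) : Prop where
  act_01 : ∀ x, s.act x = 0 ∨ s.act x = 1
  ass_01 : ∀ x, s.ass x = 0 ∨ s.ass x = 1
  act_ass : ∀ x, s.act x = 1 → s.ass x = 0
  act_b : ∀ x, s.act x = 1 → -P.b1 ≤ s.b x
  W_mem : ∀ x, P.Wlo ≤ s.W x ∧ s.W x ≤ P.Wa
  G_nonneg : 0 ≤ (s.G : M)
  Z_nonneg : 0 ≤ s.Z
  mat_pos : IsStrictlyPositive (P.mat C s)
  inv : ∀ x, s.act x = 1 →
    s.b x + 2 * P.b1 ≤ FP P.κ (1 - s.W x) - C.Er (s.G : M) x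

/-- Validity of a state. -/
structure StateOk {r : ℕ} (P : Prm M) (C : SCore M X) (s : Config M X r) : Prop where
  col : ∀ c, (s c).Ok P C
  U_01 : ∀ x, Config.U s x = 0 ∨ Config.U s x = 1
  act_le : ∀ c x, (s c).act x ≤ Config.U s x
  b_sum : ∑ c, (s c).b = P.S • Config.U s
  b_drop : ∀ c x, (s c).act x = 0 → (s c).b x ≤ 0

namespace Prm

variable (P : Prm M) (C : SCore M X)

/-- A colour inside the window and between the clipping levels. -/
structure Good (s : Col M X) : Prop where
  low : ∀ x, s.act x = 1 → -P.b1 / 2 ≤ s.b x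
  high : ∀ x, s.act x = 1 → s.W x ≤ P.Wm
  G_le : (s.G : M) ≤ algebraMap ℝ M P.Λ
  mat_ge : algebraMap ℝ M P.eP ≤ P.mat C s

/-- The state is an approximate minimiser. -/
def IsMin {r : ℕ} (s : Config M X r) (ζ : ℝ) : Prop :=
  ∀ u : Config M X r, StateOk P C u → P.Psi C s ≤ P.Psi C u + ζ

/-- The direction of the budget of one colour. -/
noncomputable def dir (s : Col M X) (k h : C(X, ℝ)) : C(X, ℝ) :=
  s.act * (P.Dc s * k - C.K (s.G : M) k - h)

/-- The first order change of the potential of one colour. -/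
noncomputable def lin (s : Col M X) (k h : C(X, ℝ)) : ℝ :=
  -P.VG C s (C.r (s.act * h * P.iD s)) + P.l * C.ig (s.act * (k - h * P.iD s))
    + P.ν * C.tr ((s.G : M) * C.r k * (s.G : M))

/-- The second order change of the potential of one colour. -/
noncomputable def second (s : Col M X) (k h : C(X, ℝ)) : ℝ :=
  P.VG C s (C.r k * (s.G : M) * C.r k)
    - P.VW C s (s.act * P.iD s * P.Qc s * ((k - h * P.iD s) * (k - h * P.iD s)))
    + P.VG C s (C.r (s.act * h * P.iD s) * P.R C s * C.r (s.act * h * P.iD s))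

end Prm

end Vale.Agent.P078.AllMasa
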