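import Vale.Agent.P078.AllMasa.Part
import Vale.Agent.P078.AllMasa.Family.FromSCore

/-! The atomic part of the kernel of an element with zero expectation is exhausted by symmetric
families of weighted normalising translations. -/

namespace Vale.Agent.P078.AllMasa

set_option linter.unusedSectionVars false

open Filter Topology ComplexOrder
open Vale.Agent.P078.Tracial

variable {M X : Type} [CStarAlgebra M] [PartialOrder M] [StarOrderedRing M]
variable [TopologicalSpace X] [CompactSpace X] [T2Space X] [TotallyDisconnectedSpace X]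

namespace Family

theorem pn_isNrm (C : SCore M X) {v : M} (h : (data C).IsPN v) : IsNrm C v where
  partial_iso := h.pi
  left f := by
    obtain ⟨b, hb⟩ := h.conj (toC f)
    refine ⟨C.Er (v * C.r f * star v), ?_⟩
    have hsa : IsSelfAdjoint (v * C.r f * star v) := (C.r_isSelfAdjoint f).conjugate v
    show _ = C.ι (toC (C.Er (v * C.r f * star v)))
    rw [← C.E_eq_toC_Er hsa]
    show v * C.ι (toC f) * star v = C.ι (C.E (v * C.ι (toC f) * star v))
    change C.ι b = v * C.ι (toC f) * star v at hb
    rw [← hb, C.E_ι]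
  right f := by
    obtain ⟨b, hb⟩ := h.conj' (toC f)
    refine ⟨C.Er (star v * C.r f * v), ?_⟩
    have hsa : IsSelfAdjoint (star v * C.r f * v) := (C.r_isSelfAdjoint f).conjugate' v
    show _ = C.ι (toC (C.Er (star v * C.r f * v)))
    rw [← C.E_eq_toC_Er hsa]
    show star v * C.ι (toC f) * v = C.ι (C.E (star v * C.ι (toC f) * v))
    change C.ι b = star v * C.ι (toC f) * v at hb
    rw [← hb, C.E_ι]

theorem conjFn_left {C : SCore M X} {v : M} {p : PMap X} (h : Implements C v p) (f : C(X, ℝ)) :
    (data C).conjFn v (toC f) = toC (p.T f) := by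
  show C.E (v * C.r f * star v) = _
  rw [h.left, SCore.r, C.E_ι]

theorem conjFn_right {C : SCore M X} {v : M} {p : PMap X} (h : Implements C v p) (f : C(X, ℝ)) :
    (data C).conjFn (star v) (toC f) = toC (p.symm.T f) := by
  show C.E (star v * C.r f * star (star v)) = _
  rw [star_star, h.right, SCore.r, C.E_ι]

theorem conjFn_mul {D : Data M X} {v : M} (h : D.IsPN v) (a b : C(X, ℂ)) :
    D.conjFn v (a * b) = D.conjFn v a * D.conjFn v b := by
  obtain ⟨c, hc⟩ := h.sq_mem'
  rw [← D.E_ι (D.conjFn v a * D.conjFn v b), map_mul, h.ι_conjFn, h.ι_conjFn, Data.conjFn]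
  congr 1
  rw [map_mul]
  calc v * (D.ι a * D.ι b) * star v
      = v * star v * v * (D.ι a * D.ι b) * star v := by rw [h.pi]
    _ = v * ((star v * v) * D.ι a) * D.ι b * star v := by simp only [mul_assoc]
    _ = v * (D.ι a * (star v * v)) * D.ι b * star v := by rw [← hc, D.ι_comm]
    _ = _ := by simp only [mul_assoc]

theorem conjFn_star {D : Data M X} (v : M) (a : C(X, ℂ)) :
    D.conjFn v (star a) = star (D.conjFn v a) := by
  rw [Data.conjFn, Data.conjFn, ← D.E_star, star_mul, star_mul, star_star, map_star, mul_assoc]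

/-- Twice the weight of a translation. -/
noncomputable def weight (C : SCore M X) (z v : M) : C(X, ℝ) :=
  reC ((data C).coeff z v * star ((data C).coeff z v))

theorem toC_weight (C : SCore M X) (z v : M) :
    toC (weight C z v) = (data C).coeff z v * star ((data C).coeff z v) := by
  ext x
  apply Complex.ext
  · simp [weight]
  · simp [weight, Complex.mul_im]; ring

theorem weight_nonneg (C : SCore M X) (z v : M) : 0 ≤ weight C z v :=
  ContinuousMap.le_def.2 fun x => by
    simp [weight, Complex.mul_re]
    nlinarith [sq_nonneg ((data C).coeff z v x).re, sq_nonneg ((data C).coeff z v x).im]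

theorem weight_star {C : SCore M X} {z v : M} {p : PMap X} (hv : (data C).IsPN v)
    (h : Implements C v p) (hz : IsSelfAdjoint z) :
    weight C z (star v) = p.symm.T (weight C z v) := by
  have h1 : toC (weight C z (star v)) = toC (p.symm.T (weight C z v)) := by
    rw [← conjFn_right h, toC_weight, toC_weight, conjFn_mul hv.star_pn, conjFn_star,
      ← hv.coeff_symm hz, star_star, mul_comm]
  ext x
  have := congrArg Complex.re (ContinuousMap.congr_fun h1 x)
  simpa using this

theorem bessel_real {C : SCore M X} {z : M} {G : Finset M} (hG : (data C).IsFamily G)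
    (p : M → PMap X) (hp : ∀ u ∈ G, Implements C u (p u)) (f : C(X, ℝ)) :
    C.K z f = (∑ u ∈ G, weight C z u * (p u).T f) + C.K ((data C).rest z G) f := by
  have h := Data.bessel (z := z) hG (toC f)
  ext x
  have hx := congrArg Complex.re (ContinuousMap.congr_fun h x)
  rw [ContinuousMap.add_apply, ContinuousMap.sum_apply, Complex.add_re, Complex.re_sum] at hx
  rw [ContinuousMap.add_apply, ContinuousMap.sum_apply]
  refine hx.trans (congrArg₂ (· + ·) (Finset.sum_congr rfl fun u hu => ?_) rfl)
  rw [conjFn_left (hp u hu), ← toC_weight, ← toC_mul]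
  rfl

theorem K_nonneg (C : SCore M X) (r : M) {f : C(X, ℝ)} (hf : 0 ≤ f) : 0 ≤ C.K r f :=
  C.Er_nonneg (star_right_conjugate_nonneg (C.r_nonneg hf) r)

end Family

open Family in
theorem exists_family (C : SCore M X) {z : M} (hz : IsSelfAdjoint z) (_hE : C.Er z = 0) {ε : ℝ}
    (hε : 0 < ε) :
    ∃ F : Fam X, F.Symm ∧ F.FromNrm C ∧ (∀ f, 0 ≤ f → F.K f ≤ C.K z f) ∧
      ∀ᶠ π : DiscreteQuotient X in atBot,
        ∑ j : π, C.ig ((C.K z (cellFn π j) - F.K (cellFn π j))
          * (C.K z (cellFn π j) - F.K (cellFn π j))) ≤ ε := by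
  classical
  have : Nonempty X := by
    by_contra hX
    rw [not_nonempty_iff] at hX
    have h1 : (1 : M) = 0 := by
      rw [← map_one C.ι, show (1 : C(X, ℂ)) = 0 from ContinuousMap.ext fun x => hX.elim x, map_zero]
    have h2 := C.φ_one
    rw [h1, map_zero] at h2
    exact zero_ne_one h2
  obtain ⟨S, hS, hmax⟩ := (data C).exists_maximal z
  obtain ⟨F₀, hF₀, hT₀⟩ := (data C).tail_of_maximal hS hmax hε
  obtain ⟨F₁, hF₁, hT₁⟩ := (data C).tail_of_maximal (hS.star_set hz)
    (Data.maximal_star hz hmax) hε
  set G := F₀ ∪ F₁.image star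
  have hG : (G : Set M) ⊆ S := by
    intro u hu
    simp only [G, Finset.coe_union, Finset.coe_image, Set.mem_union] at hu
    rcases hu with hu | ⟨v, hv, rfl⟩
    · exact hF₀ hu
    · obtain ⟨w, hw, rfl⟩ := hF₁ hv
      rwa [star_star]
  set G' := G.image star
  have hG' : (G' : Set M) ⊆ star '' S := by
    simp only [G', Finset.coe_image]
    exact Set.image_mono hG
  have hsub : F₁ ⊆ G' := fun v hv => Finset.mem_image.2
    ⟨star v, Finset.mem_union_right _ (Finset.mem_image_of_mem _ hv), star_star v⟩
  obtain ⟨π₀, hπ₀⟩ := hT₀ G Finset.subset_union_left hG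
  obtain ⟨π₁, hπ₁⟩ := hT₁ G' hsub hG'
  choose q hq using fun u : G => exists_implements C (pn_isNrm C (hS.pn _ (hG u.2)))
  let e := Fintype.equivFin (G × Bool)
  let gg : G × Bool → C(X, ℝ) := fun k =>
    bif k.2 then (q k.1).symm.T ((1 / 2 : ℝ) • weight C z k.1) else (1 / 2 : ℝ) • weight C z k.1
  let pp : G × Bool → PMap X := fun k => bif k.2 then (q k.1).symm else q k.1
  let Fm : Fam X := ⟨Fintype.card (G × Bool), fun i => gg (e.symm i), fun i => pp (e.symm i)⟩
  have hw : ∀ u : G, weight C z (u : M) * (q u).d = weight C z u := by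
    intro u
    have h1 := conjFn_left (hq u) 1
    have e1 : (q u).T 1 = (q u).d := by rw [PMap.T]; ext x; simp
    have e2 : (data C).conjFn (u : M) (toC 1) = (data C).E ((u : M) * star (u : M)) := by
      rw [Data.conjFn, show toC (1 : C(X, ℝ)) = 1 by ext x; simp, map_one, mul_one]
    rw [e1, e2] at h1
    have h3 : toC (weight C z (u : M) * (q u).d) = toC (weight C z (u : M)) := by
      rw [toC_mul, toC_weight, ← h1, mul_right_comm, Data.coeff_mul_sq (hS.pn _ (hG u.2))]
    ext x
    simpa using congrArg Complex.re (ContinuousMap.congr_fun h3 x)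
  have hTd : ∀ (r : PMap X) (f : C(X, ℝ)), r.T f * r.d = r.T f := fun r f => by
    ext x
    simp only [PMap.T, ContinuousMap.mul_apply, PMap.d_apply]
    split_ifs <;> simp
  have hK : ∀ f, Fm.K f = (1 / 2 : ℝ) • ((C.K z f - C.K ((data C).rest z G) f) +
      (C.K z f - C.K ((data C).rest z G') f)) := by
    intro f
    let pS : M → PMap X := fun v => if hv : v ∈ G then q ⟨v, hv⟩ else (if hv : star v ∈ G then
      (q ⟨star v, hv⟩).symm else
      ⟨∅, ∅, isClopen_empty, isClopen_empty, ContinuousMap.id X, ContinuousMap.id X,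
        fun _ h => h, fun _ h => h, fun _ h => h.elim, fun _ h => h.elim⟩)
    let pS' : M → PMap X := fun v => if hv : star v ∈ G then (q ⟨star v, hv⟩).symm else pS v
    have b1 := bessel_real (z := z) (hS.family hG) pS (fun u hu => by
      simp only [pS, dif_pos hu]; exact hq ⟨u, hu⟩) f
    have b2 := bessel_real (z := z) ((hS.star_set hz).family hG') pS' (fun v hv => by
      obtain ⟨u, hu, rfl⟩ := Finset.mem_image.1 hv
      have hu' : star (star u) ∈ G := by rwa [star_star]
      simp only [pS', dif_pos hu']
      have h := (hq ⟨star (star u), hu'⟩).symm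
      simp only [star_star] at h ⊢
      exact h) f
    rw [sub_eq_iff_eq_add.2 b1, sub_eq_iff_eq_add.2 b2,
      Finset.sum_image (fun a _ b _ h => star_injective h), ← Finset.sum_attach G,
      ← Finset.sum_attach G (fun u => weight C z (star u) * (pS' (star u)).T f),
      ← Finset.sum_add_distrib, Finset.smul_sum, Fam.K, ← e.sum_comp, Fintype.sum_prod_type,
      Finset.univ_eq_attach]
    refine Finset.sum_congr rfl fun u _ => ?_
    have h1 : pS (u : M) = q u := by simp only [pS, dif_pos u.2, Subtype.coe_eta]
    have h2 : pS' (star (u : M)) = (q u).symm := by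
      have hu' : star (star (u : M)) ∈ G := by rw [star_star]; exact u.2
      simp only [pS', dif_pos hu']
      congr 2
      exact Subtype.ext (star_star _)
    rw [Fintype.sum_bool, h1, h2, weight_star (hS.pn _ (hG u.2)) (hq u) hz]
    simp only [Fm, Equiv.symm_apply_apply, gg, pp, cond_true, cond_false, PMap.T_smul,
      smul_mul_assoc, smul_add]
    exact add_comm _ _
  refine ⟨Fm, ⟨fun i => ?_, fun i => ?_, fun i =>
    e ((e.symm i).1, !(e.symm i).2), fun i => by simp, fun i => ?_, fun i => ?_⟩, fun i => ?_,
    fun f hf => ?_, ?_⟩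
  · simp only [Fm, gg]
    cases (e.symm i).2
    · exact smul_nonneg (by norm_num) (weight_nonneg C z _)
    · exact PMap.T_nonneg _ (smul_nonneg (by norm_num) (weight_nonneg C z _))
  · simp only [Fm, gg, pp]
    cases (e.symm i).2
    · simp only [cond_false, smul_mul_assoc, hw]
    · simp only [cond_true, hTd]
  · simp only [Fm, pp, Equiv.symm_apply_apply]
    cases (e.symm i).2 <;> rfl
  · simp only [Fm, gg, pp, Equiv.symm_apply_apply]
    cases (e.symm i).2
    · simp only [cond_true, cond_false, Bool.not_false]
    · simp only [cond_true, cond_false, Bool.not_true, PMap.T_smul]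
      set r := q (e.symm i).1
      have hr := hw (e.symm i).1
      ext x
      have hx := ContinuousMap.congr_fun hr x
      simp only [ContinuousMap.mul_apply, PMap.d_apply] at hx
      simp only [ContinuousMap.smul_apply, PMap.T, PMap.symm, ContinuousMap.mul_apply,
        ContinuousMap.comp_apply, PMap.d_apply]
      by_cases hd : x ∈ r.dom
      · simp [hd, r.map_dom x hd, r.left_inv x hd, r]
      · rw [if_neg hd, mul_zero] at hx
        simp [hd, r, ← hx]
  · simp only [Fm, pp]
    cases (e.symm i).2
    · exact ⟨_, hq _⟩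
    · exact ⟨_, (hq _).symm⟩
  · rw [hK]
    refine ContinuousMap.le_def.2 fun x => ?_
    have h1 := ContinuousMap.le_def.1 (Family.K_nonneg C ((data C).rest z G) hf) x
    have h2 := ContinuousMap.le_def.1 (Family.K_nonneg C ((data C).rest z G') hf) x
    simp only [ContinuousMap.zero_apply] at h1 h2
    simp only [ContinuousMap.smul_apply, ContinuousMap.add_apply, ContinuousMap.sub_apply,
      smul_eq_mul]
    linarith
  · filter_upwards [eventually_le_atBot π₀, eventually_le_atBot π₁] with π h₀ h₁
    have a₀ := hπ₀ π h₀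
    have a₁ := hπ₁ π h₁
    have hc : ∀ (r : M) (j : π), ((data C).posMap r).K (cell π j) = C.K r (cellFn π j) :=
      fun r j => by
        show toR (C.E (r * C.ι (ofR (Family.ind (cell π j))) * star r)) = _
        rw [ofR_eq, toR_eq, ind_cell]
        rfl
    simp only [hc] at a₀ a₁
    change C.ig _ < ε at a₀
    change C.ig _ < ε at a₁
    have hle : ∀ j : π, C.ig ((C.K z (cellFn π j) - Fm.K (cellFn π j))
        * (C.K z (cellFn π j) - Fm.K (cellFn π j))) ≤
        1 / 2 * C.ig (C.K ((data C).rest z G) (cellFn π j) * C.K ((data C).rest z G) (cellFn π j))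
        + 1 / 2 * C.ig (C.K ((data C).rest z G') (cellFn π j) *
          C.K ((data C).rest z G') (cellFn π j)) := fun j => by
      rw [← C.ig_smul, ← C.ig_smul, ← C.ig_add]
      refine C.ig_mono (ContinuousMap.le_def.2 fun x => ?_)
      simp only [hK, ContinuousMap.mul_apply, ContinuousMap.sub_apply, ContinuousMap.smul_apply,
        ContinuousMap.add_apply, smul_eq_mul]
      nlinarith [sq_nonneg (C.K ((data C).rest z G) (cellFn π j) x -
        C.K ((data C).rest z G') (cellFn π j) x)]
    refine (Finset.sum_le_sum fun j _ => hle j).trans ?_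
    rw [Finset.sum_add_distrib, ← Finset.mul_sum, ← Finset.mul_sum, ← C.ig_sum, ← C.ig_sum]
    linarith

end Vale.Agent.P078.AllMasa
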