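import Vale.Agent.P078.AllMasa.Core
import Vale.Agent.P078.Tracial.SemifiniteCorner

/-! From a von Neumann algebra with a faithful normal state centralised by a MASA, given by
vectors, to the abstract data, and back to strong-operator paving. -/

namespace Vale.Agent.P078.AllMasa

open Filter Topology ComplexOrder
open scoped InnerProductSpace
open Vale.Agent.P078.Tracial

/-- A faithful normal state with `A` in its centraliser, given by its vectors. -/
structure StateVectors {H : Type} [NormedAddCommGroup H] [InnerProductSpace ℂ H]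
    [CompleteSpace H] (M : VonNeumannAlgebra H) (A : StarSubalgebra ℂ (H →L[ℂ] H))
    (ξ : ℕ → H) : Prop where
  summable : Summable fun n => ‖ξ n‖ ^ 2
  total : ∑' n, ‖ξ n‖ ^ 2 = 1
  central : ∀ a ∈ A, ∀ x ∈ M,
    ∑' n, inner ℂ (ξ n) ((a * x) (ξ n)) = ∑' n, inner ℂ (ξ n) ((x * a) (ξ n))
  faithful : ∀ x ∈ M, (∀ n, x (ξ n) = 0) → x = 0

/-- What the abstract argument proves. -/
def PavingConclusion (ε : ℝ) (N : ℕ) : Prop :=
  ∀ (M X : Type) [CStarAlgebra M] [PartialOrder M] [StarOrderedRing M]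
    [TopologicalSpace X] [CompactSpace X] [T2Space X] [TotallyDisconnectedSpace X]
    (C : SCore M X) (x : M), IsSelfAdjoint x → ‖x‖ ≤ 1 → ∀ δ > 0,
    ∃ (p : Fin N → C(X, ℝ)) (Z : M),
      (∀ c t, p c t = 0 ∨ p c t = 1) ∧ ∑ c, p c = 1 ∧ 0 ≤ Z ∧ C.tr Z ≤ δ ∧
      C.spinch p x - C.r (C.Er x) ≤ algebraMap ℝ M ε + Z ∧
      -(algebraMap ℝ M ε + Z) ≤ C.spinch p x - C.r (C.Er x)

section Build

set_option linter.unusedSectionVars false

variable {H : Type} [NormedAddCommGroup H] [InnerProductSpace ℂ H] [CompleteSpace H]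
variable {M : VonNeumannAlgebra H} {A : StarSubalgebra ℂ (H →L[ℂ] H)} {ξ : ℕ → H}
variable (hξ : StateVectors M A ξ)

/-- The state of the vectors. -/
noncomputable def StateVectors.st : (H →L[ℂ] H) →L[ℂ] ℂ :=
  LinearMap.mkContinuous
    { toFun := fun a => ⟪vec ξ hξ.summable 1, vec ξ hξ.summable a⟫_ℂ
      map_add' := fun a b => by simp [vec_add]
      map_smul' := fun c a => by simp [vec_smul] } 1 fun a =>
    (norm_inner_le_norm _ _).trans (mul_le_mul
      ((norm_vec_le ξ hξ.summable 1 hξ.total).trans ContinuousLinearMap.norm_id_le)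
      (norm_vec_le ξ hξ.summable _ hξ.total) (norm_nonneg _) zero_le_one)

lemma StateVectors.st_apply (a : H →L[ℂ] H) : hξ.st a = ∑' n, ⟪ξ n, a (ξ n)⟫_ℂ := by
  show ⟪vec ξ hξ.summable 1, vec ξ hξ.summable a⟫_ℂ = _
  rw [inner_vec, star_one, one_mul]

lemma StateVectors.st_star_mul (a : H →L[ℂ] H) :
    hξ.st (star a * a) = ((∑' n, ‖a (ξ n)‖ ^ 2 : ℝ) : ℂ) := by
  rw [StateVectors.st_apply, ← inner_vec ξ hξ.summable, inner_self_eq_norm_sq_to_K,
    ← norm_vec_sq ξ hξ.summable]
  simp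

include hξ in
lemma StateVectors.summable_apply (a : H →L[ℂ] H) : Summable fun n => ‖a (ξ n)‖ ^ 2 := by
  have := (memℓp_vec ξ hξ.summable a).summable (by norm_num)
  simpa only [ENNReal.toReal_ofNat, Real.rpow_two] using this

lemma StateVectors.eq_zero_of_st {a : H →L[ℂ] H} (ha : a ∈ M) (h : hξ.st (star a * a) = 0) :
    a = 0 := by
  rw [hξ.st_star_mul, Complex.ofReal_eq_zero] at h
  refine hξ.faithful a ha fun n => ?_
  have := (hasSum_zero_iff_of_nonneg fun m => sq_nonneg ‖a (ξ m)‖).1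
    (h ▸ (hξ.summable_apply a).hasSum)
  simpa using congrFun this n

lemma StateVectors.st_comm {a x : H →L[ℂ] H} (ha : a ∈ A) (hx : x ∈ M) :
    hξ.st (a * x) = hξ.st (x * a) := by
  rw [StateVectors.st_apply, StateVectors.st_apply]
  exact hξ.central a ha x hx

/-- The state is continuous for bounded weak limits. -/
lemma StateVectors.tendsto_st {κ : Type*} {l : Filter κ} {T : κ → H →L[ℂ] H} {E : H →L[ℂ] H}
    {B : ℝ} (hB : ∀ i, ‖T i‖ ≤ B)
    (hT : ∀ u v, Tendsto (fun i => ⟪T i u, v⟫_ℂ) l (𝓝 ⟪E u, v⟫_ℂ)) (a b : H →L[ℂ] H) :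
    Tendsto (fun i => hξ.st (a * T i * b)) l (𝓝 (hξ.st (a * E * b))) := by
  simp only [StateVectors.st_apply]
  refine tendsto_tsum_of_dominated_convergence (bound := fun n => ‖a‖ * B * ‖b‖ * ‖ξ n‖ ^ 2)
    (hξ.summable.mul_left _) (fun n => ?_) (Eventually.of_forall fun i n => ?_)
  · have h := (Complex.continuous_conj.tendsto _).comp
      (hT (b (ξ n)) (ContinuousLinearMap.adjoint a (ξ n)))
    simpa only [Function.comp_def, inner_conj_symm, op_mul_apply,
      ContinuousLinearMap.adjoint_inner_left] using h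
  · refine (norm_inner_le_norm _ _).trans ?_
    have h1 := (a * T i * b).le_opNorm (ξ n)
    have h2 : ‖a * T i * b‖ ≤ ‖a‖ * B * ‖b‖ :=
      (norm_mul_le _ _).trans (mul_le_mul_of_nonneg_right ((norm_mul_le _ _).trans
        (mul_le_mul_of_nonneg_left (hB i) (norm_nonneg _))) (norm_nonneg _))
    have h3 := norm_nonneg (ξ n)
    nlinarith [mul_le_mul_of_nonneg_right h2 (mul_nonneg h3 h3)]

variable {X : Type} [TopologicalSpace X] [CompactSpace X] [T2Space X] [TotallyDisconnectedSpace X]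
variable (j : C(X, ℂ) →⋆ₐ[ℂ] (H →L[ℂ] H))

lemma StateVectors.st_mul_pinch (hj : MasaMap M j) (hjA : ∀ f, j f ∈ A) (h : C(X, ℂ))
    {z : H →L[ℂ] H} (hz : z ∈ M) (π : DiscreteQuotient X) :
    hξ.st (j h * pinchOp j π z) = hξ.st (j h * z) := by
  classical
  have hterm : ∀ i : π, hξ.st (j h * (j (toC (cellFn π i)) * z * j (toC (cellFn π i)))) =
      hξ.st (j (h * toC (cellFn π i)) * z) := fun i => by
    rw [← mul_assoc, ← mul_assoc, ← hξ.st_comm (hjA _) (mul_mem (mul_mem (hj.mem _) (hj.mem _)) hz),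
      ← mul_assoc, ← mul_assoc, ← map_mul, ← map_mul, mul_comm (toC (cellFn π i)) h, mul_assoc h,
      toC_cell_mul, if_pos rfl]
  rw [pinchOp, Finset.mul_sum, map_sum, Finset.sum_congr rfl fun i _ => hterm i, ← map_sum,
    ← Finset.sum_mul, ← map_sum, ← Finset.mul_sum, sum_toC_cell, mul_one]

include hξ in
/-- Pinchings converge weakly along all partitions. -/
lemma exists_diag_atBot (hj : MasaMap M j) (hjA : ∀ f, j f ∈ A) {z : H →L[ℂ] H} (hz : z ∈ M) :
    ∃ f, ‖f‖ ≤ ‖z‖ ∧ ∀ u v,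
      Tendsto (fun π => ⟪pinchOp j π z u, v⟫_ℂ) atBot (𝓝 ⟪j f u, v⟫_ℂ) := by
  obtain ⟨f, hfn, hf⟩ := exists_diag j hj (Ultrafilter.of atBot) (Ultrafilter.of_le _) hz
  refine ⟨f, hfn, fun u v => (tendsto_iff_ultrafilter _ _ _).2 fun V hV => ?_⟩
  obtain ⟨g, -, hg⟩ := exists_diag j hj V hV hz
  have key : ∀ (W : Ultrafilter (DiscreteQuotient X)) (e : C(X, ℂ)),
      (∀ u v, Tendsto (fun π => ⟪pinchOp j π z u, v⟫_ℂ) W (𝓝 ⟪j e u, v⟫_ℂ)) →
      ∀ h, hξ.st (j h * j e) = hξ.st (j h * z) := fun W e he h => by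
    have := hξ.tendsto_st (fun π => norm_pinchOp_le j π z) he (j h) 1
    simp only [mul_one, hξ.st_mul_pinch j hj hjA h hz] at this
    exact tendsto_nhds_unique this tendsto_const_nhds
  have h0 : hξ.st (star (j (g - f)) * j (g - f)) = 0 := by
    rw [← map_star, map_sub j g, mul_sub, map_sub, key V g hg, key _ f hf, sub_self]
  have h1 := hξ.eq_zero_of_st (hj.mem _) h0
  rw [map_sub, sub_eq_zero] at h1
  rw [← h1]
  exact hg u v

include hξ in
/-- The abstract data attached to a state centralised by a MASA. -/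
theorem exists_score [IsClosed (M.toStarSubalgebra : Set (H →L[ℂ] H))]
    [PartialOrder M.toStarSubalgebra] [StarOrderedRing M.toStarSubalgebra]
    (hj : MasaMap M j) (hjA : ∀ f, j f ∈ A) :
    ∃ C : SCore M.toStarSubalgebra X, (∀ f, (C.ι f : (H →L[ℂ] H)) = j f) ∧
      (∀ z, ‖C.E z‖ ≤ ‖z‖) ∧ ∀ z, C.φ z = hξ.st (z : H →L[ℂ] H) := by
  classical
  let U : Ultrafilter (DiscreteQuotient X) := Ultrafilter.of atBot
  have hU : (U : Filter (DiscreteQuotient X)) ≤ atBot := Ultrafilter.of_le _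
  choose Ef hEn hEl using fun z : M.toStarSubalgebra => exists_diag_atBot hξ j hj hjA z.2
  have hEeq : ∀ (z : M.toStarSubalgebra) (f : C(X, ℂ)),
      (∀ u v, Tendsto (fun π => ⟪pinchOp j π z u, v⟫_ℂ) atBot (𝓝 ⟪j f u, v⟫_ℂ)) → Ef z = f := by
    intro z f h
    refine hj.injective ?_
    ext u
    exact ext_inner_right ℂ fun v => tendsto_nhds_unique (hEl z u v) (h u v)
  let El : M.toStarSubalgebra →ₗ[ℂ] C(X, ℂ) :=
    { toFun := Ef
      map_add' := fun z w => hEeq _ _ fun u v => by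
        simp only [AddMemClass.coe_add, map_add, pinchOp_add, _root_.add_apply, inner_add_left]
        exact (hEl z u v).add (hEl w u v)
      map_smul' := fun c z => hEeq _ _ fun u v => by
        simp only [SetLike.val_smul, map_smul, pinchOp_smul, _root_.smul_apply,
          inner_smul_left, RingHom.id_apply]
        exact (hEl z u v).const_mul _ }
  let φl : M.toStarSubalgebra →ₗ[ℂ] ℂ :=
    { toFun := fun z => hξ.st (z : H →L[ℂ] H)
      map_add' := fun z w => by simp
      map_smul' := fun c z => by simp }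
  let ι : C(X, ℂ) →⋆ₐ[ℂ] M.toStarSubalgebra :=
    StarAlgHom.codRestrict j M.toStarSubalgebra hj.mem
  have hP : ∀ (π : DiscreteQuotient X) (z : M.toStarSubalgebra),
      ((∑ i : π, ι (toC (cellFn π i)) * z * ι (toC (cellFn π i)) : M.toStarSubalgebra) :
        (H →L[ℂ] H)) = pinchOp j π z := fun π z => by
    rw [AddSubmonoidClass.coe_finsetSum]; rfl
  have hφ_one : hξ.st (1 : H →L[ℂ] H) = 1 := by
    have := hξ.st_star_mul 1
    simpa [hξ.total] using this
  have hE_ι : ∀ f, Ef (ι f) = f := fun f => hEeq _ _ fun u v => by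
    refine tendsto_const_nhds.congr fun π => ?_
    show _ = ⟪pinchOp j π (j f) u, v⟫_ℂ
    have h := pinchOp_mul j π f 1 1
    rw [map_one, mul_one, mul_one, pinchOp_one, mul_one] at h
    rw [h, mul_one]
  have hE_bimod : ∀ f g z, Ef (ι f * z * ι g) = f * Ef z * g := fun f g z =>
    hEeq _ _ fun u v => by
      have hz := hEl z (j g u) (ContinuousLinearMap.adjoint (j f) v)
      simp only [ContinuousLinearMap.adjoint_inner_right] at hz
      show Tendsto (fun π => ⟪pinchOp j π (j f * (z : (H →L[ℂ] H)) * j g) u, v⟫_ℂ) atBot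
        (𝓝 ⟪j (f * Ef z * g) u, v⟫_ℂ)
      simp only [pinchOp_mul, map_mul, op_mul_apply]
      exact hz
  have hE_star : ∀ z, Ef (star z) = star (Ef z) := fun z => hEeq _ _ fun u v => by
    have hz := (Complex.continuous_conj.tendsto _).comp (hEl z v u)
    simp only [Function.comp_def, inner_conj_symm] at hz
    show Tendsto (fun π => ⟪pinchOp j π (star (z : (H →L[ℂ] H))) u, v⟫_ℂ) atBot
      (𝓝 ⟪j (star (Ef z)) u, v⟫_ℂ)
    rw [map_star]
    simp only [fun π => (star_pinchOp j π (z : (H →L[ℂ] H))).symm]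
    simp only [ContinuousLinearMap.star_eq_adjoint,
      ContinuousLinearMap.adjoint_inner_left]
    exact hz
  have hφ_E : ∀ z : M.toStarSubalgebra, hξ.st (j (Ef z)) = hξ.st (z : H →L[ℂ] H) := fun z => by
    have h := hξ.tendsto_st (fun π => norm_pinchOp_le j π (z : H →L[ℂ] H)) (hEl z) 1 1
    have h2 : ∀ π, hξ.st (1 * pinchOp j π z * 1) = hξ.st (z : H →L[ℂ] H) := fun π => by
      have := hξ.st_mul_pinch j hj hjA 1 z.2 π
      rw [map_one] at this
      simpa using this
    simp only [h2] at h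
    simpa using tendsto_nhds_unique h tendsto_const_nhds
  have hE_pos : ∀ (a : M.toStarSubalgebra) x, 0 ≤ Ef (star a * a) x := fun a x => by
    have h := hEl (star a * a)
    simp only [MulMemClass.coe_mul, StarMemClass.coe_star] at h
    exact nonneg_of_diag j hj U (fun u v => (h u v).mono_left hU) x
  let C : SCore M.toStarSubalgebra X :=
    { φ := φl.mkContinuous ‖hξ.st‖ fun z => hξ.st.le_opNorm _
      ι := ι
      E := El.mkContinuous 1 fun z => by rw [one_mul]; exact hEn z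
      φ_one := hφ_one
      φ_pos := fun a => by
        show 0 ≤ hξ.st (star (a : H →L[ℂ] H) * (a : H →L[ℂ] H))
        rw [hξ.st_star_mul]
        exact Complex.zero_le_real.2 (tsum_nonneg fun n => sq_nonneg _)
      φ_faithful := fun a h => Subtype.ext (hξ.eq_zero_of_st a.2 h)
      E_ι := hE_ι
      E_bimod := hE_bimod
      E_star := hE_star
      E_pos := hE_pos
      φ_E := hφ_E
      pinch_tendsto := fun a z b => by
        have h := hξ.tendsto_st (fun π => norm_pinchOp_le j π (z : H →L[ℂ] H)) (hEl z)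
          (a : H →L[ℂ] H) (b : H →L[ℂ] H)
        simp only [← hP] at h
        exact h
      weakLimit := fun {κ} V f B hf => by
        obtain ⟨w, hwn, hw⟩ := exists_weakLimit V (fun i => (f i : H →L[ℂ] H)) hf
        exact ⟨⟨w, vn_mem_of_weakLimit hw fun i => (f i).2⟩, hwn, fun a b =>
          hξ.tendsto_st hf hw (a : H →L[ℂ] H) (b : H →L[ℂ] H)⟩ }
  exact ⟨C, fun f => rfl, hEn, fun z => rfl⟩

/-- A sandwiched selfadjoint element is small. -/
lemma norm_le_of_sandwich {R : Type*} [CStarAlgebra R] [PartialOrder R] [StarOrderedRing R]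
    {D T : R} (hD : IsSelfAdjoint D) (hT : IsSelfAdjoint T) (h1 : D ≤ T) (h2 : -T ≤ D) :
    ‖D‖ ≤ ‖T‖ := by
  conv_lhs => rw [← cfc_id' ℝ D]
  refine norm_cfc_le (norm_nonneg T) fun t ht => abs_le.2 ⟨?_, ?_⟩
  · have h := (neg_le_neg hT.le_algebraMap_norm_self).trans h2
    rw [← map_neg] at h
    exact (algebraMap_le_iff_le_spectrum (ha := hD)).1 h t ht
  · exact (le_algebraMap_iff_spectrum_le (ha := hD)).1 (h1.trans hT.le_algebraMap_norm_self) t ht

include hξ in
/-- Back from the abstract data to strong-operator paving. -/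
theorem soPavableIn_of_score [IsClosed (M.toStarSubalgebra : Set (H →L[ℂ] H))]
    [PartialOrder M.toStarSubalgebra] [StarOrderedRing M.toStarSubalgebra]
    (hj : MasaMap M j) (hjA : ∀ f, j f ∈ A)
    {ε : ℝ} (hε : 0 < ε) {N : ℕ} (hpav : PavingConclusion (ε / 2) N)
    {x : H →L[ℂ] H} (hx : x ∈ M) (hxs : IsSelfAdjoint x) : SoPavableIn M A x ε N := by
  classical
  intro F δ hδ
  obtain ⟨C, hι, hEn, hφ⟩ := exists_score hξ j hj hjA
  obtain ⟨η, hη, hηF⟩ := exists_small_trace ξ hξ.summable hξ.faithful F hδ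
  let x0 : M.toStarSubalgebra := (↑‖x‖⁻¹ : ℂ) • ⟨x, hx⟩
  have hx0 : (x0 : H →L[ℂ] H) = (↑‖x‖⁻¹ : ℂ) • x := rfl
  have hx0s : IsSelfAdjoint x0 := Subtype.ext (by
    show star ((↑‖x‖⁻¹ : ℂ) • x) = _
    rw [star_smul, hxs.star_eq, Complex.star_def, Complex.conj_ofReal, hx0])
  have hx0n : ‖x0‖ ≤ 1 := by
    show ‖(↑‖x‖⁻¹ : ℂ) • x‖ ≤ 1
    rw [norm_smul, Complex.norm_real, norm_inv, norm_norm]
    rcases eq_or_ne ‖x‖ 0 with h | h <;> simp [h]
  obtain ⟨P, Z, hP01, hPsum, hZ0, hZtr, hub, hlb⟩ :=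
    hpav M.toStarSubalgebra _ C x0 hx0s hx0n (η * (ε / 2)) (by positivity)
  set a0 := C.r (C.Er x0)
  set S0 := C.spinch P x0 with hS0
  have hsa : ∀ k, IsSelfAdjoint (C.r k) := fun k => C.r_isSelfAdjoint k
  let s : M.toStarSubalgebra := CFC.sqrt Z
  have hss : s * s = Z := CFC.sqrt_mul_sqrt_self Z hZ0
  have hsSA : IsSelfAdjoint s := IsSelfAdjoint.of_nonneg (CFC.sqrt_nonneg Z)
  have hsH : IsSelfAdjoint (s : H →L[ℂ] H) := congrArg Subtype.val hsSA
  have hc : 0 < √(ε / 2) := Real.sqrt_pos.2 (half_pos hε)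
  obtain ⟨q, hqM, hq, hsq, hqv, -, -⟩ := exists_smallProj s.2 hsH hc
  have hZH : (Z : H →L[ℂ] H) = star (s : H →L[ℂ] H) * (s : H →L[ℂ] H) := by
    rw [hsH.star_eq, ← hss]; rfl
  have hsmall : ∑' n, ‖(1 - q) (ξ n)‖ ^ 2 ≤ η := by
    have h1 : ε / 2 * ∑' n, ‖(1 - q) (ξ n)‖ ^ 2 ≤ C.tr Z := by
      rw [SCore.tr, hφ, hZH, hξ.st_star_mul, Complex.ofReal_re, ← tsum_mul_left]
      refine ((hξ.summable_apply _).mul_left _).tsum_le_tsum (fun n => ?_) (hξ.summable_apply _)
      rw [← Real.sq_sqrt (half_pos hε).le, ← mul_pow]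
      exact pow_le_pow_left₀ (by positivity) (hqv (ξ n)) 2
    refine le_of_mul_le_mul_left ?_ (half_pos hε)
    linarith [h1.trans hZtr]
  refine ⟨fun c => (C.r (P c) : H →L[ℂ] H), (‖x‖ : ℂ) • (a0 : H →L[ℂ] H), q, fun c => ⟨?_, ?_⟩,
    fun c d hcd => ?_, ?_, ?_, ?_, ?_, hqM, hq, fun v hv => ?_, ?_⟩
  · show (C.ι _ : H →L[ℂ] H) ∈ A
    rw [hι]; exact hjA _
  · refine ⟨?_, congrArg Subtype.val (hsa (P c))⟩
    show (C.ι _ : H →L[ℂ] H) * C.ι _ = C.ι _
    rw [hι, ← map_mul]
    congr 1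
    ext t
    rcases hP01 c t with h | h <;> simp [toC, h]
  · show (C.ι _ : H →L[ℂ] H) * C.ι _ = 0
    rw [hι, hι, ← map_mul, ← map_zero j]
    congr 1
    ext t
    rcases hP01 c t with h | h
    · simp [toC, h]
    · have hd0 : P d t = 0 := by
        rcases hP01 d t with h' | h'
        · exact h'
        · exfalso
          have h1 : ∑ e, P e t = 1 := by
            rw [← ContinuousMap.sum_apply, hPsum]; rfl
          have h2 : P c t + P d t ≤ ∑ e, P e t := by
            rw [← Finset.sum_pair (f := fun e => P e t) hcd]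
            refine Finset.sum_le_univ_sum_of_nonneg fun e => ?_
            rcases hP01 e t with h3 | h3 <;> simp [h3]
          linarith
      simp [toC, hd0]
  · show ∑ c, (C.ι (toC (P c)) : H →L[ℂ] H) = 1
    simp only [hι, ← map_sum]
    rw [← map_one j]
    congr 1
    ext t
    have h1 : ∑ e, P e t = 1 := by rw [← ContinuousMap.sum_apply, hPsum]; rfl
    simp [toC, ← Complex.ofReal_sum, h1]
  · refine A.smul_mem ?_ _
    show (C.ι _ : H →L[ℂ] H) ∈ A
    rw [hι]; exact hjA _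
  · rw [IsSelfAdjoint, star_smul, Complex.star_def, Complex.conj_ofReal]
    congr 1
    exact congrArg Subtype.val (hsa _).star_eq
  · rw [norm_smul, Complex.norm_real, norm_norm]
    refine mul_le_of_le_one_right (norm_nonneg _) ?_
    show ‖(C.ι _ : H →L[ℂ] H)‖ ≤ 1
    rw [hι, hj.norm, ContinuousMap.norm_le _ zero_le_one]
    intro t
    show ‖((C.E x0 t).re : ℂ)‖ ≤ 1
    rw [Complex.norm_real, Real.norm_eq_abs]
    exact (Complex.abs_re_le_norm _).trans
      (((C.E x0).norm_coe_le_norm t).trans ((hEn x0).trans hx0n))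
  · exact hηF (1 - q) (sub_mem (one_mem M) hqM) hq.one_sub hsmall v hv
  · have e1 : (∑ c, (C.r (P c) : H →L[ℂ] H) * x * C.r (P c)) - (‖x‖ : ℂ) • (a0 : H →L[ℂ] H)
        = (‖x‖ : ℂ) • ((S0 - a0 : M.toStarSubalgebra) : H →L[ℂ] H) := by
      have hxx : x = (‖x‖ : ℂ) • (x0 : H →L[ℂ] H) := by
        rcases eq_or_ne ‖x‖ 0 with h | h
        · simp [norm_eq_zero.1 h]
        · rw [hx0, smul_smul, ← Complex.ofReal_mul, mul_inv_cancel₀ h, Complex.ofReal_one, one_smul]
      push_cast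
      rw [smul_sub]
      congr 1
      conv_lhs => rw [hxx]
      simp [hS0, SCore.spinch, Finset.smul_sum]
    rw [e1, mul_smul_comm, smul_mul_assoc, norm_smul, Complex.norm_real, norm_norm, mul_comm ε]
    refine mul_le_mul_of_nonneg_left ?_ (norm_nonneg _)
    let q' : M.toStarSubalgebra := ⟨q, hqM⟩
    have hq' : IsSelfAdjoint q' := Subtype.ext hq.isSelfAdjoint
    set T := algebraMap ℝ M.toStarSubalgebra (ε / 2) + Z
    show ‖q' * (S0 - a0) * q'‖ ≤ ε
    have hD : IsSelfAdjoint (S0 - a0) := by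
      refine IsSelfAdjoint.sub ?_ (hsa _)
      rw [hS0, SCore.spinch]
      refine isSelfAdjoint_sum _ fun c _ => ?_
      rw [IsSelfAdjoint, star_mul, star_mul, (hsa _).star_eq, hx0s.star_eq, mul_assoc]
    have hT : IsSelfAdjoint T :=
      ((IsSelfAdjoint.all (ε / 2)).algebraMap _).add (IsSelfAdjoint.of_nonneg hZ0)
    have hub' := star_left_conjugate_le_conjugate hub q'
    have hlb' := star_left_conjugate_le_conjugate hlb q'
    rw [hq'.star_eq] at hub' hlb'
    refine (norm_le_of_sandwich (T := q' * T * q') ?_ ?_ hub' ?_).trans ?_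
    · rw [IsSelfAdjoint, star_mul, star_mul, hq'.star_eq, hD.star_eq, mul_assoc]
    · rw [IsSelfAdjoint, star_mul, star_mul, hq'.star_eq, hT.star_eq, mul_assoc]
    · rwa [mul_neg, neg_mul] at hlb'
    · have hq1 : ‖q'‖ ≤ 1 := hq.norm_le
      have hZq : ‖q' * Z * q'‖ ≤ ε / 2 := by
        have hsq' : ‖s * q'‖ ≤ √(ε / 2) := hsq
        have e : q' * Z * q' = star (s * q') * (s * q') := by
          rw [star_mul, hq'.star_eq, hsSA.star_eq, ← hss]; simp only [mul_assoc]
        rw [e, CStarRing.norm_star_mul_self, ← Real.mul_self_sqrt (half_pos hε).le]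
        exact mul_self_le_mul_self (norm_nonneg _) hsq'
      have hAq : ‖q' * algebraMap ℝ M.toStarSubalgebra (ε / 2) * q'‖ ≤ ε / 2 := by
        rw [Algebra.algebraMap_eq_smul_one, mul_smul_comm, smul_mul_assoc, mul_one, norm_smul,
          Real.norm_of_nonneg (half_pos hε).le]
        refine mul_le_of_le_one_right (half_pos hε).le ((norm_mul_le _ _).trans ?_)
        exact mul_le_one₀ hq1 (norm_nonneg _) hq1
      rw [mul_add, add_mul]
      linarith [norm_add_le (q' * algebraMap ℝ M.toStarSubalgebra (ε / 2) * q') (q' * Z * q')]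

end Build

theorem soPavableIn_of_state {H : Type} [NormedAddCommGroup H] [InnerProductSpace ℂ H]
    [CompleteSpace H] (M : VonNeumannAlgebra H) (A : StarSubalgebra ℂ (H →L[ℂ] H))
    (hAM : ∀ a ∈ A, a ∈ M)
    (hmasa : ∀ x ∈ M, (∀ a ∈ A, a * x = x * a) → x ∈ A)
    (hcomm : ∀ a ∈ A, ∀ b ∈ A, a * b = b * a)
    {ξ : ℕ → H} (hξ : StateVectors M A ξ) {ε : ℝ} (hε : 0 < ε) {N : ℕ}
    (hpav : PavingConclusion (ε / 2) N) {x : H →L[ℂ] H} (hx : x ∈ M)
    (hxs : IsSelfAdjoint x) : SoPavableIn M A x ε N := by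
  classical
  have hAc : IsClosed (A : Set (H →L[ℂ] H)) := by
    have : (A : Set (H →L[ℂ] H)) =
        (M.toStarSubalgebra : Set (H →L[ℂ] H)) ∩ Set.centralizer (A : Set (H →L[ℂ] H)) :=
      Set.Subset.antisymm (fun a ha => ⟨hAM a ha, fun b hb => hcomm b hb a ha⟩)
        fun a ha => hmasa a ha.1 ha.2
    rw [this]
    exact (vn_isClosed M).inter (Set.isClosed_centralizer _)
  let _ : CommCStarAlgebra A :=
    { StarSubalgebra.cstarAlgebra A (h_closed := hAc) with
      mul_comm := fun a b => Subtype.ext (hcomm a a.2 b b.2) }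
  have : IsClosed (M.toStarSubalgebra : Set (H →L[ℂ] H)) := vn_isClosed M
  let _ : PartialOrder M.toStarSubalgebra := CStarAlgebra.spectralOrder _
  have : StarOrderedRing M.toStarSubalgebra := CStarAlgebra.spectralOrderedRing _
  let G := gelfandStarTransform A
  let j : C(WeakDual.characterSpace ℂ A, ℂ) →⋆ₐ[ℂ] (H →L[ℂ] H) :=
    (StarSubalgebra.subtype A).comp G.symm.toStarAlgHom
  have hj : MasaMap M j :=
    { mem := fun f => hAM _ (G.symm f).2
      norm := fun f => by
        have h := (gelfandTransform_isometry A).norm_map_of_map_zero (map_zero _) (G.symm f)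
        exact h.symm.trans (congrArg norm (G.apply_symm_apply f))
      surj := fun a ha h => by
        have hA : a ∈ A := hmasa a ha fun b hb => by
          have := h (G ⟨b, hb⟩)
          simpa [j] using this
        exact ⟨G ⟨a, hA⟩, by simp [j]⟩ }
  have : TotallyDisconnectedSpace (WeakDual.characterSpace ℂ A) := hj.totallyDisconnected
  exact soPavableIn_of_score hξ j hj (fun f => (G.symm f).2) hε hpav hx hxs

end Vale.Agent.P078.AllMasa
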