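import Vale.Agent.P078.AllMasa.FromVN
import Vale.Agent.P078.InM.Setting
import Vale.Agent.P078.AllMasa.Singular.Cut
import Vale.Agent.P078.AllMasa.Singular.Final

/-! Random colourings pave on the part of `A` that supports no normal central functional. -/

namespace Vale.Agent.P078.AllMasa

open Filter Topology
open scoped InnerProductSpace
open Vale.Agent.P078 Vale.Agent.P078.InM Vale.Agent.P078.Tracial

variable {H : Type} [NormedAddCommGroup H] [InnerProductSpace ℂ H] [CompleteSpace H]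
variable {M : VonNeumannAlgebra H} {A : StarSubalgebra ℂ (H →L[ℂ] H)}

/-- A normal positive functional, given by vectors, is central for `A`. -/
def IsCentral (M : VonNeumannAlgebra H) (A : StarSubalgebra ℂ (H →L[ℂ] H)) (ξ : ℕ → H) : Prop :=
  Summable (fun n => ‖ξ n‖ ^ 2) ∧ ∀ a ∈ A, ∀ x ∈ M,
    ∑' n, inner ℂ (ξ n) ((a * x) (ξ n)) = ∑' n, inner ℂ (ξ n) ((x * a) (ξ n))

theorem exists_singular_piece (hA : MasaIn M A)
    {w : H →L[ℂ] H} (hw : w ∈ A) (hwp : IsStarProjection w)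
    (hsing : ∀ ξ : ℕ → H, IsCentral M A ξ → ∀ n, w (ξ n) = 0)
    {y : H →L[ℂ] H} (hy : y ∈ M) (hys : IsSelfAdjoint y) {r : ℕ} (hr : 0 < r)
    {c : ℝ} (hc : 0 < c) (F : Finset H) {δ : ℝ} (hδ : 0 < δ) :
    ∃ (p : Fin r → (H →L[ℂ] H)) (a q : H →L[ℂ] H), IsPart A 1 p ∧ a ∈ A ∧ IsSelfAdjoint a ∧
      ‖a‖ ≤ ‖y‖ ∧ q ∈ M ∧ IsStarProjection q ∧ q * w = q ∧ w * q = q ∧
      (∀ v ∈ F, ‖w v - q v‖ < δ) ∧ ‖q * (pinch p y - a) * q‖ ≤ c + (r : ℝ)⁻¹ * ‖y‖ := by
  classical
  have hwM := hA.le w hw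
  have hww : w * w = w := hwp.isIdempotentElem
  have hwa : star w = w := hwp.isSelfAdjoint
  obtain ⟨U⟩ := Singular.exists_fine hA
  set y' := w * y * w with hy'
  have hy'M : y' ∈ M := mul_mem (mul_mem hwM hy) hwM
  have hy's : IsSelfAdjoint y' := by
    rw [IsSelfAdjoint, hy', star_mul, star_mul, hwa, hys.star_eq, mul_assoc]
  set K := ‖y‖ with hK'
  have hK : 0 ≤ K := norm_nonneg _
  have hy'n : ‖y'‖ ≤ K :=
    (norm_mul_le _ _).trans ((mul_le_of_le_one_right (norm_nonneg _) hwp.norm_le).trans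
      ((norm_mul_le _ _).trans (mul_le_of_le_one_left (norm_nonneg _) hwp.norm_le)))
  have hwy' : w * y' = y' := by rw [hy', ← mul_assoc, ← mul_assoc, hww]
  have hy'w : y' * w = y' := by rw [hy', mul_assoc, hww]
  set E := Singular.limE U y' with hE'
  have hEA : E ∈ A := Singular.limE_mem hA U hy'M
  have hEn : ‖E‖ ≤ K := (Singular.norm_limE_le U y').trans hy'n
  have hwEw : w * E * w = E := by rw [hE', ← Singular.limE_mul hA U hw hw, hwy', hy'w]
  set F' := F.image w with hF'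
  have hfix : ∀ u ∈ F', w u = u := by
    intro u hu
    obtain ⟨v, -, rfl⟩ := Finset.mem_image.1 hu
    exact proj_apply_apply hwp v
  set W := ∑ u ∈ F', ‖u‖ ^ 2 with hW'
  have hW : 0 ≤ W := Finset.sum_nonneg fun u _ => sq_nonneg _
  set L := K ^ 2 * W + 1 with hL'
  have hKW : 0 ≤ K ^ 2 * W := mul_nonneg (sq_nonneg _) hW
  have hL : 1 ≤ L := le_add_of_nonneg_left hKW
  set s := c / (2 + 15 * K) with hs'
  have hs : 0 < s := by positivity
  have hsK : s * (2 + 15 * K) = c := div_mul_cancel₀ _ (by positivity)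
  set B := 13 * K ^ 2 + 3 with hB'
  have hB : 0 < B := by positivity
  set κ := min 1 ((s ^ 2 * δ) ^ 2 / (10 * B * L)) with hκ'
  have hκ : 0 < κ := lt_min one_pos (by positivity)
  have hκ1 : κ ≤ 1 := min_le_left _ _
  have hκB : B * (9 * κ * L) < (s ^ 2 * δ) ^ 2 := by
    have h1 : κ * (10 * B * L) ≤ (s ^ 2 * δ) ^ 2 :=
      (le_div_iff₀ (by positivity)).1 (min_le_right _ _)
    have h2 : 0 < κ * B * L := by positivity
    linarith
  set η := κ ^ 3 with hη'
  have hη : 0 < η := pow_pos hκ 3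
  obtain ⟨e, heM, he0, hew, hew', hwe, heF, hesmall⟩ :=
    Singular.exists_singular_element hA hw hwp (fun ξ h1 h2 => hsing ξ ⟨h1, h2⟩) U F' hη
  have he1 : e ≤ 1 := Singular.le_one_of_le_proj hwp hew
  have hes : IsSelfAdjoint e := he0.isSelfAdjoint
  have hen : ‖e‖ ≤ 1 := (CStarAlgebra.norm_le_one_iff_of_nonneg e he0).2 he1
  have hwec : Commute w e := show w * e = e * w by rw [hwe, hew']
  obtain ⟨R, q0, q1, hq0M, hq0, hwq0, hq1M, hq1, hwq1, hD0, h20, h21, hcut⟩ :=
    Singular.exists_cut_cells hA U hw hwp hy'n heM he0 he1 hwec F' hesmall hκ hκ1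
  obtain ⟨f, hZ10⟩ := Singular.exists_cut_colouring R hr hy'n hκ.le hcut F'
  set D := pinch R.c y' - E with hD'
  set Z1 : H →L[ℂ] H :=
    ∑ p : Fin R.n × Fin R.n, (gap r p f : ℂ) • (R.c p.1 * y' * R.c p.2) with hZ1'
  set t : ℂ := 1 - (r : ℂ)⁻¹ with ht'
  have htn : ‖t‖ ≤ 1 := by
    have h1r : (1 : ℝ) ≤ r := by exact_mod_cast hr
    have : t = ((1 - (r : ℝ)⁻¹ : ℝ) : ℂ) := by rw [ht']; push_cast; ring
    rw [this, Complex.norm_real, Real.norm_eq_abs, abs_le]
    have h2 := inv_le_one_of_one_le₀ h1r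
    have h3 : 0 ≤ (r : ℝ)⁻¹ := by positivity
    constructor <;> linarith
  have hp := R.isPart.group f
  set p : Fin r → (H →L[ℂ] H) := fun i => ∑ j ∈ Finset.univ.filter (fun j => f j = i), R.c j
  have hrn : ‖(r : ℂ)⁻¹ • y'‖ ≤ (r : ℝ)⁻¹ * K := by
    rw [norm_smul, norm_inv, Complex.norm_natCast]
    exact mul_le_mul_of_nonneg_left hy'n (by positivity)
  have hZ1n : ‖Z1‖ ≤ 3 * K := by
    have h1 := Singular.colour_identity R f y' (pinch R.c y')
    rw [sub_self, smul_zero, add_zero, ← hZ1', ← ht'] at h1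
    rw [← h1]
    refine (norm_sub_le _ _).trans ((add_le_add ((norm_sub_le _ _).trans (add_le_add
      ((norm_pinch_le hp y').trans hy'n) ?_)) ?_).trans (le_of_eq (show K + K + K = 3 * K by ring)))
    · rw [norm_smul]
      exact (mul_le_of_le_one_left (norm_nonneg _) htn).trans
        ((norm_pinch_le R.isPart y').trans hy'n)
    · exact hrn.trans (mul_le_of_le_one_left hK
        (inv_le_one_of_one_le₀ (by exact_mod_cast hr)))
  have hDn : ‖D‖ ≤ 2 * K := by
    refine (norm_sub_le _ _).trans ?_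
    linarith [(norm_pinch_le R.isPart y').trans hy'n]
  have hRM : ∀ i, R.c i ∈ M := fun i => hA.le _ (R.isPart.mem i)
  have hZ1M : Z1 ∈ M := sum_mem fun p _ =>
    Singular.smul_mem_vn _ (mul_mem (mul_mem (hRM _) hy'M) (hRM _))
  have hDM : D ∈ M := sub_mem (Tracial.pinch_mem hA R.isPart hy'M) (hA.le _ hEA)
  have hwR : ∀ i, Commute w (R.c i) := fun i => hA.comm _ hw _ (R.isPart.mem i)
  have hwy : Commute w y' := show w * y' = y' * w by rw [hwy', hy'w]
  have hwZ1 : Commute w Z1 :=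
    Commute.sum_right _ _ _ fun p _ => (((hwR _).mul_right hwy).mul_right (hwR _)).smul_right _
  have hwD : Commute w D := (Singular.commute_pinch hwR hwy).sub_right (hA.comm _ hw _ hEA)
  have h1 : ∑ u ∈ F', (⟪u, (1 - e) u⟫_ℂ).re ≤ η := by
    refine le_trans (le_of_eq (Finset.sum_congr rfl fun u hu => ?_)) heF
    simp only [_root_.sub_apply, one_apply_eq_self, hfix u hu]
  have h4 : η ≤ κ * L :=
    (pow_le_of_le_one hκ.le hκ1 (by norm_num)).trans (le_mul_of_one_le_right hκ.le hL)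
  obtain ⟨q, hqM, hq, hwq, hqF, hc1, hc0⟩ := Singular.exists_final_proj hwp heM he0 he1 hwec
    hq0M hq0 hwq0 hq1M hq1 hwq1 hZ1M hwZ1 hDM hwD hZ1n hDn F' hs hδ hκB
    (by linarith [mul_le_mul_of_nonneg_left (le_add_of_nonneg_right zero_le_one :
      K ^ 2 * W ≤ L) hκ.le])
  have hqw : IsStarProjection (q * w) := hq.mul hwp hwq.symm
  refine ⟨p, t • (w * E * w), q * w, hp, ?_, ?_, ?_, mul_mem hqM hwM, hqw,
    by rw [mul_assoc, hww], by rw [← mul_assoc, hwq, mul_assoc, hww], fun v hv => ?_, ?_⟩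
  · rw [hwEw]; exact SMulMemClass.smul_mem _ hEA
  · rw [hwEw, IsSelfAdjoint, star_smul, (Singular.limE_selfAdjoint U hy's).star_eq, ht']
    simp [hE']
  · rw [hwEw, norm_smul]
    exact (mul_le_of_le_one_left (norm_nonneg _) htn).trans hEn
  · rw [op_mul_apply]
    exact hqF _ (Finset.mem_image_of_mem _ hv)
  · have hid : q * w * (pinch p y - t • (w * E * w)) * (q * w) =
        q * Z1 * q + t • (q * D * q) + (r : ℂ)⁻¹ • (q * y' * q) := by
      have h1 : q * w * (pinch p y - t • (w * E * w)) * (q * w) =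
          q * (w * (pinch p y - t • (w * E * w)) * w) * q := by
        nth_rewrite 2 [← hwq]
        simp only [mul_assoc]
      have h2 : w * (pinch p y - t • (w * E * w)) * w = pinch p y' - t • E := by
        rw [mul_sub, sub_mul, ← Singular.pinch_mul_mem hA hp hw hw, hwEw, mul_smul_comm,
          smul_mul_assoc, hwEw]
      have h3 : pinch p y' - t • E = Z1 + t • D + (r : ℂ)⁻¹ • y' := by
        have h := Singular.colour_identity R f y' E
        rw [← hZ1', ← ht', ← hD'] at h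
        exact sub_eq_iff_eq_add.1 h
      rw [h1, h2, h3]
      simp only [mul_add, add_mul, mul_smul_comm, smul_mul_assoc]
    rw [hid]
    refine (norm_add_le _ _).trans ((add_le_add ((norm_add_le _ _).trans (add_le_add hc1
      (?_ : _ ≤ s + 3 * (s * (2 * K)))))
      (?_ : _ ≤ (r : ℝ)⁻¹ * K)).trans (le_of_eq ?_))
    · rw [norm_smul]
      exact (mul_le_of_le_one_left (norm_nonneg _) htn).trans hc0
    · rw [norm_smul, norm_inv, Complex.norm_natCast]
      refine mul_le_mul_of_nonneg_left ?_ (by positivity)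
      exact (norm_mul_le _ _).trans ((mul_le_of_le_one_right (norm_nonneg _) hq.norm_le).trans
        ((norm_mul_le _ _).trans ((mul_le_of_le_one_left (norm_nonneg _) hq.norm_le).trans hy'n)))
    · rw [← hsK]; ring

end Vale.Agent.P078.AllMasa

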