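import Vale.Agent.P078.AllMasa.Singular
import Vale.Agent.P078.AllMasa.Reduction.Good
import Vale.Agent.P078.Tracial.Semifinite

/-! So-paving over every MASA, from the part with a central normal state and the part without. -/

namespace Vale.Agent.P078.AllMasa

open Filter Topology
open scoped InnerProductSpace
open Vale.Agent.P078 Vale.Agent.P078.InM Vale.Agent.P078.Tracial

theorem soPavableIn_of_paving_all {H : Type} [NormedAddCommGroup H] [InnerProductSpace ℂ H]
    [CompleteSpace H] (M : VonNeumannAlgebra H) (A : StarSubalgebra ℂ (H →L[ℂ] H))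
    (hAM : ∀ a ∈ A, a ∈ M)
    (hmasa : ∀ x ∈ M, (∀ a ∈ A, a * x = x * a) → x ∈ A)
    (hcomm : ∀ a ∈ A, ∀ b ∈ A, a * b = b * a)
    {ε : ℝ} (hε : 0 < ε) {N : ℕ} (hpav : PavingConclusion (ε / 2) N)
    {x : H →L[ℂ] H} (hx : x ∈ M) (hxs : IsSelfAdjoint x) :
    SoPavableIn M A x ε (N + (⌊1 / ε⌋₊ + 1)) := by
  classical
  set r := ⌊1 / ε⌋₊ + 1 with hr'
  have hr : 0 < r := Nat.succ_pos _
  have hA : MasaIn M A := ⟨hAM, hcomm, hmasa⟩
  intro F δ hδ
  let j₀ : Fin r := ⟨0, hr⟩
  rcases eq_or_ne x 0 with hx0 | hx0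
  · refine ⟨fun i => if i = Fin.natAdd N j₀ then 1 else 0, 0, 1, fun i => ?_, fun i j hij => ?_,
      by simp, zero_mem A, IsSelfAdjoint.zero _, by simp, one_mem M, IsStarProjection.one _,
      fun v _ => by simpa using hδ, by simp [hx0]⟩
    · by_cases h : i = Fin.natAdd N j₀
      · simp only [if_pos h]; exact ⟨one_mem A, IsStarProjection.one _⟩
      · simp only [if_neg h]; exact ⟨zero_mem A, IsStarProjection.zero _⟩
    · by_cases h : i = Fin.natAdd N j₀
      · simp [if_neg (fun hj : j = Fin.natAdd N j₀ => hij (h.trans hj.symm))]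
      · simp [if_neg h]
  have hxn : 0 < ‖x‖ := norm_pos_iff.2 hx0
  have hrε : (r : ℝ)⁻¹ < ε := by
    rw [inv_lt_comm₀ (by exact_mod_cast hr) hε, inv_eq_one_div, hr']
    push_cast
    exact Nat.lt_floor_add_one _
  obtain ⟨z, hzA, hz, hzmax, p₀, hp₀g, hzp₀, hzF⟩ :=
    exists_goodPart hA F (show 0 < δ / 3 by positivity)
  have hp₀A := hp₀g.mem
  have hp₀ := hp₀g.proj
  set w := 1 - z with hw'
  have hwA : w ∈ A := sub_mem (one_mem A) hzA
  have hw : IsStarProjection w := hz.one_sub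
  have hp₀w : p₀ * w = 0 := hzmax p₀ hp₀g
  have hwp₀ : w * p₀ = 0 := by rw [hcomm _ hwA _ hp₀A]; exact hp₀w
  -- the finite corner
  obtain ⟨P, a₀, q₀, hP, ha₀, ha₀s, ha₀n, ha₀r, ha₀l, hq₀M, hq₀, hq₀r, hq₀l, hq₀F, hq₀b⟩ :
      ∃ (P : Fin N → (H →L[ℂ] H)) (a q : H →L[ℂ] H),
        IsPart A p₀ P ∧ a ∈ A ∧ IsSelfAdjoint a ∧ ‖a‖ ≤ ‖x‖ ∧ a * p₀ = a ∧ p₀ * a = a ∧
        q ∈ M ∧ IsStarProjection q ∧ q * p₀ = q ∧ p₀ * q = q ∧ (∀ v ∈ F, ‖p₀ v - q v‖ < δ / 3) ∧
        ‖q * (pinch P x - a) * q‖ ≤ ε * ‖x‖ := by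
    rcases eq_or_ne p₀ 0 with h0 | h0
    · subst h0
      refine ⟨fun _ => 0, 0, 0, ⟨fun _ => zero_mem A, fun _ => IsStarProjection.zero _,
        fun _ _ _ => by simp, by simp⟩, zero_mem A, IsSelfAdjoint.zero _, by simp, by simp,
        by simp, zero_mem M, IsStarProjection.zero _, by simp, by simp,
        fun v _ => by simp; positivity, by simp; positivity⟩
    · exact exists_paving_good hA hp₀g h0 hε hpav hx hxs F (by positivity)
  -- the singular part
  obtain ⟨p₁, a₁, q₁, hp₁, ha₁, ha₁s, ha₁n, hq₁M, hq₁, hq₁r, hq₁l, hq₁F, hq₁b⟩ :=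
    exists_singular_piece hA hwA hw (fun ξ hξ n => by
      obtain ⟨p, hpg, hpξ⟩ := exists_good_support hA hξ
      rw [← hpξ n, ← op_mul_apply, hA.comm _ hwA _ hpg.mem, hzmax p hpg]
      rfl) hx hxs hr
      (show 0 < (ε - (r : ℝ)⁻¹) * ‖x‖ by
        exact mul_pos (by linarith) hxn) F (show 0 < δ / 3 by positivity)
  have hzw : z * w = 0 := by rw [hw', mul_sub, mul_one, hz.isIdempotentElem.eq, sub_self]
  have hwz : w * z = 0 := by rw [hcomm _ hwA _ hzA]; exact hzw
  have hp₀z : p₀ * z = p₀ := by rw [hcomm _ hp₀A _ hzA]; exact hzp₀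
  set e := z - p₀ with he'
  let S : Fin r → (H →L[ℂ] H) := fun j => p₁ j * w + if j = j₀ then e else 0
  have heA : e ∈ A := sub_mem hzA hp₀A
  have hee : IsStarProjection e := by
    refine ⟨?_, hz.isSelfAdjoint.sub hp₀.isSelfAdjoint⟩
    show e * e = e
    rw [he', sub_mul, mul_sub, mul_sub, hz.isIdempotentElem.eq, hp₀.isIdempotentElem.eq, hzp₀,
      hp₀z]
    abel
  have hew : e * w = 0 := by rw [he', sub_mul, hzw, hp₀w, sub_zero]
  have hwe : w * e = 0 := by rw [he', mul_sub, hwz, hwp₀, sub_zero]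
  have hep₀ : e * p₀ = 0 := by rw [he', sub_mul, hzp₀, hp₀.isIdempotentElem.eq, sub_self]
  have hp₁w : ∀ j, IsStarProjection (p₁ j * w) := fun j =>
    (hp₁.proj j).mul hw (hA.comm _ (hp₁.mem j) _ hwA)
  have hSA : ∀ j, S j ∈ A := fun j => by
    refine add_mem (mul_mem (hp₁.mem j) hwA) ?_
    split_ifs
    exacts [heA, zero_mem A]
  have hSp₀ : ∀ j, S j * p₀ = 0 := fun j => by
    show (p₁ j * w + _) * p₀ = 0
    rw [add_mul, mul_assoc, hwp₀, mul_zero, zero_add]
    split_ifs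
    exacts [hep₀, zero_mul _]
  have hSw : ∀ j, S j * w = p₁ j * w := fun j => by
    show (p₁ j * w + _) * w = _
    rw [add_mul, mul_assoc, hw.isIdempotentElem.eq]
    split_ifs
    · rw [hew, add_zero]
    · rw [zero_mul, add_zero]
  have hcross : ∀ i j, P i * S j = 0 := fun i j => by
    have h1 : P i = P i * p₀ := by
      rw [← hP.sum_eq, Finset.mul_sum, Finset.sum_eq_single i]
      · exact (hP.proj i).isIdempotentElem.eq.symm
      · intro k _ hk; exact hP.orth i k (Ne.symm hk)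
      · simp
    rw [h1, mul_assoc, hcomm _ hp₀A _ (hSA j), hSp₀, mul_zero]
  have hcross' : ∀ i j, S j * P i = 0 := fun i j => by
    rw [hcomm _ (hSA j) _ (hP.mem i)]; exact hcross i j
  have hmul : ∀ j k, p₁ j * w * (p₁ k * w) = p₁ j * p₁ k * w := fun j k => by
    rw [mul_assoc, ← mul_assoc w, hcomm _ hwA _ (hp₁.mem k), mul_assoc (p₁ k),
      hw.isIdempotentElem.eq, ← mul_assoc]
  have hSproj : ∀ j, IsStarProjection (S j) := fun j => by
    refine ⟨?_, (hp₁w j).isSelfAdjoint.add ?_⟩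
    · show (p₁ j * w + _) * (p₁ j * w + _) = p₁ j * w + _
      split_ifs
      · rw [add_mul, mul_add, mul_add, (hp₁w j).isIdempotentElem.eq, mul_assoc, hwe, mul_zero,
          add_zero, ← mul_assoc, hcomm _ heA _ (hp₁.mem j), mul_assoc, hew, mul_zero,
          hee.isIdempotentElem.eq, zero_add]
      · simp [(hp₁w j).isIdempotentElem.eq]
    · split_ifs
      exacts [hee.isSelfAdjoint, IsSelfAdjoint.zero _]
  have hSorth : ∀ j k, j ≠ k → S j * S k = 0 := fun j k hjk => by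
    show (p₁ j * w + _) * (p₁ k * w + _) = 0
    rw [add_mul, mul_add, mul_add, hmul, hp₁.orth j k hjk, zero_mul, zero_add]
    have hje : p₁ j * w * e = 0 := by rw [mul_assoc, hwe, mul_zero]
    have hek : e * (p₁ k * w) = 0 := by
      rw [← mul_assoc, hcomm _ heA _ (hp₁.mem k), mul_assoc, hew, mul_zero]
    by_cases h1 : j = j₀
    · rw [if_pos h1, if_neg (fun h2 => hjk (h1.trans h2.symm))]
      simp [hek]
    · rw [if_neg h1]
      split_ifs <;> simp [hje]
  let T : Fin (N + r) → (H →L[ℂ] H) := Fin.append P S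
  have hTsum : ∑ i, T i = 1 := by
    simp only [T, Fin.sum_univ_add, Fin.append_left, Fin.append_right]
    simp only [S, Finset.sum_add_distrib, ← Finset.sum_mul, hp₁.sum_eq, one_mul, hP.sum_eq,
      Finset.sum_ite_eq', Finset.mem_univ, if_true]
    rw [hw', he']
    abel

  set Q := q₀ + q₁ with hQ'
  have hq01 : q₀ * q₁ = 0 := by
    rw [← hq₀r, ← hq₁l, mul_assoc, ← mul_assoc p₀, hp₀w, zero_mul, mul_zero]
  have hq10 : q₁ * q₀ = 0 := by
    rw [← hq₀l, ← hq₁r, mul_assoc, ← mul_assoc w, hwp₀, zero_mul, mul_zero]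
  set a := a₀ + a₁ * w with ha'
  have hQw : q₀ * w = 0 := by rw [← hq₀r, mul_assoc, hp₀w, mul_zero]
  have hwQ : w * q₀ = 0 := by rw [← hq₀l, ← mul_assoc, hwp₀, zero_mul]
  have hQp : q₁ * p₀ = 0 := by rw [← hq₁r, mul_assoc, hwp₀, mul_zero]
  have hpQ : p₀ * q₁ = 0 := by rw [← hq₁l, ← mul_assoc, hp₀w, zero_mul]
  refine ⟨T, a, Q, fun i => ?_, fun i k hik => ?_, hTsum,
    add_mem ha₀ (mul_mem ha₁ hwA), ?_, ?_, add_mem hq₀M hq₁M, ?_, fun v hv => ?_, ?_⟩
  · induction i using Fin.addCases with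
    | left i => simp only [T, Fin.append_left]; exact ⟨hP.mem i, hP.proj i⟩
    | right i => simp only [T, Fin.append_right]; exact ⟨hSA i, hSproj i⟩
  · induction i using Fin.addCases with
    | left i =>
      induction k using Fin.addCases with
      | left k => simp only [T, Fin.append_left]; exact hP.orth i k (fun h => hik (by rw [h]))
      | right k => simp only [T, Fin.append_left, Fin.append_right]; exact hcross i k
    | right i =>
      induction k using Fin.addCases with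
      | left k => simp only [T, Fin.append_left, Fin.append_right]; exact hcross' k i
      | right k => simp only [T, Fin.append_right]; exact hSorth i k (fun h => hik (by rw [h]))
  · refine ha₀s.add ?_
    rw [IsSelfAdjoint, star_mul, hw.isSelfAdjoint.star_eq, ha₁s.star_eq]
    exact hcomm _ hwA _ ha₁
  · refine Tracial.norm_add_le_of_orth hp₀ hw hp₀w ha₀l ha₀r ?_ ?_ hxn.le ha₀n
      (((norm_mul_le _ _).trans (mul_le_of_le_one_right (norm_nonneg _) hw.norm_le)).trans ha₁n)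
    · rw [← mul_assoc, hcomm _ hwA _ ha₁, mul_assoc, hw.isIdempotentElem.eq]
    · rw [mul_assoc, hw.isIdempotentElem.eq]
  · refine ⟨?_, hq₀.isSelfAdjoint.add hq₁.isSelfAdjoint⟩
    show Q * Q = Q
    rw [hQ', add_mul, mul_add, mul_add, hq₀.isIdempotentElem.eq, hq₁.isIdempotentElem.eq, hq01,
      hq10, add_zero, zero_add]
  · have e1 : v - Q v = (z v - p₀ v) + (p₀ v - q₀ v) + (w v - q₁ v) := by
      rw [hQ', hw', _root_.add_apply, _root_.sub_apply, one_apply_eq_self]
      abel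
    rw [e1]
    refine (norm_add_le _ _).trans_lt ?_
    linarith [norm_add_le (z v - p₀ v) (p₀ v - q₀ v), hzF v hv, hq₀F v hv, hq₁F v hv]
  · clear_value Q a
    have hx1 : ∀ i, q₀ * S i = 0 := fun i => by
      rw [← hq₀r, mul_assoc, hcomm _ hp₀A _ (hSA i), hSp₀, mul_zero]
    have hx1' : ∀ i, S i * q₀ = 0 := fun i => by rw [← hq₀l, ← mul_assoc, hSp₀, zero_mul]
    have hx2 : ∀ i, q₁ * P i = 0 := fun i => by
      have h1 : P i = P i * p₀ := by
        rw [← hP.sum_eq, Finset.mul_sum, Finset.sum_eq_single i]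
        · exact (hP.proj i).isIdempotentElem.eq.symm
        · intro k _ hk; exact hP.orth i k (Ne.symm hk)
        · simp
      rw [h1, ← hcomm _ hp₀A _ (hP.mem i), ← mul_assoc, hQp, zero_mul]
    have hx2' : ∀ i, P i * q₁ = 0 := fun i => by
      have := congrArg star (hx2 i)
      rwa [star_mul, (hP.proj i).isSelfAdjoint.star_eq, hq₁.isSelfAdjoint.star_eq, star_zero]
        at this
    have hx3 : ∀ i, q₁ * S i = q₁ * p₁ i := fun i => by
      conv_lhs => rw [← hq₁r, mul_assoc, hcomm _ hwA _ (hSA i), hSw, hcomm _ (hp₁.mem i) _ hwA,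
        ← mul_assoc, hq₁r]
    have hx3' : ∀ i, S i * q₁ = p₁ i * q₁ := fun i => by
      conv_lhs => rw [← hq₁l, ← mul_assoc, hSw, mul_assoc, hq₁l]
    have hQl : ∀ i, Q * P i = q₀ * P i := fun i => by rw [hQ', add_mul, hx2, add_zero]
    have hQr : ∀ i, P i * Q = P i * q₀ := fun i => by rw [hQ', mul_add, hx2', add_zero]
    have hQl' : ∀ i, Q * S i = q₁ * p₁ i := fun i => by rw [hQ', add_mul, hx1, zero_add, hx3]
    have hQr' : ∀ i, S i * Q = p₁ i * q₁ := fun i => by rw [hQ', mul_add, hx1', zero_add, hx3']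
    have hQa : Q * a * Q = q₀ * a₀ * q₀ + q₁ * a₁ * q₁ := by
      have h1 : Q * a₀ = q₀ * a₀ := by
        rw [hQ', add_mul]
        nth_rewrite 2 [← ha₀l]
        rw [← mul_assoc, hQp, zero_mul, add_zero]
      have h2 : a₀ * Q = a₀ * q₀ := by
        rw [hQ', mul_add]
        nth_rewrite 2 [← ha₀r]
        rw [mul_assoc, hpQ, mul_zero, add_zero]
      have h3 : Q * (a₁ * w) = q₁ * (a₁ * w) := by
        rw [hQ', add_mul, ← hcomm _ hwA _ ha₁, ← mul_assoc, hQw, zero_mul, zero_add]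
      have h4 : a₁ * w * Q = a₁ * q₁ := by
        rw [hQ', mul_add, mul_assoc, hwQ, mul_zero, zero_add, mul_assoc, hq₁l]
      rw [ha', mul_add, add_mul, h1, h3, mul_assoc q₀, h2, ← mul_assoc, mul_assoc q₁, h4,
        ← mul_assoc]
    have hsplit : Q * ((∑ i, T i * x * T i) - a) * Q =
        q₀ * (pinch P x - a₀) * q₀ + q₁ * (pinch p₁ x - a₁) * q₁ := by
      rw [mul_sub, sub_mul, hQa, mul_sub, sub_mul, mul_sub, sub_mul]
      simp only [T, Fin.sum_univ_add, Fin.append_left, Fin.append_right, mul_add, add_mul,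
        Finset.mul_sum, Finset.sum_mul, pinch]
      have eP : ∀ i, Q * (P i * x * P i) * Q = q₀ * (P i * x * P i) * q₀ := fun i => by
        rw [← mul_assoc, ← mul_assoc, hQl, mul_assoc _ (P i) Q, hQr]
        simp only [mul_assoc]
      have eS : ∀ i, Q * (S i * x * S i) * Q = q₁ * (p₁ i * x * p₁ i) * q₁ := fun i => by
        rw [← mul_assoc, ← mul_assoc, hQl', mul_assoc _ (S i) Q, hQr']
        simp only [mul_assoc]
      simp only [eP, eS]
      abel
    rw [hsplit]
    refine Tracial.norm_add_le_of_orth hp₀ hw hp₀w ?_ ?_ ?_ ?_ (by positivity) hq₀b (hq₁b.trans ?_)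
    · rw [← mul_assoc, ← mul_assoc, hq₀l]
    · rw [mul_assoc, hq₀r]
    · rw [← mul_assoc, ← mul_assoc, hq₁l]
    · rw [mul_assoc, hq₁r]
    · rw [← add_mul]
      apply le_of_eq
      ring

end Vale.Agent.P078.AllMasa
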