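import Vale.Agent.P078.AllMasa.Defs

/-! The initial state and the extraction of a one-sided paving from a final state. -/

namespace Vale.Agent.P078.AllMasa

set_option linter.unusedSectionVars false

open Filter Topology ComplexOrder
open Vale.Agent.P078.Tracial

variable {M X : Type} [CStarAlgebra M] [PartialOrder M] [StarOrderedRing M]
variable [TopologicalSpace X] [CompactSpace X] [T2Space X] [TotallyDisconnectedSpace X]
variable {P : Prm M} {C : SCore M X}

private theorem t_small (P : Prm M) :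
    P.t ^ 3 ≤ 1 / 1000000 ∧ P.t ^ 6 ≤ 1 / 1000000 ∧ P.t ^ 4 ≤ 1 / 1000000 := by
  have h := fun k : ℕ => pow_le_pow_left₀ P.t_pos.le P.t_le k
  exact ⟨(h 3).trans (by norm_num), (h 6).trans (by norm_num), (h 4).trans (by norm_num)⟩

private theorem four_le_four_div_b1 (P : Prm M) : 4 ≤ 4 / P.b1 := by
  rw [le_div_iff₀ P.b1_pos]
  have := (t_small P).2.1
  unfold Prm.b1
  linarith

private theorem Wlo_le_wt {s : Col M X} (hs : s.Ok P C) (x : X) : P.Wlo ≤ P.wt s x := by
  have h4 := four_le_four_div_b1 P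
  have ht := (t_small P).2.2
  have hW := (hs.W_mem x).1
  have hv : P.wt s x = s.act x * s.W x + P.Wf * s.ass x
      + (1 - s.act x - s.ass x) * min (s.W x) 0 := by simp [Prm.wt]
  rcases hs.act_01 x with ha | ha
  · rcases hs.ass_01 x with hb | hb
    · rw [hv, ha, hb]
      have : P.Wlo ≤ min (s.W x) 0 := le_min hW (by unfold Prm.Wlo; linarith)
      linarith
    · rw [hv, ha, hb]
      unfold Prm.Wlo Prm.Wf Prm.ξf
      linarith
  · rw [hv, ha, hs.act_ass x ha]
    linarith

private theorem r_sq {f : C(X, ℝ)} (h : ∀ x, f x = 0 ∨ f x = 1) :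
    C.r f * C.r f = C.r f := by
  rw [← C.r_mul]
  congr 1
  ext x
  rcases h x with h | h <;> simp [h]

private theorem tr_compress_le {f : C(X, ℝ)} (h : ∀ x, f x = 0 ∨ f x = 1) {Z : M} (hZ : 0 ≤ Z) :
    C.tr (C.r f * Z * C.r f) ≤ C.tr Z := by
  have hsa := IsSelfAdjoint.of_nonneg hZ
  have e : C.tr (C.r f * Z * C.r f) = C.ig (f * C.Er Z) := by
    have h1 := C.tr_r_comm f (C.r f * Z)
    rw [← h1, ← mul_assoc, r_sq h, C.tr_r_mul f hsa]
  rw [e, ← C.ig_Er hsa]
  refine C.ig_mono (ContinuousMap.le_def.2 fun x => ?_)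
  have h2 : 0 ≤ C.Er Z x := by simpa using ContinuousMap.le_def.1 (C.Er_nonneg hZ) x
  rcases h x with h | h <;> simp [h, h2]

theorem exists_start (hP : P.Ok C) {r : ℕ} (hr : 0 < r) (hS : P.S = r * P.b0)
    (he : P.eP ≤ P.t ^ 6 / 8) :
    ∃ s : Config M X r, StateOk P C s ∧
      P.Psi C s ≤ r * (P.eP + P.l * (4 / P.b1) + 2 * P.ν) := by
  obtain ⟨ht3, ht6, ht4⟩ := t_small P
  have ht := P.t_pos
  have heP := P.eP_pos
  set a := 1 - P.eP with ha
  have ha2 : 99 / 100 ≤ a := by linarith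
  have hy1 : ‖P.y‖ ≤ P.t ^ 3 := hP.norm_y
  have hlow : algebraMap ℝ M (1 / 2) ≤ algebraMap ℝ M a - P.y := by
    refine le_trans ?_ (sub_le_sub_left (IsSelfAdjoint.le_algebraMap_norm_self hP.y_sa) _)
    rw [← map_sub]
    exact algebraMap_mono M (by linarith)
  have hsp : IsStrictlyPositive (algebraMap ℝ M a - P.y) :=
    (isStrictlyPositive_algebraMap (by norm_num : (0:ℝ) < 1 / 2)).of_le hlow
  obtain ⟨u, hu⟩ := hsp.isUnit
  have hu0 : 0 ≤ (u : M) := hu ▸ hsp.nonneg
  set G : Mˣ := u⁻¹ with hG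
  have hG0 : 0 ≤ (G : M) := CFC.inv_nonneg_of_nonneg u hu0
  have hGsa := IsSelfAdjoint.of_nonneg hG0
  have e1 : a • (G : M) = 1 + (G : M) * P.y := by
    have h : (G : M) * (algebraMap ℝ M a - P.y) = 1 := by rw [← hu, hG]; exact u.inv_mul
    rw [mul_sub, Algebra.algebraMap_eq_smul_one, mul_smul_comm, mul_one, sub_eq_iff_eq_add] at h
    exact h
  have hGn : ‖(G : M)‖ ≤ 2 := by
    have h := congrArg (fun z => ‖z‖) e1
    simp only [norm_smul, Real.norm_of_nonneg (by linarith : (0:ℝ) ≤ a)] at h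
    have h1 : ‖(1 : M)‖ ≤ 1 := by
      rcases subsingleton_or_nontrivial M with _ | _
      · simp [Subsingleton.elim (1 : M) 0]
      · simp
    have h2 := mul_le_mul_of_nonneg_left hy1 (norm_nonneg (G : M))
    have h3 := (norm_add_le (1 : M) ((G : M) * P.y)).trans
      (add_le_add h1 ((norm_mul_le _ _).trans h2))
    rw [← h] at h3
    nlinarith [norm_nonneg (G : M)]
  have e2 : a ^ 2 • (G : M) = algebraMap ℝ M a + P.y + (G : M) * P.y * P.y := by
    rw [sq, mul_smul, e1, smul_add, ← smul_mul_assoc, e1, Algebra.algebraMap_eq_smul_one,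
      add_mul, one_mul, add_assoc]
  have hEr : ∀ x, C.Er (G : M) x ≤ 1 + 5 / 2 * P.t ^ 6 := by
    intro x
    have hsaGy : IsSelfAdjoint ((G : M) * P.y * P.y) := by
      rw [show (G : M) * P.y * P.y = a ^ 2 • (G : M) - algebraMap ℝ M a - P.y by rw [e2]; abel]
      exact ((IsSelfAdjoint.smul (.all _) hGsa).sub
        (IsSelfAdjoint.algebraMap M (.all a))).sub hP.y_sa
    have h := congrArg (fun z => C.Er z x) e2
    simp only [C.Er_smul, C.Er_add, C.Er_algebraMap, hP.Er_y, ContinuousMap.smul_apply,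
      ContinuousMap.add_apply, ContinuousMap.const_apply, add_zero,
      smul_eq_mul] at h
    have h1 : C.Er ((G : M) * P.y * P.y) x ≤ 2 * P.t ^ 3 * P.t ^ 3 := by
      refine ((le_abs_self _).trans ((C.Er _).norm_coe_le_norm x)).trans ?_
      refine (C.norm_Er_le hsaGy).trans ((norm_mul_le _ _).trans ?_)
      refine mul_le_mul ((norm_mul_le _ _).trans ?_) hy1 (norm_nonneg _) (by positivity)
      exact mul_le_mul hGn hy1 (norm_nonneg _) (by norm_num)
    have h2 : a ^ 2 * C.Er (G : M) x ≤ a + 2 * P.t ^ 6 := by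
      linarith [show P.t ^ 3 * P.t ^ 3 = P.t ^ 6 by ring]
    by_contra hc
    push Not at hc
    have h98 : 98 / 100 ≤ a ^ 2 := le_trans (by norm_num) (pow_le_pow_left₀ (by norm_num) ha2 2)
    have hsq : a - P.eP ≤ a ^ 2 := by
      have : a * P.eP ≤ P.eP := mul_le_of_le_one_left heP.le (by linarith)
      rw [show a ^ 2 = a - a * P.eP by rw [ha]; ring]
      linarith
    linarith [mul_lt_mul_of_pos_left hc (by positivity : 0 < a ^ 2),
      mul_le_mul_of_nonneg_right h98 (pow_nonneg ht.le 6)]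
  set s0 : Col M X := ⟨1, 0, ContinuousMap.const X P.b0, 0, G, 0⟩ with hs0
  have hwt : P.wt s0 = 0 := by
    ext x; simp [Prm.wt, hs0]
  have hmat : P.mat C s0 = algebraMap ℝ M P.eP := by
    have hinv : (↑G⁻¹ : M) = algebraMap ℝ M a - P.y := by rw [hG, inv_inv, hu]
    rw [Prm.mat, hwt, C.r_zero, show s0.G = G from rfl, show s0.Z = 0 from rfl, hinv,
      ha, map_sub, map_one]
    abel
  have hok : s0.Ok P C := {
    act_01 := fun x => Or.inr rfl
    ass_01 := fun x => Or.inl rfl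
    act_ass := fun x _ => rfl
    act_b := fun x _ => by
      show -P.b1 ≤ P.b0
      have : 0 < P.b0 := by unfold Prm.b0; positivity
      linarith [P.b1_pos]
    W_mem := fun x => by
      show P.Wlo ≤ 0 ∧ 0 ≤ P.Wa
      have := four_le_four_div_b1 P
      constructor
      · unfold Prm.Wlo; linarith
      · unfold Prm.Wa Prm.ξa; linarith
    G_nonneg := hG0
    Z_nonneg := le_rfl
    mat_pos := hmat ▸ isStrictlyPositive_algebraMap P.eP_pos
    inv := fun x _ => by
      show P.b0 + 2 * P.b1 ≤ FP P.κ (1 - 0) - C.Er (G : M) x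
      have e : FP P.κ (1 - 0) = 1 + P.κ := by simp [FP]
      rw [e]
      have := hEr x
      unfold Prm.b0 Prm.b1 Prm.κ
      linarith }
  refine ⟨fun _ => s0, ⟨fun _ => hok, fun x => Or.inr ?_, fun c x => ?_, ?_, fun c x h => ?_⟩, ?_⟩
  · simp [Config.U, hs0]
  · simp [Config.U, hs0]
  · ext x
    simp [Config.U, hs0, hS]
  · simp [hs0] at h
  · have hR : P.R C s0 = algebraMap ℝ M P.eP⁻¹ := by
      rw [Prm.R, hmat]
      let v : Mˣ := ⟨algebraMap ℝ M P.eP, algebraMap ℝ M P.eP⁻¹,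
        by rw [← map_mul, mul_inv_cancel₀ heP.ne', map_one],
        by rw [← map_mul, inv_mul_cancel₀ heP.ne', map_one]⟩
      exact Ring.inverse_unit v
    have htrG : C.tr (G : M) ≤ 2 := by
      rw [← C.ig_Er hGsa]
      exact C.ig_le_of_le fun x => (hEr x).trans (by linarith)
    have hpot : P.pot C s0 ≤ P.eP + P.l * (4 / P.b1) + 2 * P.ν := by
      rw [Prm.pot, hR, hwt, C.tr_algebraMap, C.ig_zero, show s0.Z = 0 from rfl, C.tr_zero,
        show s0.G = G from rfl, sq, mul_assoc, mul_inv_cancel₀ heP.ne', mul_one]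
      have h1 : P.l * (0 - P.Wlo) ≤ P.l * (4 / P.b1) :=
        mul_le_mul_of_nonneg_left (by unfold Prm.Wlo; linarith) P.l_pos.le
      have h2 := mul_le_mul_of_nonneg_left htrG P.ν_pos.le
      linarith
    unfold Prm.Psi
    refine (Finset.sum_le_sum fun c _ => hpot).trans_eq ?_
    simp [mul_add]

/-- A state with small unassigned set gives a one-sided paving. -/
theorem exists_paving_of_state (hP : P.Ok C) {r : ℕ} (hr : 0 < r) {s : Config M X r}
    (hs : StateOk P C s) :
    ∃ (p : Fin (r + 1) → C(X, ℝ)) (Z : M), IsCol p ∧ 0 ≤ Z ∧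
      C.tr Z ≤ P.β * C.ig (Config.U s) + ∑ c, C.tr (s c).Z ∧
      C.spinch p P.y ≤ algebraMap ℝ M P.ξf + Z := by
  set U := Config.U s with hU
  have hβ : 0 ≤ P.β := by unfold Prm.β; have := P.t_pos; positivity
  have hU0 : 0 ≤ U := ContinuousMap.le_def.2 fun x => by
    rcases hs.U_01 x with h | h <;> simp [hU, h]
  set e : Fin r → M := fun c => C.r ((s c).ass) with he
  have he0 : ∀ c, 0 ≤ e c := fun c => C.r_nonneg <| ContinuousMap.le_def.2 fun x => by
    rcases (hs.col c).ass_01 x with h | h <;> simp [h]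
  refine ⟨Fin.snoc (fun c => (s c).ass) U, (∑ c, e c * (s c).Z * e c) + P.β • C.r U,
    ⟨fun i => ?_, ?_⟩, ?_, ?_, ?_⟩
  · refine Fin.lastCases ?_ (fun c => ?_) i
    · simpa using hs.U_01
    · simpa using (hs.col c).ass_01
  · simp [Fin.sum_univ_castSucc, hU, Config.U]
  · exact add_nonneg (Finset.sum_nonneg fun c _ => conjugate_nonneg_of_nonneg
      (hs.col c).Z_nonneg (he0 c)) (smul_nonneg hβ (C.r_nonneg hU0))
  · rw [C.tr_add, C.tr_smul, C.tr_sum, add_comm]
    exact add_le_add le_rfl (Finset.sum_le_sum fun c _ =>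
      tr_compress_le (hs.col c).ass_01 (hs.col c).Z_nonneg)
  have hcol : ∀ c, e c * P.y * e c ≤ P.ξf • e c + e c * (s c).Z * e c := by
    intro c
    have hc := hs.col c
    have hee : e c * e c = e c := r_sq hc.ass_01
    have h1 : P.y ≤ 1 + (s c).Z - C.r (P.wt (s c)) := by
      have h := add_nonneg hc.mat_pos.nonneg
        (CFC.inv_nonneg_of_nonneg (s c).G hc.G_nonneg)
      rw [← sub_nonneg]
      convert h using 1
      rw [Prm.mat]; abel
    have h2 := conjugate_le_conjugate_of_nonneg h1 (he0 c)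
    have h3 : e c * C.r (P.wt (s c)) * e c = P.Wf • e c := by
      simp only [he, ← C.r_mul, ← C.r_smul]
      congr 1
      ext x
      rcases hc.ass_01 x with h | h
      · simp [h]
      · rcases hc.act_01 x with ha | ha
        · simp [Prm.wt, h, ha]
        · simp [hc.act_ass x ha] at h
    refine h2.trans_eq ?_
    rw [mul_sub, sub_mul, mul_add, add_mul, mul_one, hee, h3,
      show P.Wf = 1 - P.ξf from rfl, sub_smul, one_smul]
    abel
  have hu : C.r U * P.y * C.r U ≤ P.β • C.r U := by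
    have h1 : P.y ≤ algebraMap ℝ M P.β :=
      (IsSelfAdjoint.le_algebraMap_norm_self hP.y_sa).trans (algebraMap_mono M hP.norm_y)
    refine (conjugate_le_conjugate_of_nonneg h1 (C.r_nonneg hU0)).trans_eq ?_
    rw [Algebra.algebraMap_eq_smul_one, mul_smul_comm, mul_one, smul_mul_assoc,
      r_sq hs.U_01]
  have hsum : P.ξf • ∑ c, e c ≤ algebraMap ℝ M P.ξf := by
    rw [Algebra.algebraMap_eq_smul_one]
    refine smul_le_smul_of_nonneg_left ?_ (by unfold Prm.ξf; have := P.t_pos; positivity)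
    rw [he, ← C.r_sum, ← C.r_one, show ∑ c, (s c).ass = 1 - U by rw [hU, Config.U]; abel]
    exact C.r_mono (sub_le_self _ hU0)
  rw [SCore.spinch, Fin.sum_univ_castSucc]
  simp only [Fin.snoc_castSucc, Fin.snoc_last]
  calc (∑ c, e c * P.y * e c) + C.r U * P.y * C.r U
      ≤ (∑ c, (P.ξf • e c + e c * (s c).Z * e c)) + P.β • C.r U :=
        add_le_add (Finset.sum_le_sum fun c _ => hcol c) hu
    _ ≤ _ := by
        rw [Finset.sum_add_distrib, ← Finset.smul_sum, add_assoc]
        exact add_le_add hsum le_rfl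

/-- The cost in the slack is at most the potential. -/
theorem sum_tr_Z_le (hP : P.Ok C) {r : ℕ} {s : Config M X r} (hs : StateOk P C s) :
    ∑ c, C.tr (s c).Z ≤ P.Psi C s := by
  refine Finset.sum_le_sum fun c _ => ?_
  have hc := hs.col c
  have hR : 0 ≤ C.tr (P.R C (s c)) := by
    refine C.tr_nonneg ?_
    obtain ⟨u, hu⟩ := hc.mat_pos.isUnit
    rw [Prm.R, ← hu, Ring.inverse_unit]
    exact CFC.inv_nonneg_of_nonneg u (hu ▸ hc.mat_pos.nonneg)
  have hW : P.Wlo ≤ C.ig (P.wt (s c)) := by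
    rw [← C.ig_const P.Wlo]
    exact C.ig_mono (ContinuousMap.le_def.2 fun x => by simpa using Wlo_le_wt hc x)
  unfold Prm.pot
  nlinarith [mul_nonneg (sq_nonneg P.eP) hR, mul_nonneg P.l_pos.le (sub_nonneg.2 hW),
    mul_nonneg P.ν_pos.le (C.tr_nonneg hc.G_nonneg)]

end Vale.Agent.P078.AllMasa
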