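import Vale.Agent.P078.AllMasa.Profile

/-! The second order move of one colour. -/

namespace Vale.Agent.P078.AllMasa

set_option linter.unusedSectionVars false

open Filter Topology ComplexOrder
open Vale.Agent.P078.Tracial

variable {M X : Type} [CStarAlgebra M] [PartialOrder M] [StarOrderedRing M]
variable [TopologicalSpace X] [CompactSpace X] [T2Space X] [TotallyDisconnectedSpace X]
variable {P : Prm M} {C : SCore M X}

namespace StepColour

theorem abs_apply_le {f : C(X, ℝ)} {R : ℝ} (h : ‖f‖ ≤ R) (x : X) : |f x| ≤ R :=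
  (f.norm_coe_le_norm x).trans h

theorem norm_le_of_abs {f : C(X, ℝ)} {R : ℝ} (hR : 0 ≤ R) (h : ∀ x, |f x| ≤ R) : ‖f‖ ≤ R :=
  (ContinuousMap.norm_le _ hR).2 h

theorem norm_one_le (C : SCore M X) : ‖(1 : M)‖ ≤ 1 := by
  have : Nontrivial M := ⟨⟨1, 0, fun h => by simpa [h] using C.φ_one⟩⟩
  exact CStarRing.norm_one.le

/-- The inverse of an element bounded below by a positive constant. -/
theorem inverse_bound {a : M} {e : ℝ} (he : 0 < e) (h : algebraMap ℝ M e ≤ a) :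
    IsStrictlyPositive a ∧ ‖Ring.inverse a‖ ≤ 1 / e := by
  have h0 : IsStrictlyPositive (algebraMap ℝ M e) :=
    IsStrictlyPositive.iff_of_unital.2 ⟨algebraMap_nonneg M he.le,
      (isUnit_iff_ne_zero.2 he.ne').map (algebraMap ℝ M)⟩
  have ha0 : 0 ≤ a := h0.nonneg.trans h
  obtain ⟨u, rfl⟩ := CStarAlgebra.isUnit_of_le _ h h0
  refine ⟨IsStrictlyPositive.iff_of_unital.2 ⟨ha0, u.isUnit⟩, ?_⟩
  rw [Ring.inverse_unit, ← cfc_inv_id (R := ℝ) u (IsSelfAdjoint.of_nonneg ha0)]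
  refine norm_cfc_le (by positivity) fun t ht => ?_
  have : e ≤ t := (algebraMap_le_iff_le_spectrum (IsSelfAdjoint.of_nonneg ha0)).1 h t ht
  rw [Real.norm_of_nonneg (inv_nonneg.2 (by linarith)), one_div]
  exact inv_anti₀ he this

theorem norm_mul₅_le (a b c d e : M) : ‖a * b * c * d * e‖ ≤ ‖a‖ * ‖b‖ * ‖c‖ * ‖d‖ * ‖e‖ :=
  (norm_mul_le _ _).trans (mul_le_mul_of_nonneg_right ((norm_mul_le _ _).trans
    (mul_le_mul_of_nonneg_right norm_mul₃_le (norm_nonneg _))) (norm_nonneg _))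

/-- The expansion of an inverse to second order. -/
theorem inverse_expand {a Δ : M} {e : ℝ} (he : 0 < e) (ha : algebraMap ℝ M e ≤ a)
    (hΔ : IsSelfAdjoint Δ) (hn : ‖Δ‖ ≤ e / 2) :
    IsStrictlyPositive (a + Δ) ∧
      ‖Ring.inverse (a + Δ) - (Ring.inverse a - Ring.inverse a * Δ * Ring.inverse a
          + Ring.inverse a * Δ * Ring.inverse a * Δ * Ring.inverse a)‖
        ≤ ‖Δ‖ ^ 3 * (2 / e ^ 4) := by
  have hlow : algebraMap ℝ M (e / 2) ≤ a + Δ := by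
    have h1 : algebraMap ℝ M (-(e / 2)) ≤ Δ := by
      refine le_trans ?_ (IsSelfAdjoint.neg_algebraMap_norm_le_self hΔ)
      rw [← map_neg]
      exact algebraMap_mono M (neg_le_neg hn)
    calc algebraMap ℝ M (e / 2) = algebraMap ℝ M e + algebraMap ℝ M (-(e / 2)) := by
          rw [← map_add]; congr 1; ring
      _ ≤ a + Δ := add_le_add ha h1
  obtain ⟨hp, hn'⟩ := inverse_bound (by positivity) hlow
  obtain ⟨hpa, hna⟩ := inverse_bound he ha
  refine ⟨hp, ?_⟩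
  set R := Ring.inverse a
  set R' := Ring.inverse (a + Δ)
  have h1 : R' = R - R' * Δ * R := by
    have e1 : R' * (a + Δ) = 1 := Ring.inverse_mul_cancel _ hp.isUnit
    have e2 : a * R = 1 := Ring.mul_inverse_cancel _ hpa.isUnit
    have := congrArg (· * R) e1
    simp only [mul_add, add_mul, one_mul, mul_assoc, e2, mul_one] at this
    rw [mul_assoc, eq_sub_iff_add_eq, this]
  have h2 : R' - (R - R * Δ * R + R * Δ * R * Δ * R) = -(R' * Δ * R * Δ * R * Δ * R) := by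
    nth_rw 1 [h1, h1, h1]
    simp only [sub_mul]
    abel
  rw [h2, norm_neg]
  calc ‖R' * Δ * R * Δ * R * Δ * R‖ ≤ ‖R' * Δ * R * Δ * R‖ * ‖Δ‖ * ‖R‖ :=
        (norm_mul_le _ _).trans (mul_le_mul_of_nonneg_right (norm_mul_le _ _) (norm_nonneg _))
    _ ≤ ‖R'‖ * ‖Δ‖ * ‖R‖ * ‖Δ‖ * ‖R‖ * ‖Δ‖ * ‖R‖ := by
        gcongr
        exact norm_mul₅_le _ _ _ _ _
    _ ≤ 1 / (e / 2) * ‖Δ‖ * (1 / e) * ‖Δ‖ * (1 / e) * ‖Δ‖ * (1 / e) := by gcongr
    _ = ‖Δ‖ ^ 3 * (2 / e ^ 4) := by field_simp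

/-- The quadratic term of the expansion, up to third order. -/
theorem quad_expand {R A B : M} {η r a b : ℝ} (hη : 0 ≤ η) (hη1 : η ≤ 1) (hR : ‖R‖ ≤ r)
    (hA : ‖A‖ ≤ a) (hB : ‖B‖ ≤ η ^ 2 * b) :
    ‖R * (η • A + B) * R * (η • A + B) * R - η ^ 2 • (R * A * R * A * R)‖
      ≤ η ^ 3 * (r ^ 3 * (2 * a * b + b ^ 2)) := by
  have hr : 0 ≤ r := (norm_nonneg _).trans hR
  have ha : 0 ≤ a := (norm_nonneg _).trans hA
  have e : R * (η • A + B) * R * (η • A + B) * R - η ^ 2 • (R * A * R * A * R)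
      = η • (R * A * R * B * R) + η • (R * B * R * A * R) + R * B * R * B * R := by
    simp only [mul_add, add_mul, mul_smul_comm, smul_mul_assoc]
    match_scalars <;> ring
  rw [e]
  refine norm_add₃_le.trans ?_
  rw [norm_smul, norm_smul, Real.norm_of_nonneg hη]
  have hB0 : 0 ≤ η ^ 2 * b := (norm_nonneg _).trans hB
  have h1 := (norm_mul₅_le R A R B R).trans
    (show ‖R‖ * ‖A‖ * ‖R‖ * ‖B‖ * ‖R‖ ≤ r * a * r * (η ^ 2 * b) * r by gcongr)
  have h2 := (norm_mul₅_le R B R A R).trans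
    (show ‖R‖ * ‖B‖ * ‖R‖ * ‖A‖ * ‖R‖ ≤ r * (η ^ 2 * b) * r * a * r by
      gcongr)
  have h3 := (norm_mul₅_le R B R B R).trans
    (show ‖R‖ * ‖B‖ * ‖R‖ * ‖B‖ * ‖R‖ ≤ r * (η ^ 2 * b) * r * (η ^ 2 * b) * r by
      gcongr)
  have h4 : η * (η ^ 3 * (r ^ 3 * b ^ 2)) ≤ η ^ 3 * (r ^ 3 * b ^ 2) :=
    mul_le_of_le_one_left (by positivity) hη1
  linear_combination mul_le_mul_of_nonneg_left h1 hη + mul_le_mul_of_nonneg_left h2 hη + h3 + h4

/-- A step of a positive unit by `η G Z G`; no lower bound of the unit is needed. -/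
theorem exists_unit_step (h1 : ‖(1 : M)‖ ≤ 1) {G : Mˣ} (hG : 0 ≤ (G : M)) {L N : ℝ}
    (hGL : ‖(G : M)‖ ≤ L) {Z : M} (hZ : IsSelfAdjoint Z) (hN : ‖Z‖ ≤ N)
    {η : ℝ} (hη : 0 ≤ η) (hη1 : η * (N * L) ≤ 1 / 2) :
    ∃ G' : Mˣ, 0 ≤ (G' : M) ∧ (G' : M) = G + η • ((G : M) * Z * G) ∧
      ‖(↑G'⁻¹ : M) - (↑G⁻¹ - η • Z + η ^ 2 • (Z * G * Z))‖
        ≤ η ^ 3 * (2 * (N ^ 3 * L ^ 2)) := by
  have hN0 : 0 ≤ N := (norm_nonneg _).trans hN
  have hL0 : 0 ≤ L := (norm_nonneg _).trans hGL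
  set Y := η • (Z * (G : M)) with hY
  have hnY : ‖Y‖ ≤ 1 / 2 := by
    rw [hY, norm_smul, Real.norm_of_nonneg hη]
    exact le_trans (mul_le_mul_of_nonneg_left
      ((norm_mul_le _ _).trans (mul_le_mul hN hGL (norm_nonneg _) hN0)) hη) hη1
  set u := Units.oneSub (-Y) (by rw [norm_neg]; linarith) with hu
  have huv : (u : M) = 1 + Y := by simp [hu]
  have hval : ((G * u : Mˣ) : M) = G + η • ((G : M) * Z * G) := by
    rw [Units.val_mul, huv, hY, mul_add, mul_one, mul_smul_comm, mul_assoc]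
  refine ⟨G * u, ?_, hval, ?_⟩
  · rw [hval]
    have hs : algebraMap ℝ M (-N) ≤ Z := by
      refine le_trans ?_ (IsSelfAdjoint.neg_algebraMap_norm_le_self hZ)
      rw [← map_neg]
      exact algebraMap_mono M (neg_le_neg hN)
    have hc := conjugate_le_conjugate_of_nonneg hs hG
    have hsq : 0 ≤ (G : M) * (algebraMap ℝ M L - G) := by
      have hle : (G : M) ≤ algebraMap ℝ M L :=
        (CStarAlgebra.norm_le_iff_le_algebraMap (G : M) hL0 hG).1 hGL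
      exact Commute.mul_nonneg hG (sub_nonneg.2 hle)
        ((Algebra.commutes L (G : M)).symm.trans rfl |> fun h =>
          Commute.sub_right (show Commute (G : M) (algebraMap ℝ M L) from h) (Commute.refl _))
    calc (0 : M) ≤ (1 - η * (N * L)) • (G : M)
            + (η * N) • ((G : M) * (algebraMap ℝ M L - G)) :=
          add_nonneg (smul_nonneg (by linarith) hG) (smul_nonneg (by positivity) hsq)
      _ = G + η • ((G : M) * algebraMap ℝ M (-N) * G) := by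
          simp only [Algebra.algebraMap_eq_smul_one, mul_sub, mul_smul_comm, smul_mul_assoc,
            mul_one]
          match_scalars <;> ring
      _ ≤ G + η • ((G : M) * Z * G) := by gcongr
  · set v : M := ↑u⁻¹
    have hv : v * (1 + Y) = 1 := by rw [← huv]; exact u.inv_mul
    have hnv : ‖v‖ ≤ 2 := by
      have e : v = 1 - v * Y := by rw [mul_add, mul_one] at hv; exact eq_sub_of_add_eq hv
      have h2 : ‖v‖ ≤ ‖(1 : M)‖ + ‖v * Y‖ := (congrArg norm e).trans_le (norm_sub_le _ _)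
      have h3 := (norm_mul_le v Y).trans (mul_le_mul_of_nonneg_left hnY (norm_nonneg _))
      linarith
    set F := (↑G⁻¹ : M) - η • Z + η ^ 2 • (Z * G * Z) with hF
    have hprod : (1 + Y) * F = ↑G⁻¹ + η ^ 3 • (Z * G * Z * G * Z) := by
      rw [hF, hY]
      simp only [add_mul, one_mul, mul_add, mul_sub, smul_mul_assoc, mul_smul_comm,
        mul_assoc, Units.mul_inv, mul_one]
      match_scalars <;> ring
    have hdiff : ((↑(G * u)⁻¹ : M)) - F = -(η ^ 3 • (v * (Z * G * Z * G * Z))) := by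
      have h2 := congrArg (v * ·) hprod
      simp only [← mul_assoc, hv, one_mul, mul_add, mul_smul_comm] at h2
      rw [mul_inv_rev, Units.val_mul]
      simp only [← mul_assoc]
      rw [h2]
      abel
    rw [hdiff, norm_neg, norm_smul, Real.norm_of_nonneg (by positivity)]
    refine mul_le_mul_of_nonneg_left ?_ (by positivity)
    calc ‖v * (Z * G * Z * G * Z)‖ ≤ ‖v‖ * (‖Z‖ * ‖(G : M)‖ * ‖Z‖ * ‖(G : M)‖ * ‖Z‖) :=
          (norm_mul_le _ _).trans (mul_le_mul_of_nonneg_left (norm_mul₅_le _ _ _ _ _)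
            (norm_nonneg _))
      _ ≤ 2 * (N * L * N * L * N) := by gcongr
      _ = 2 * (N ^ 3 * L ^ 2) := by ring

theorem eventually_mul_le (c : ℝ) {d : ℝ} (hd : 0 < d) : ∀ᶠ η in 𝓝 (0 : ℝ), η * c ≤ d := by
  have h : Tendsto (fun η : ℝ => η * c) (𝓝 0) (𝓝 0) :=
    (continuous_id.mul continuous_const).tendsto' _ _ (zero_mul c)
  exact h.eventually (eventually_le_nhds hd)

/-- The invariant after the move, on the scalar level. -/
theorem profile_step {κ ξ i j D Q C1 Qm T2 T c η : ℝ} (hiD : i * D = 1) (hQ : 0 ≤ Q)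
    (hQm : Q ≤ Qm) (hη : 0 ≤ η) (hη1 : η ≤ 1) (hC1 : 0 ≤ C1) (hj : |j| + T2 + 1 ≤ T)
    (he : |-(i * Q * j ^ 2) + η * (c * i)| ≤ T2 + 1)
    (hc : Qm * (2 * T * T) + C1 * T ^ 3 ≤ c)
    (htay : ∀ d, |d| ≤ η * T →
      FP κ ξ + d * D + d ^ 2 * Q - C1 * |d| ^ 3 ≤ FP κ (ξ - d)) :
    FP κ ξ + η * (D * j)
      ≤ FP κ (ξ - (η * j + η ^ 2 * (-(i * Q * j ^ 2)) + η ^ 3 * (c * i))) := by
  set e := -(i * Q * j ^ 2) + η * (c * i) with he'
  have hd : η * j + η ^ 2 * (-(i * Q * j ^ 2)) + η ^ 3 * (c * i) = η * (j + η * e) := by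
    rw [he']; ring
  have he1 : |η * e| ≤ T2 + 1 := by
    rw [abs_mul, abs_of_nonneg hη]
    exact (mul_le_of_le_one_left (abs_nonneg e) hη1).trans he
  have hje : |j + η * e| ≤ T := (abs_add_le _ _).trans (by linarith)
  have hje2 : |e * (2 * j + η * e)| ≤ T * (2 * T) := by
    rw [abs_mul]
    refine mul_le_mul (he.trans (by linarith [abs_nonneg j])) ?_ (abs_nonneg _)
      (by linarith [abs_nonneg j, abs_nonneg e])
    refine (abs_add_le _ _).trans ?_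
    rw [abs_mul, abs_two]
    linarith [abs_nonneg e]
  have hT : 0 ≤ T := (abs_nonneg _).trans hje
  have hd3 : |η * (j + η * e)| ≤ η * T := by
    rw [abs_mul, abs_of_nonneg hη]; exact mul_le_mul_of_nonneg_left hje hη
  have h := htay _ hd3
  have h3 : C1 * |η * (j + η * e)| ^ 3 ≤ η ^ 3 * (C1 * T ^ 3) := by
    calc C1 * |η * (j + η * e)| ^ 3 ≤ C1 * (η * T) ^ 3 := by gcongr
      _ = η ^ 3 * (C1 * T ^ 3) := by ring
  have h2 : -(η ^ 3 * (Qm * (2 * T * T))) ≤ η ^ 3 * (Q * (e * (2 * j + η * e))) := by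
    rw [← mul_neg]
    refine mul_le_mul_of_nonneg_left ?_ (by positivity)
    have : |Q * (e * (2 * j + η * e))| ≤ Qm * (2 * T * T) := by
      rw [abs_mul, abs_of_nonneg hQ]
      exact (mul_le_mul hQm hje2 (abs_nonneg _) (hQ.trans hQm)).trans_eq (by ring)
    exact (abs_le.1 this).1
  have h4 := mul_le_mul_of_nonneg_left hc (pow_nonneg hη 3)
  have hlin : η * (j + η * e) * D = η * (D * j) - η ^ 2 * (Q * j ^ 2) + η ^ 3 * c := by
    rw [he']
    linear_combination (-(η ^ 2 * (Q * j ^ 2)) + η ^ 3 * c) * hiD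
  have hsq : (η * (j + η * e)) ^ 2 * Q
      = η ^ 2 * (Q * j ^ 2) + η ^ 3 * (Q * (e * (2 * j + η * e))) := by ring
  rw [hd]
  linarith

/-- The quadratic correction of the weight, with the opposite sign. -/
noncomputable def corr (P : Prm M) (s : Col M X) (k h : C(X, ℝ)) : C(X, ℝ) :=
  s.act * P.iD s * P.Qc s * ((k - h * P.iD s) * (k - h * P.iD s))

/-- The new weight. -/
noncomputable def newW (P : Prm M) (s : Col M X) (k h : C(X, ℝ)) (η c : ℝ) : C(X, ℝ) :=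
  s.W + η • (s.act * (k - h * P.iD s)) - η ^ 2 • corr P s k h
    + (η ^ 3 * c) • (s.act * P.iD s)

theorem iD_facts {s : Col M X} (hs : s.Ok P C) (x : X) :
    0 ≤ P.iD s x ∧ P.iD s x ≤ 1 / P.Dmin ∧ P.iD s x * P.Dc s x = 1 := by
  have hi' : P.iD s x = (P.Dc s x)⁻¹ := rfl
  rw [hi', one_div]
  exact ⟨(inv_pos.2 (P.Dc_pos s x)).le, inv_anti₀ P.Dmin_pos (Prm.Dc_bounds hs x).1,
    inv_mul_cancel₀ (P.Dc_pos s x).ne'⟩

theorem newW_inactive {s : Col M X} (k h : C(X, ℝ)) (η c : ℝ) {x : X} (ha : s.act x = 0) :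
    newW P s k h η c x = s.W x := by
  simp [newW, corr, ha]

theorem newW_active {s : Col M X} (k h : C(X, ℝ)) (η c : ℝ) {x : X} (ha : s.act x = 1) :
    newW P s k h η c x = s.W x + (η * (k x - h x * P.iD s x)
      + η ^ 2 * (-(P.iD s x * P.Qc s x * (k x - h x * P.iD s x) ^ 2))
      + η ^ 3 * (c * P.iD s x)) := by
  simp only [newW, corr, ContinuousMap.add_apply, ContinuousMap.sub_apply,
    ContinuousMap.mul_apply, ContinuousMap.smul_apply, smul_eq_mul, ha]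
  ring

theorem wt_newW {s : Col M X} (hs : s.Ok P C) (k h : C(X, ℝ)) (η c : ℝ) (b : C(X, ℝ)) (G' : Mˣ) :
    P.wt (⟨s.act, s.ass, b, newW P s k h η c, G', s.Z⟩ : Col M X)
      = P.wt s + (newW P s k h η c - s.W) := by
  ext x
  rcases hs.act_01 x with ha | ha
  · simp [Prm.wt, ha, newW_inactive k h η c ha]
  · simp [Prm.wt, ha, hs.act_ass x ha]

theorem K_bound {s : Col M X} (hG : 0 ≤ (s.G : M)) (hg : (s.G : M) ≤ algebraMap ℝ M P.Λ)
    {k : C(X, ℝ)} {B : ℝ} (hkB : ‖k‖ ≤ B) (x : X) :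
    C.K (s.G : M) k = C.Er ((s.G : M) * C.r k * (s.G : M)) ∧
      |C.K (s.G : M) k x| ≤ P.Λ * B * P.Λ := by
  have hGs := IsSelfAdjoint.of_nonneg hG
  have hnG : ‖(s.G : M)‖ ≤ P.Λ :=
    (CStarAlgebra.norm_le_iff_le_algebraMap (s.G : M) P.Λ_pos.le hG).2 hg
  have hnk : ‖C.r k‖ ≤ B := (C.norm_r_le k).trans hkB
  have hKe : C.K (s.G : M) k = C.Er ((s.G : M) * C.r k * (s.G : M)) := by
    rw [SCore.K, hGs.star_eq]
  refine ⟨hKe, abs_apply_le ?_ x⟩
  rw [hKe]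
  refine (C.norm_Er_le ((C.r_isSelfAdjoint k).conjugate_self hGs)).trans ?_
  have := P.Λ_pos.le
  have := (norm_nonneg _).trans hnk
  exact norm_mul₃_le.trans (by gcongr)

/-- The move keeps the window, the lower bound and the invariant of the budget. -/
theorem budget_step {s : Col M X} (hs : s.Ok P C) (hg : P.Good C s) {k h : C(X, ℝ)}
    {B η c C1 η1 J T2 T : ℝ} (hkB : ‖k‖ ≤ B) (hhB : ‖h‖ ≤ B)
    (hJ : J = B + B * (1 / P.Dmin)) (hT2 : T2 = 1 / P.Dmin * P.Qmax * (J * J))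
    (hT : T = J + T2 + 1) (hc : c = P.Qmax * (2 * T * T) + C1 * T ^ 3) (hC1 : 0 ≤ C1)
    (htay : ∀ ξ d, P.ξm ≤ ξ → ξ ≤ 4 / P.b1 → |d| ≤ η1 →
      FP P.κ ξ + d * DP P.κ ξ + d ^ 2 * QP P.κ ξ - C1 * |d| ^ 3 ≤ FP P.κ (ξ - d))
    (hη : 0 ≤ η) (h1 : η ≤ 1) (h2 : η * T ≤ η1) (h3 : η * T ≤ P.ξm - P.ξa)
    (h4 : η * T ≤ 1 / P.b1) (h5 : η * (P.Dmax * B + P.Λ * B * P.Λ + B) ≤ P.b1 / 2)
    (h6 : η * (c * (1 / P.Dmin)) ≤ 1) (hc0 : 0 ≤ c) {G' : Mˣ}
    (hG' : (G' : M) = s.G + η • ((s.G : M) * C.r k * s.G)) :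
    (∀ x, s.act x = 1 → -P.b1 ≤ s.b x + η * P.dir C s k h x) ∧
    (∀ x, P.Wlo ≤ newW P s k h η c x ∧ newW P s k h η c x ≤ P.Wa) ∧
    ∀ x, s.act x = 1 → s.b x + η * P.dir C s k h x + 2 * P.b1
      ≤ FP P.κ (1 - newW P s k h η c x) - C.Er (G' : M) x := by
  have hB : 0 ≤ B := (norm_nonneg _).trans hkB
  have hK := fun x => K_bound (C := C) hs.G_nonneg hg.G_le hkB x
  have hdir : ∀ x, s.act x = 1 →
      P.dir C s k h x = P.Dc s x * k x - C.K (s.G : M) k x - h x := fun x ha => by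
    simp [Prm.dir, ha]
  have hd : ∀ x, s.act x = 1 →
      |k x - h x * P.iD s x| ≤ J ∧
      |-(P.iD s x * P.Qc s x * (k x - h x * P.iD s x) ^ 2) + η * (c * P.iD s x)| ≤ T2 + 1 ∧
      |newW P s k h η c x - s.W x| ≤ η * T := fun x ha => by
    obtain ⟨hi0, hi1, -⟩ := iD_facts hs x
    obtain ⟨hQ0, hQ1⟩ := Prm.Qc_le hs hg ha
    have hj : |k x - h x * P.iD s x| ≤ J := by
      rw [hJ]
      refine (abs_sub _ _).trans (add_le_add (abs_apply_le hkB x) ?_)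
      rw [abs_mul, abs_of_nonneg hi0]
      exact mul_le_mul (abs_apply_le hhB x) hi1 hi0 hB
    have hJ0 : 0 ≤ J := (abs_nonneg _).trans hj
    have he : |-(P.iD s x * P.Qc s x * (k x - h x * P.iD s x) ^ 2) + η * (c * P.iD s x)|
        ≤ T2 + 1 := by
      refine (abs_add_le _ _).trans (add_le_add ?_ ?_)
      · rw [abs_neg, hT2, abs_mul, abs_mul, abs_of_nonneg hi0, abs_of_nonneg hQ0, abs_pow,
          sq]
        exact mul_le_mul (mul_le_mul hi1 hQ1 hQ0 (hi0.trans hi1))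
          (mul_le_mul hj hj (abs_nonneg _) hJ0) (mul_self_nonneg _)
          (mul_nonneg (hi0.trans hi1) (hQ0.trans hQ1))
      · rw [abs_of_nonneg (mul_nonneg hη (mul_nonneg hc0 hi0))]
        exact le_trans (mul_le_mul_of_nonneg_left
          (mul_le_mul_of_nonneg_left hi1 hc0) hη) h6
    refine ⟨hj, he, ?_⟩
    rw [newW_active k h η c ha, add_sub_cancel_left,
      show η * (k x - h x * P.iD s x)
        + η ^ 2 * (-(P.iD s x * P.Qc s x * (k x - h x * P.iD s x) ^ 2))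
        + η ^ 3 * (c * P.iD s x) = η * ((k x - h x * P.iD s x)
        + η * (-(P.iD s x * P.Qc s x * (k x - h x * P.iD s x) ^ 2) + η * (c * P.iD s x))) by ring,
      abs_mul, abs_of_nonneg hη]
    refine mul_le_mul_of_nonneg_left ((abs_add_le _ _).trans ?_) hη
    rw [abs_mul, abs_of_nonneg hη]
    have := mul_le_of_le_one_left (abs_nonneg
      (-(P.iD s x * P.Qc s x * (k x - h x * P.iD s x) ^ 2) + η * (c * P.iD s x))) h1
    linarith
  refine ⟨fun x ha => ?_, fun x => ?_, fun x ha => ?_⟩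
  · have h : |P.dir C s k h x| ≤ P.Dmax * B + P.Λ * B * P.Λ + B := by
      rw [hdir x ha]
      refine (abs_sub _ _).trans (add_le_add ((abs_sub _ _).trans
        (add_le_add ?_ (hK x).2)) (abs_apply_le hhB x))
      rw [abs_mul, abs_of_pos (P.Dc_pos s x)]
      exact mul_le_mul (Prm.Dc_bounds hs x).2 (abs_apply_le hkB x) (abs_nonneg _) P.Dmax_pos.le
    have := mul_le_mul_of_nonneg_left (abs_le.1 h).1 hη
    linarith [hg.low x ha]
  · rcases hs.act_01 x with ha | ha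
    · rw [newW_inactive k h η c ha]; exact hs.W_mem x
    · obtain ⟨hd1, hd2⟩ := abs_le.1 (hd x ha).2.2
      have hlo := Prm.Wlo_lt hs ha
      have hhi := hg.high x ha
      unfold Prm.Wm at hhi
      unfold Prm.Wa
      exact ⟨by linarith, by linarith⟩
  · obtain ⟨hi0, -, hiD⟩ := iD_facts hs x
    obtain ⟨hQ0, hQ1⟩ := Prm.Qc_le hs hg ha
    have hx1 : P.xi s x = 1 - s.W x := by
      have := (hs.W_mem x).2
      unfold Prm.Wa at this
      exact max_eq_left (by linarith)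
    have hξlo : P.ξm ≤ 1 - s.W x := by
      have := hg.high x ha
      unfold Prm.Wm at this
      linarith
    have hξhi : 1 - s.W x ≤ 4 / P.b1 := by
      have := (hs.W_mem x).1
      unfold Prm.Wlo at this
      linarith
    have hstep := profile_step (κ := P.κ) (ξ := 1 - s.W x) (j := k x - h x * P.iD s x)
      (C1 := C1) (T2 := T2) (T := T) (c := c) (η := η) hiD hQ0 hQ1 hη h1 hC1
      (by rw [hT]; linarith [(hd x ha).1]) (hd x ha).2.1 hc.ge
      (fun d' hd' => by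
        have := htay (1 - s.W x) d' hξlo hξhi (hd'.trans h2)
        rwa [show P.Dc s x = DP P.κ (1 - s.W x) from congrArg (DP P.κ) hx1,
          show P.Qc s x = QP P.κ (1 - s.W x) from congrArg (QP P.κ) hx1])
    have hEr : C.Er (G' : M) x = C.Er (s.G : M) x + η * C.K (s.G : M) k x := by
      rw [hG', C.Er_add, C.Er_smul, (hK x).1]
      rfl
    have hDh : P.Dc s x * (k x - h x * P.iD s x) = P.Dc s x * k x - h x := by
      linear_combination -h x * hiD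
    have hinv := hs.inv x ha
    rw [hEr, hdir x ha, newW_active k h η c ha, ← sub_sub (1 : ℝ)]
    rw [hDh] at hstep
    linarith

/-- The change of the trace of an inverse to second order. -/
theorem tr_inverse_step (C : SCore M X) {a A1 A2 A3 : M} {e η a1 a2 n3 : ℝ} (he : 0 < e)
    (ha : algebraMap ℝ M e ≤ a) (hs1 : IsSelfAdjoint A1) (hs2 : IsSelfAdjoint A2)
    (hs3 : IsSelfAdjoint A3) (hA1 : ‖A1‖ ≤ a1) (hA2 : ‖A2‖ ≤ a2) (hA3 : ‖A3‖ ≤ η ^ 3 * n3)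
    (hη : 0 ≤ η) (hη1 : η ≤ 1) (hsmall : η * (a1 + (a2 + n3)) ≤ e / 2)
    (hn3 : 0 ≤ n3) :
    IsStrictlyPositive (a + (η • A1 + (η ^ 2 • A2 + A3))) ∧
      C.tr (Ring.inverse (a + (η • A1 + (η ^ 2 • A2 + A3))))
        ≤ C.tr (Ring.inverse a) - η * C.tr (Ring.inverse a * A1 * Ring.inverse a)
          - η ^ 2 * C.tr (Ring.inverse a * A2 * Ring.inverse a)
          + η ^ 2 * C.tr (Ring.inverse a * A1 * Ring.inverse a * A1 * Ring.inverse a)
          + η ^ 3 * (‖C.φ‖ * (1 / e * n3 * (1 / e)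
            + (1 / e) ^ 3 * (2 * a1 * (a2 + n3) + (a2 + n3) ^ 2)
            + (a1 + (a2 + n3)) ^ 3 * (2 / e ^ 4))) := by
  have ha20 : 0 ≤ a2 := (norm_nonneg _).trans hA2
  have hBm : ‖η ^ 2 • A2 + A3‖ ≤ η ^ 2 * (a2 + n3) := by
    refine (norm_add_le _ _).trans ?_
    rw [norm_smul, Real.norm_of_nonneg (sq_nonneg η), mul_add]
    exact add_le_add (mul_le_mul_of_nonneg_left hA2 (sq_nonneg η))
      (hA3.trans (mul_le_mul_of_nonneg_right (pow_le_pow_of_le_one hη hη1 (by norm_num)) hn3))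
  have hΔb : ‖η • A1 + (η ^ 2 • A2 + A3)‖ ≤ η * (a1 + (a2 + n3)) := by
    refine (norm_add_le _ _).trans ?_
    rw [norm_smul, Real.norm_of_nonneg hη, mul_add]
    refine add_le_add (mul_le_mul_of_nonneg_left hA1 hη) (hBm.trans ?_)
    exact mul_le_mul_of_nonneg_right (pow_le_of_le_one hη hη1 (by norm_num)) (by positivity)
  have hΔs : IsSelfAdjoint (η • A1 + (η ^ 2 • A2 + A3)) :=
    ((IsSelfAdjoint.all η).smul hs1).add (((IsSelfAdjoint.all _).smul hs2).add hs3)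
  obtain ⟨hpos, hexp⟩ := inverse_expand he ha hΔs (hΔb.trans hsmall)
  refine ⟨hpos, ?_⟩
  have hR : ‖Ring.inverse a‖ ≤ 1 / e := (inverse_bound he ha).2
  have hquad := quad_expand hη hη1 hR hA1 hBm
  generalize Ring.inverse a = R at hR hquad hexp ⊢
  generalize hR'' : Ring.inverse (a + (η • A1 + (η ^ 2 • A2 + A3))) = R' at hexp ⊢
  have e3 : R * (η • A1 + (η ^ 2 • A2 + A3)) * R
      = η • (R * A1 * R) + η ^ 2 • (R * A2 * R) + R * A3 * R := by
    simp only [mul_add, add_mul, mul_smul_comm, smul_mul_assoc]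
    abel
  generalize η • A1 + (η ^ 2 • A2 + A3) = Δ at hΔb hexp hquad e3
  obtain ⟨E3, hE3⟩ : ∃ E3, E3 = R' - (R - R * Δ * R + R * Δ * R * Δ * R)
      + (R * Δ * R * Δ * R - η ^ 2 • (R * A1 * R * A1 * R)) - R * A3 * R := ⟨_, rfl⟩
  have hR' : R' = R - η • (R * A1 * R) - η ^ 2 • (R * A2 * R)
      + η ^ 2 • (R * A1 * R * A1 * R) + E3 := by
    rw [hE3, e3]
    abel
  have hE3b : ‖E3‖ ≤ η ^ 3 * (1 / e * n3 * (1 / e)
      + (1 / e) ^ 3 * (2 * a1 * (a2 + n3) + (a2 + n3) ^ 2)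
      + (a1 + (a2 + n3)) ^ 3 * (2 / e ^ 4)) := by
    have h1 : ‖R * A3 * R‖ ≤ 1 / e * (η ^ 3 * n3) * (1 / e) := norm_mul₃_le.trans (by gcongr)
    have h2 : ‖Δ‖ ^ 3 * (2 / e ^ 4) ≤ (η * (a1 + (a2 + n3))) ^ 3 * (2 / e ^ 4) := by gcongr
    rw [hE3]
    refine (norm_sub_le _ _).trans ((add_le_add ((norm_add_le _ _).trans
      (add_le_add (hexp.trans h2) hquad)) h1).trans_eq ?_)
    ring
  have h0 : C.tr E3 ≤ ‖C.φ E3‖ := Complex.re_le_norm _
  have h1 := (C.φ.le_opNorm E3).trans (mul_le_mul_of_nonneg_left hE3b (norm_nonneg _))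
  rw [hR']
  simp only [C.tr_add, C.tr_sub, C.tr_smul]
  linarith

/-- The potential after the move. -/
theorem pot_step {s : Col M X} (hs : s.Ok P C) (hg : P.Good C s) {k h : C(X, ℝ)}
    {B η c T2 : ℝ} (hkB : ‖k‖ ≤ B) (hhB : ‖h‖ ≤ B) (hka : k * s.act = k)
    (hη : 0 ≤ η) (hη1 : η ≤ 1) (hc : 0 ≤ c) (hT2 : 0 ≤ T2) (hF : ∀ x, |corr P s k h x| ≤ T2)
    (hsmall : η * (B * (1 / P.Dmin) + ((B * P.Λ * B + T2)
      + (2 * (B ^ 3 * P.Λ ^ 2) + c * (1 / P.Dmin)))) ≤ P.eP / 2)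
    {G' : Mˣ} (hG'0 : 0 ≤ (G' : M)) (hG'v : (G' : M) = s.G + η • ((s.G : M) * C.r k * s.G))
    (hG'i : ‖(↑G'⁻¹ : M) - (↑s.G⁻¹ - η • C.r k + η ^ 2 • (C.r k * s.G * C.r k))‖
      ≤ η ^ 3 * (2 * (B ^ 3 * P.Λ ^ 2))) (b : C(X, ℝ)) :
    IsStrictlyPositive (P.mat C (⟨s.act, s.ass, b, newW P s k h η c, G', s.Z⟩ : Col M X)) ∧
      P.pot C (⟨s.act, s.ass, b, newW P s k h η c, G', s.Z⟩ : Col M X)
        ≤ P.pot C s + η * P.lin C s k h + η ^ 2 * P.second C s k h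
          + η ^ 3 * (P.eP ^ 2 * (‖C.φ‖ * (1 / P.eP * (2 * (B ^ 3 * P.Λ ^ 2) + c * (1 / P.Dmin))
              * (1 / P.eP) + (1 / P.eP) ^ 3 * (2 * (B * (1 / P.Dmin)) * ((B * P.Λ * B + T2)
                + (2 * (B ^ 3 * P.Λ ^ 2) + c * (1 / P.Dmin))) + ((B * P.Λ * B + T2)
                + (2 * (B ^ 3 * P.Λ ^ 2) + c * (1 / P.Dmin))) ^ 2)
              + (B * (1 / P.Dmin) + ((B * P.Λ * B + T2)
                + (2 * (B ^ 3 * P.Λ ^ 2) + c * (1 / P.Dmin)))) ^ 3 * (2 / P.eP ^ 4)))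
            + c * (1 / P.Dmin)) := by
  have hB : 0 ≤ B := (norm_nonneg _).trans hkB
  have hΛ := P.Λ_pos
  have hi := iD_facts hs
  have hiB : 0 ≤ 1 / P.Dmin := one_div_nonneg.2 P.Dmin_pos.le
  have hGs := IsSelfAdjoint.of_nonneg hs.G_nonneg
  have hrk : ‖C.r k‖ ≤ B := (C.norm_r_le k).trans hkB
  have hnG : ‖(s.G : M)‖ ≤ P.Λ :=
    (CStarAlgebra.norm_le_iff_le_algebraMap (s.G : M) hΛ.le hs.G_nonneg).2 hg.G_le
  have hA1b : ‖C.r (s.act * h * P.iD s)‖ ≤ B * (1 / P.Dmin) := by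
    refine (C.norm_r_le _).trans (norm_le_of_abs (by positivity) fun x => ?_)
    rcases hs.act_01 x with ha | ha
    · simp only [ContinuousMap.mul_apply, ha, zero_mul, abs_zero]
      positivity
    · simp only [ContinuousMap.mul_apply, ha, one_mul]
      rw [abs_mul, abs_of_nonneg (hi x).1]
      exact mul_le_mul (abs_apply_le hhB x) (hi x).2.1 (hi x).1 hB
  have hA2b : ‖C.r (corr P s k h) - C.r k * (s.G : M) * C.r k‖ ≤ B * P.Λ * B + T2 := by
    refine (norm_sub_le _ _).trans ?_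
    have h1 : ‖C.r k * (s.G : M) * C.r k‖ ≤ B * P.Λ * B := norm_mul₃_le.trans (by gcongr)
    have h2 := (C.norm_r_le _).trans (norm_le_of_abs hT2 hF)
    linarith
  have hab : ∀ x, 0 ≤ (s.act * P.iD s) x ∧ (s.act * P.iD s) x ≤ 1 / P.Dmin := fun x => by
    rcases hs.act_01 x with ha | ha <;> simp only [ContinuousMap.mul_apply, ha, zero_mul, one_mul]
    · exact ⟨le_rfl, hiB⟩
    · exact ⟨(hi x).1, (hi x).2.1⟩
  have hA3b : ‖-((↑G'⁻¹ : M) - (↑s.G⁻¹ - η • C.r k + η ^ 2 • (C.r k * s.G * C.r k)))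
      - (η ^ 3 * c) • C.r (s.act * P.iD s)‖
      ≤ η ^ 3 * (2 * (B ^ 3 * P.Λ ^ 2) + c * (1 / P.Dmin)) := by
    refine (norm_sub_le _ _).trans ?_
    rw [norm_neg, norm_smul, Real.norm_of_nonneg (by positivity : 0 ≤ η ^ 3 * c), mul_add,
      ← mul_assoc (η ^ 3) c]
    refine add_le_add hG'i (mul_le_mul_of_nonneg_left ?_ (by positivity))
    exact (C.norm_r_le _).trans (norm_le_of_abs hiB fun x => by
      rw [abs_of_nonneg (hab x).1]; exact (hab x).2)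
  have hA3s : IsSelfAdjoint (-((↑G'⁻¹ : M)
      - (↑s.G⁻¹ - η • C.r k + η ^ 2 • (C.r k * s.G * C.r k)))
      - (η ^ 3 * c) • C.r (s.act * P.iD s)) := by
    refine IsSelfAdjoint.sub (IsSelfAdjoint.neg (IsSelfAdjoint.sub ?_ ?_)) ?_
    · exact IsSelfAdjoint.of_nonneg (Core.units_inv_nonneg hG'0)
    · exact ((IsSelfAdjoint.of_nonneg (Core.units_inv_nonneg hs.G_nonneg)).sub
        ((IsSelfAdjoint.all _).smul (C.r_isSelfAdjoint k))).add
        ((IsSelfAdjoint.all _).smul (hGs.conjugate_self (C.r_isSelfAdjoint k)))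
    · exact (IsSelfAdjoint.all _).smul (C.r_isSelfAdjoint _)
  obtain ⟨hpos, htR⟩ := tr_inverse_step C (a := P.mat C s) P.eP_pos hg.mat_ge
    (C.r_isSelfAdjoint _) ((C.r_isSelfAdjoint _).sub (hGs.conjugate_self (C.r_isSelfAdjoint k)))
    hA3s hA1b hA2b hA3b hη hη1 hsmall (by positivity)
  have hq1 : s.act * (k - h * P.iD s) = k - s.act * h * P.iD s := by
    rw [mul_sub, mul_comm s.act k, hka, mul_assoc]
  have hwt := wt_newW hs k h η c b G'
  have hmat : P.mat C (⟨s.act, s.ass, b, newW P s k h η c, G', s.Z⟩ : Col M X)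
      = P.mat C s + (η • C.r (s.act * h * P.iD s)
        + (η ^ 2 • (C.r (corr P s k h) - C.r k * (s.G : M) * C.r k)
          + (-((↑G'⁻¹ : M) - (↑s.G⁻¹ - η • C.r k + η ^ 2 • (C.r k * s.G * C.r k)))
            - (η ^ 3 * c) • C.r (s.act * P.iD s)))) := by
    rw [Prm.mat, Prm.mat, hwt]
    simp only [newW, hq1, C.r_add, C.r_sub, C.r_smul]
    module
  refine ⟨hmat ▸ hpos, ?_⟩
  rw [← hmat] at htR
  have hig : C.ig (P.wt (⟨s.act, s.ass, b, newW P s k h η c, G', s.Z⟩ : Col M X))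
      = C.ig (P.wt s) + η * C.ig (s.act * (k - h * P.iD s)) - η ^ 2 * C.ig (corr P s k h)
        + η ^ 3 * c * C.ig (s.act * P.iD s) := by
    rw [hwt, newW]
    simp only [C.ig_add, C.ig_sub, C.ig_smul]
    ring
  have hlc : P.l * (η ^ 3 * c * C.ig (s.act * P.iD s)) ≤ η ^ 3 * (c * (1 / P.Dmin)) := by
    have h1 : C.ig (s.act * P.iD s) ≤ 1 / P.Dmin := C.ig_le_of_le fun x => (hab x).2
    have h2 : 0 ≤ C.ig (s.act * P.iD s) :=
      C.ig_nonneg (ContinuousMap.le_def.2 fun x => by simpa using (hab x).1)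
    calc P.l * (η ^ 3 * c * C.ig (s.act * P.iD s))
          ≤ 1 * (η ^ 3 * c * C.ig (s.act * P.iD s)) :=
          mul_le_mul_of_nonneg_right P.l_le (by positivity)
      _ ≤ η ^ 3 * c * (1 / P.Dmin) := by
          rw [one_mul]; exact mul_le_mul_of_nonneg_left h1 (by positivity)
      _ = η ^ 3 * (c * (1 / P.Dmin)) := by ring
  have hsec : P.second C s k h
      = -(P.eP ^ 2 * C.tr (P.R C s * (C.r (corr P s k h) - C.r k * (s.G : M) * C.r k) * P.R C s))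
        - P.l * C.ig (corr P s k h)
        + P.eP ^ 2 * C.tr (P.R C s * C.r (s.act * h * P.iD s) * P.R C s
          * C.r (s.act * h * P.iD s) * P.R C s) := by
    simp only [Prm.second, Prm.VW, Prm.VG, corr, mul_sub, sub_mul, C.tr_sub, mul_assoc]
    ring
  have htG : C.tr (G' : M) = C.tr (s.G : M) + η * C.tr ((s.G : M) * C.r k * (s.G : M)) := by
    rw [hG'v, C.tr_add, C.tr_smul]
  have htR' := mul_le_mul_of_nonneg_left htR (sq_nonneg P.eP)
  simp only [Prm.pot, Prm.lin, Prm.VG, Prm.R] at hsec ⊢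
  rw [hig, htG, hsec]
  linarith

end StepColour

open StepColour in
theorem exists_colour_step (_hP : P.Ok C) {B : ℝ} (hB : 0 ≤ B) :
    ∃ Cst η0 : ℝ, 0 < Cst ∧ 0 < η0 ∧ ∀ s : Col M X, s.Ok P C → P.Good C s →
      ∀ k h : C(X, ℝ), ‖k‖ ≤ B → ‖h‖ ≤ B → k * s.act = k →
      ∀ η : ℝ, 0 < η → η ≤ η0 →
        ∃ (W' : C(X, ℝ)) (G' : Mˣ),
          (⟨s.act, s.ass, s.b + η • P.dir C s k h, W', G', s.Z⟩ : Col M X).Ok P C ∧
          P.pot C ⟨s.act, s.ass, s.b + η • P.dir C s k h, W', G', s.Z⟩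
            ≤ P.pot C s + η * P.lin C s k h + η ^ 2 * P.second C s k h + η ^ 3 * Cst := by
  have hb1 := P.b1_pos
  have hiB : 0 ≤ 1 / P.Dmin := one_div_nonneg.2 P.Dmin_pos.le
  have hξm : 0 < P.ξm := by unfold Prm.ξm; have := P.t_pos; positivity
  have hQm : 0 ≤ P.Qmax := by unfold Prm.Qmax; positivity
  have hwin : 0 < P.ξm - P.ξa := by
    unfold Prm.ξm Prm.ξa; linarith [pow_pos P.t_pos 4]
  obtain ⟨C1, η1, hC1, hη1, htay⟩ := FP_taylor (κ := P.κ) (b := 4 / P.b1) P.κ_pos.le hξm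
  obtain ⟨J, hJ⟩ : ∃ J, J = B + B * (1 / P.Dmin) := ⟨_, rfl⟩
  have hJ0 : 0 ≤ J := by rw [hJ]; positivity
  obtain ⟨T2, hT2⟩ : ∃ T2, T2 = 1 / P.Dmin * P.Qmax * (J * J) := ⟨_, rfl⟩
  have hT20 : 0 ≤ T2 := by rw [hT2]; positivity
  obtain ⟨T, hT⟩ : ∃ T, T = J + T2 + 1 := ⟨_, rfl⟩
  have hT0 : 0 ≤ T := by linarith
  obtain ⟨c, hc⟩ : ∃ c, c = P.Qmax * (2 * T * T) + C1 * T ^ 3 := ⟨_, rfl⟩
  have hc0 : 0 ≤ c := by rw [hc]; have := hC1.le; positivity
  obtain ⟨n3, hn3⟩ : ∃ n3, n3 = 2 * (B ^ 3 * P.Λ ^ 2) + c * (1 / P.Dmin) := ⟨_, rfl⟩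
  obtain ⟨a2, ha2⟩ : ∃ a2, a2 = B * P.Λ * B + T2 := ⟨_, rfl⟩
  have hΛ := P.Λ_pos
  have hn30 : 0 ≤ n3 := by rw [hn3]; positivity
  have ha20 : 0 ≤ a2 := by rw [ha2]; positivity
  have hev : ∀ᶠ η in 𝓝 (0 : ℝ), η * 1 ≤ 1 ∧ η * T ≤ η1 ∧ η * T ≤ P.ξm - P.ξa ∧
      η * T ≤ 1 / P.b1 ∧ η * (P.Dmax * B + P.Λ * B * P.Λ + B) ≤ P.b1 / 2 ∧
      η * (B * P.Λ) ≤ 1 / 2 ∧ η * (B * (1 / P.Dmin) + (a2 + n3)) ≤ P.eP / 2 ∧
      η * (c * (1 / P.Dmin)) ≤ 1 :=
    (eventually_mul_le 1 one_pos).and <| (eventually_mul_le T hη1).and <|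
      (eventually_mul_le T hwin).and <| (eventually_mul_le T (one_div_pos.2 hb1)).and <|
      (eventually_mul_le _ (half_pos hb1)).and <| (eventually_mul_le _ one_half_pos).and <|
      (eventually_mul_le _ (half_pos P.eP_pos)).and (eventually_mul_le _ one_pos)
  obtain ⟨δ, hδ, hδ'⟩ := Metric.eventually_nhds_iff.1 hev
  obtain ⟨K3, hK3⟩ : ∃ K3, K3 = P.eP ^ 2 * (‖C.φ‖ * (1 / P.eP * n3 * (1 / P.eP)
      + (1 / P.eP) ^ 3 * (2 * (B * (1 / P.Dmin)) * (a2 + n3) + (a2 + n3) ^ 2)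
      + (B * (1 / P.Dmin) + (a2 + n3)) ^ 3 * (2 / P.eP ^ 4))) + c * (1 / P.Dmin) := ⟨_, rfl⟩
  have hK30 : 0 ≤ K3 := by rw [hK3]; have := P.eP_pos; positivity
  refine ⟨K3 + 1, δ / 2, by linarith, by linarith, ?_⟩
  intro s hs hg k h hkB hhB hka η hη hη0
  obtain ⟨he1, he2, he3, he4, he5, he6, he7, he8⟩ := hδ' (show dist η 0 < δ by
    rw [Real.dist_eq, sub_zero, abs_of_pos hη]; linarith)
  rw [mul_one] at he1
  have hnG : ‖(s.G : M)‖ ≤ P.Λ :=
    (CStarAlgebra.norm_le_iff_le_algebraMap (s.G : M) hΛ.le hs.G_nonneg).2 hg.G_le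
  obtain ⟨G', hG'0, hG'v, hG'i⟩ := exists_unit_step (norm_one_le C) hs.G_nonneg hnG
    (C.r_isSelfAdjoint k) ((C.norm_r_le k).trans hkB) hη.le he6
  obtain ⟨hb, hW, hinv⟩ := budget_step hs hg hkB hhB hJ hT2 hT hc hC1.le htay hη.le he1 he2 he3
    he4 he5 he8 hc0 hG'v
  have hF : ∀ x, |corr P s k h x| ≤ T2 := fun x => by
    rcases hs.act_01 x with ha | ha
    · simpa [corr, ha] using hT20
    · obtain ⟨hi0, hi1, -⟩ := iD_facts hs x
      obtain ⟨hQ0, hQ1⟩ := Prm.Qc_le hs hg ha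
      have hj : |k x - h x * P.iD s x| ≤ J := by
        rw [hJ]
        refine (abs_sub _ _).trans (add_le_add (abs_apply_le hkB x) ?_)
        rw [abs_mul, abs_of_nonneg hi0]
        exact mul_le_mul (abs_apply_le hhB x) hi1 hi0 hB
      simp only [corr, ContinuousMap.mul_apply, ContinuousMap.sub_apply, ha, one_mul]
      rw [hT2, abs_mul, abs_mul, abs_mul, abs_of_nonneg hi0, abs_of_nonneg hQ0]
      exact mul_le_mul (mul_le_mul hi1 hQ1 hQ0 hiB)
        (mul_le_mul hj hj (abs_nonneg _) hJ0) (by positivity) (by positivity)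
  rw [ha2, hn3] at he7
  obtain ⟨hpos, hpot⟩ := pot_step hs hg hkB hhB hka hη.le he1 hc0 hT20 hF he7 hG'0 hG'v hG'i
    (s.b + η • P.dir C s k h)
  refine ⟨newW P s k h η c, G', ⟨hs.act_01, hs.ass_01, hs.act_ass, hb, hW, hG'0, hs.Z_nonneg,
    hpos, hinv⟩, hpot.trans ?_⟩
  rw [hK3, ha2, hn3]
  linarith [pow_nonneg hη.le 3]

end Vale.Agent.P078.AllMasa
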