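import Vale.Agent.P078.AllMasa.Stationary
import Vale.Agent.P078.AllMasa.StepColour
import Vale.Agent.P078.AllMasa.Cov
import Vale.Agent.P078.AllMasa.Defect
import Vale.Agent.P078.AllMasa.Family
import Vale.Agent.P078.AllMasa.Step.Average
import Vale.Agent.P078.Tracial.Signs

/-! An approximate minimiser has a small unassigned set. -/

namespace Vale.Agent.P078.AllMasa

set_option linter.unusedSectionVars false

open Filter Topology ComplexOrder
open Vale.Agent.P078.Tracial

variable {M X : Type} [CStarAlgebra M] [PartialOrder M] [StarOrderedRing M]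
variable [TopologicalSpace X] [CompactSpace X] [T2Space X] [TotallyDisconnectedSpace X]
variable {P : Prm M} {C : SCore M X}

namespace StepAux

/-- The exact supersolution on a large clopen set. -/
theorem exists_good {s : Col M X} (hs : s.Ok P C) {p : C(X, ℝ)}
    (hpb : ∀ x, P.pmin ≤ p x ∧ p x ≤ P.pmax) {ε1 : ℝ} (hε1 : 0 ≤ ε1)
    (hp : ∀ f : C(X, ℝ), (∀ x, 0 ≤ f x ∧ f x ≤ 1) → f * s.act = f →
      C.ig (p * s.act * C.K (s.G : M) f) ≤ C.ig (p * P.Dc s * f) + ε1) {τ : ℝ} (hτ : 0 < τ) :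
    ∃ good : C(X, ℝ), (∀ x, good x = 0 ∨ good x = 1) ∧ (∀ x, good x ≤ s.act x) ∧
      C.ig (s.act - good) ≤ 4 * ε1 / τ ∧
      (∀ x, good x = 1 → 0 ≤ P.Dc s x - C.Er (s.G : M) x * C.Er (s.G : M) x + τ / P.pmin) ∧
      ∀ f, 0 ≤ f → f * good = f →
        C.ig (p * s.act * C.K (C.off (s.G : M)) f)
          ≤ C.ig (p * (P.Dc s - C.Er (s.G : M) * C.Er (s.G : M)
              + (τ / P.pmin) • (1 : C(X, ℝ))) * f) := by
  have hG : IsSelfAdjoint (s.G : M) := IsSelfAdjoint.of_nonneg hs.G_nonneg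
  have htr : ∀ f, C.tr (C.r (p * s.act) * (s.G : M) * C.r f * (s.G : M))
      = C.ig (p * s.act * C.K (s.G : M) f) := fun f => by
    have e : C.r (p * s.act) * (s.G : M) * C.r f * (s.G : M)
        = C.r (p * s.act) * ((s.G : M) * C.r f * star (s.G : M)) := by
      rw [hG.star_eq]; simp only [mul_assoc]
    rw [e, C.tr_r_mul _ ((C.r_isSelfAdjoint f).conjugate _)]
    rfl
  obtain ⟨good, hg01, hgle, hgood, hsmall⟩ := C.exists_good_set (C.r (p * s.act) * (s.G : M))
    (s.G : M) (p * P.Dc s) (P.pmin⁻¹ • p) hs.act_01 hε1 hτ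
    (fun x => by
      simpa using (one_le_inv_mul₀ P.pmin_pos).2 (hpb x).1)
    (fun f hf => by
      rw [htr]
      refine hp f (fun x => ⟨(hf x).1, (hf x).2.trans ?_⟩) ?_
      · rcases hs.act_01 x with h | h <;> simp [h]
      · exact mul_ind_eq hs.act_01 fun x hx => by linarith [(hf x).1, (hf x).2])
  have hg0 : ∀ x, 0 ≤ good x := fun x => by rcases hg01 x with h | h <;> simp [h]
  have hkey : ∀ f, 0 ≤ f → f * good = f →
      C.ig (p * s.act * C.K (C.off (s.G : M)) f)
          ≤ C.ig (p * (P.Dc s - C.Er (s.G : M) * C.Er (s.G : M)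
              + (τ / P.pmin) • (1 : C(X, ℝ))) * f) := fun f hf hfg => by
    have h := hgood f hf hfg
    rw [htr, K_split hG, mul_add, C.ig_add] at h
    have e : C.ig (p * (P.Dc s - C.Er (s.G : M) * C.Er (s.G : M)
          + (τ / P.pmin) • (1 : C(X, ℝ))) * f)
        = C.ig ((p * P.Dc s + τ • P.pmin⁻¹ • p) * f)
          - C.ig (p * s.act * (C.Er (s.G : M) * C.Er (s.G : M) * f)) := by
      rw [← C.ig_sub]
      congr 1
      ext x
      have h1 : f x * good x = f x := congrArg (fun u : C(X, ℝ) => u x) hfg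
      have h2 : s.act x * f x = f x := by
        rcases hs.act_01 x with h' | h'
        · have : good x = 0 := le_antisymm (h' ▸ hgle x) (hg0 x)
          rw [this, mul_zero] at h1
          rw [← h1, mul_zero]
        · rw [h', one_mul]
      simp only [ContinuousMap.mul_apply, ContinuousMap.sub_apply, ContinuousMap.add_apply,
        ContinuousMap.smul_apply, ContinuousMap.one_apply, smul_eq_mul]
      linear_combination (p x * C.Er (s.G : M) x * C.Er (s.G : M) x) * h2
    rw [e]
    linarith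
  refine ⟨good, hg01, hgle, hsmall, fun x hx => ?_, hkey⟩
  set q : C(X, ℝ) := P.Dc s - C.Er (s.G : M) * C.Er (s.G : M) + (τ / P.pmin) • (1 : C(X, ℝ)) with hq
  set nq : C(X, ℝ) := ⟨fun x => max (-q x) 0, by fun_prop⟩ with hnq
  have hf : (0 : C(X, ℝ)) ≤ good * nq :=
    ContinuousMap.le_def.2 fun x => mul_nonneg (hg0 x) (le_max_right _ _)
  have hfg : good * nq * good = good * nq := mul_ind_eq hg01 fun x h => by simp [h]
  have h1 := hkey _ hf hfg
  have h2 : 0 ≤ C.ig (p * s.act * C.K (C.off (s.G : M)) (good * nq)) := by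
    refine C.ig_nonneg (ContinuousMap.le_def.2 fun x => ?_)
    have := ContinuousMap.le_def.1 (K_nonneg (C := C) (C.off (s.G : M)) hf) x
    simp only [ContinuousMap.mul_apply, ContinuousMap.zero_apply] at this ⊢
    refine mul_nonneg (mul_nonneg (P.pmin_pos.le.trans (hpb x).1) ?_) this
    rcases hs.act_01 x with h | h <;> simp [h]
  have h3 : p * q * (good * nq) = -(p * good * (nq * nq)) := by
    ext x
    simp only [hnq, ContinuousMap.mul_apply, ContinuousMap.neg_apply, ContinuousMap.coe_mk]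
    rcases le_total 0 (q x) with h | h
    · rw [max_eq_right (by linarith)]; ring
    · rw [max_eq_left (by linarith)]; ring
  rw [h3, C.ig_neg] at h1
  have h4 : (0 : C(X, ℝ)) ≤ p * good * (nq * nq) := ContinuousMap.le_def.2 fun x =>
    mul_nonneg (mul_nonneg (P.pmin_pos.le.trans (hpb x).1) (hg0 x)) (mul_self_nonneg _)
  have h5 := C.eq_zero_of_ig_eq_zero h4 (le_antisymm (by linarith) (C.ig_nonneg h4))
  have h6 := congrArg (fun u : C(X, ℝ) => u x) h5
  simp only [ContinuousMap.mul_apply, hx, mul_one, ContinuousMap.zero_apply] at h6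
  have h7 : nq x = 0 := by
    rcases mul_eq_zero.1 h6 with h | h
    · linarith [P.pmin_pos, (hpb x).1]
    · exact mul_self_eq_zero.1 h
  have h8 : -q x ≤ 0 := (le_max_left _ _).trans_eq h7
  simp only [hq, ContinuousMap.add_apply, ContinuousMap.sub_apply, ContinuousMap.mul_apply,
    ContinuousMap.smul_apply, ContinuousMap.one_apply, smul_eq_mul, mul_one] at h8
  linarith

/-- The signed noise has norm at most one. -/
theorem norm_signed_le {r : ℕ} {π : DiscreteQuotient X} {sg : Fin r × π → ℝ}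
    (hsg : ∀ i, sg i = 1 ∨ sg i = -1) :
    ‖∑ ci : Fin r × π, sg ci • unitVec π ci.1 ci.2‖ ≤ 1 := by
  classical
  refine (pi_norm_le_iff_of_nonneg zero_le_one).2 fun c =>
    Tracial.norm_le_of_abs zero_le_one fun x => ?_
  have e : (∑ ci : Fin r × π, sg ci • unitVec π ci.1 ci.2) c x = sg (c, π.proj x) := by
    simp only [Finset.sum_apply, Pi.smul_apply, unitVec, ContinuousMap.coe_sum,
      ContinuousMap.smul_apply, smul_eq_mul]
    rw [Finset.sum_eq_single (c, π.proj x)]
    · simp [cellFn_apply]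
    · rintro ⟨c', i⟩ _ hne
      by_cases hc : c = c'
      · subst hc
        have : π.proj x ≠ i := fun h => hne (by rw [h])
        simp [cellFn_apply, this]
      · simp [hc]
    · simp
  rw [e]
  rcases hsg (c, π.proj x) with h | h <;> simp [h]

theorem norm_resid_le {r : ℕ} {s : Config M X r} (hs : StateOk P C s)
    (hg : ∀ c, P.Good C (s c)) {B : ℝ} (hB : 0 ≤ B) {v : Fin r → C(X, ℝ)} (hv : ∀ c, ‖v c‖ ≤ B) :
    ‖resid P C s v‖ ≤ r * (P.Dmax + P.Λ ^ 2) * B := by
  have := P.Dmax_pos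
  refine Tracial.norm_le_of_abs (by positivity) fun x => ?_
  rw [resid_apply, ContinuousMap.coe_sum, Finset.sum_apply]
  refine (Finset.abs_sum_le_sum_abs _ _).trans ((Finset.sum_le_sum fun c _ =>
    (?_ : |((s c).act * (P.Dc (s c) * v c - C.K ((s c).G : M) (v c))) x| ≤
      (P.Dmax + P.Λ ^ 2) * B)).trans (le_of_eq (by simp [mul_assoc])))
  simp only [ContinuousMap.mul_apply, ContinuousMap.sub_apply, abs_mul]
  have h1 : |(s c).act x| ≤ 1 := by rcases (hs.col c).act_01 x with h | h <;> simp [h]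
  refine (mul_le_of_le_one_left (abs_nonneg _) h1).trans ((abs_sub _ _).trans ?_)
  rw [add_mul, abs_mul, abs_of_pos (P.Dc_pos _ x)]
  refine add_le_add (mul_le_mul (Prm.Dc_bounds (hs.col c) x).2 (Tracial.abs_apply_le (hv c) x)
    (abs_nonneg _) (by linarith)) ?_
  refine (abs_K_le (norm_le_of_le_algebraMap P.Λ_pos.le (hs.col c).G_nonneg (hg c).G_le) _ x).trans ?_
  exact mul_le_mul_of_nonneg_left (hv c) (sq_nonneg _)

end StepAux

open StepAux in
theorem U_small (hP : P.Ok C) {r : ℕ} (hS : P.S = r * P.b0) (hr : 1 ≤ (r : ℝ) * P.t ^ 116)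
    {ε : ℝ} (hε : 0 < ε) :
    ∃ ζ > 0, ∀ s : Config M X r, StateOk P C s → (∀ c, P.Good C (s c)) → P.IsMin C s ζ →
      C.ig (Config.U s) ≤ ε := by
  classical
  have hr0 : 0 < r := by
    rcases Nat.eq_zero_or_pos r with h | h
    · rw [h] at hr; norm_num at hr
    · exact h
  have hrR : (1 : ℝ) ≤ r := Nat.one_le_cast.2 hr0
  have hQ := Qmax_pos P
  have hpM := pmax_pos P
  have hpm := P.pmin_pos
  have hD := P.Dmax_pos
  have hΛ := P.Λ_pos
  have hDm := P.Dmin_pos
  have heP := P.eP_pos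
  set u : ℝ := P.Qmax * P.pmin * ε with hu
  have hu0 : 0 < u := by positivity
  set δ : ℝ := u / ((r : ℝ) * (P.pmax * P.Qmax)) with hδdef
  have hδ : 0 < δ := by positivity
  set K : ℝ := resWeight P r δ with hKdef
  have hK : 0 < K := by rw [hKdef, resWeight]; positivity
  set τ : ℝ := min (P.pmin / 2) (u * P.pmin / (32 * K * r ^ 2)) with hτdef
  have hτ : 0 < τ := lt_min (by positivity) (by positivity)
  set w : ℝ := 2 * (τ / P.pmin) with hwdef
  have hw0 : 0 < w := by positivity
  have hw1 : w ≤ 1 := by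
    have : τ ≤ P.pmin / 2 := min_le_left _ _
    rw [hwdef, ← mul_div_assoc, div_le_one hpm]
    linarith
  set a : ℝ := u / (32 * K * r ^ 2) with hadef
  have ha : 0 < a := by positivity
  set B : ℝ := P.Dmax + (2 * P.Λ) ^ 2 + 1 with hBdef
  have hB : 0 < B := by positivity
  set Tn : ℝ := ((r : ℝ) + 1) * (2 * B) ^ 2 with hTn
  set n : ℕ := ⌈2 * K * Tn / u⌉₊ + 1 with hndef
  have hn : 0 < n := Nat.succ_pos _
  set Bk : ℝ := ((r : ℝ) * (P.Dmax + P.Λ ^ 2) + 1) * 2 ^ n with hBk
  have hBk0 : 0 ≤ Bk := by positivity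
  set Den : ℝ := (r : ℝ) * moveErr P Bk + r * (P.Λ + 1)
    + ((r : ℝ) * (P.pmax * P.Qmax) + K * (8 * r * (r * (2 * P.Λ) ^ 4))) * (4 / τ) with hDen
  have hErr : 0 ≤ moveErr P Bk := by unfold moveErr; positivity
  have hDen0 : 0 < Den := by positivity
  set ε1 : ℝ := u / Den with hε1def
  have hε1 : 0 < ε1 := div_pos hu0 hDen0
  obtain ⟨ζ1, hζ1, hprice⟩ := exists_price (C := C) hP r hε1
  obtain ⟨Cst, η0, hCst, hη0, hstep⟩ := exists_colour_step (C := C) hP hBk0
  set η : ℝ := min η0 (u / (r * Cst)) with hηdef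
  have hη : 0 < η := lt_min hη0 (by positivity)
  set ζ : ℝ := min ζ1 (η ^ 2 * u) with hζdef
  refine ⟨ζ, lt_min hζ1 (by positivity), fun s hs hg hmin => ?_⟩
  obtain ⟨p, hpb, hp⟩ := hprice s hs hg fun t ht =>
    (hmin t ht).trans (add_le_add le_rfl (min_le_left _ _))
  choose good hg01 hgle hgsmall hgpos hgsuper using fun c =>
    exists_good (hs.col c) hpb hε1.le (fun f h1 h2 => (hp c f h1 h2).2) hτ
  choose F hFs hFN hFK hFt using fun c => exists_family C
    (C.off_isSelfAdjoint (IsSelfAdjoint.of_nonneg (hs.col c).G_nonneg)) (C.Er_off ((s c).G : M)) ha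
  set d : LData X r := ⟨good, Config.U s, fun c => good c * (P.Dc (s c)
    - C.Er ((s c).G : M) * C.Er ((s c).G : M) + w • (1 : C(X, ℝ))), F, B⟩ with hd
  have he : ∀ c x, d.e c x = d.act c x * (P.Dc (s c) x
      - C.Er ((s c).G : M) x * C.Er ((s c).G : M) x + w) := fun c x => by simp [hd]
  have hone : ‖(1 : C(X, ℝ))‖ ≤ 1 := Tracial.norm_le_of_abs zero_le_one fun x => by simp
  have hdOk : d.Ok := by
    refine ⟨hg01, hs.U_01, fun c x => (hgle c x).trans (hs.act_le c x), hB, fun c =>
      ContinuousMap.le_def.2 fun x => ?_, fun c x => ?_, hFs, fun c x => ?_⟩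
    · rw [ContinuousMap.zero_apply, he]
      show 0 ≤ good c x * _
      rcases hg01 c x with h | h <;> rw [h]
      · simp
      · have := hgpos c x h
        have : 0 < τ / P.pmin := div_pos hτ hpm
        rw [one_mul, hwdef]
        linarith
    · rw [he]
      show good c x * _ ≤ B
      rcases hg01 c x with h | h <;> rw [h]
      · simpa using hB.le
      · rw [one_mul, hBdef]
        linarith [(Prm.Dc_bounds (hs.col c) x).2, mul_self_nonneg (C.Er ((s c).G : M) x),
          sq_nonneg (2 * P.Λ)]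
    · have h1 := ContinuousMap.le_def.1
        (hFK c 1 (ContinuousMap.le_def.2 fun x => by simp)) x
      have h2 := (le_abs_self _).trans (abs_K_le (C := C)
        (norm_off_le (C := C) hΛ.le (hs.col c).G_nonneg (hg c).G_le) 1 x)
      have h3 := mul_le_of_le_one_right (sq_nonneg (2 * P.Λ)) hone
      show (F c).K 1 x ≤ B
      rw [hBdef]
      linarith
  have hsuper : ∀ c (f : C(X, ℝ)), 0 ≤ f →
      C.ig (p * (d.act c * (d.F c).K (d.act c * f))) + τ / P.pmin * C.ig (p * (d.act c * f))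
        ≤ C.ig (p * (d.e c * (d.act c * f))) := fun c f hf => by
    set g : C(X, ℝ) := good c * f with hgdef
    have hg0 : 0 ≤ g := ContinuousMap.le_def.2 fun x =>
      mul_nonneg (by rcases hg01 c x with h | h <;> simp [h]) (ContinuousMap.le_def.1 hf x)
    have hgg : g * good c = g := mul_ind_eq (hg01 c) fun x h => by simp [hgdef, h]
    have h1 := hgsuper c g hg0 hgg
    have h2 : C.ig (p * (good c * (F c).K g))
        ≤ C.ig (p * (s c).act * C.K (C.off ((s c).G : M)) g) := by
      refine C.ig_mono (ContinuousMap.le_def.2 fun x => ?_)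
      simp only [ContinuousMap.mul_apply]
      rw [mul_assoc]
      refine mul_le_mul_of_nonneg_left ?_ (hpm.le.trans (hpb x).1)
      refine mul_le_mul (hgle c x) (ContinuousMap.le_def.1 (hFK c g hg0) x) ?_ ?_
      · exact ContinuousMap.le_def.1 ((F c).K_nonneg (hFs c).g_nonneg hg0) x
      · rcases (hs.col c).act_01 x with h | h <;> simp [h]
    have h3 : C.ig (p * (d.e c * g))
        = C.ig (p * (P.Dc (s c) - C.Er ((s c).G : M) * C.Er ((s c).G : M)
            + (τ / P.pmin) • (1 : C(X, ℝ))) * g) + τ / P.pmin * C.ig (p * g) := by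
      rw [← C.ig_smul, ← C.ig_add]
      congr 1
      ext x
      have hgx : g x * good c x = g x := congrArg (fun v : C(X, ℝ) => v x) hgg
      simp only [ContinuousMap.mul_apply, ContinuousMap.add_apply, ContinuousMap.sub_apply,
        ContinuousMap.smul_apply, ContinuousMap.one_apply, smul_eq_mul, he, hwdef]
      linear_combination (p x * (P.Dc (s c) x
        - C.Er ((s c).G : M) x * C.Er ((s c).G : M) x + 2 * (τ / P.pmin))) * hgx
    show C.ig (p * (good c * (F c).K g)) + τ / P.pmin * C.ig (p * g) ≤ C.ig (p * (d.e c * g))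
    rw [h3]
    linarith
  set e : ℝ := u / (K + 1) with hedef
  have hee : 0 < e := by positivity
  have hresid := eventually_resid_le hs hg hdOk hFN hn hgle he hFK ha hFt hgsmall hee
  have hquad := eventually_quad_le hs hg hS hr hpb (fun c f h1 h2 => (hp c f h1 h2).1) hdOk rfl
    hFN hgle hgsmall (div_pos hτ hpm) hsuper hδ.le hK.le n hresid hee
  obtain ⟨π, hπ⟩ := hquad.exists
  obtain ⟨sg, hsg, hle⟩ := Tracial.exists_signs (quad P C s p δ K)
    (fun v v' => quad_parallelogram s p δ K v v')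
    (fun ci : Fin r × π => d.P n (unitVec π ci.1 ci.2)) Finset.univ
  set v : Fin r → C(X, ℝ) := d.P n (∑ ci : Fin r × π, sg ci • unitVec π ci.1 ci.2) with hv
  have hveq : ∑ ci : Fin r × π, sg ci • d.P n (unitVec π ci.1 ci.2) = v := by
    simp only [hv, map_sum, map_smul]
  rw [hveq] at hle
  have hvn : ∀ c, ‖v c‖ ≤ 2 ^ n := fun c =>
    (norm_le_pi_norm v c).trans ((LData.norm_P_le hdOk n _).trans
      (mul_le_of_le_one_right (by positivity) (norm_signed_le hsg)))
  have h2n : (2 : ℝ) ^ n ≤ Bk := by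
    rw [hBk]
    exact le_mul_of_one_le_left (by positivity) (by
      have : 0 ≤ (r : ℝ) * (P.Dmax + P.Λ ^ 2) := by positivity
      linarith)
  have hvres : ‖resid P C s v‖ ≤ Bk := by
    refine (norm_resid_le hs hg (by positivity) hvn).trans ?_
    rw [hBk, add_mul, one_mul]
    exact le_add_of_nonneg_right (by positivity)
  have hva : ∀ c, v c * (s c).act = v c := fun c =>
    mul_ind_eq (hs.col c).act_01 fun x hx => by
      have h1 : v c x * good c x = v c x :=
        congrArg (fun f : C(X, ℝ) => f x) (P_supp hdOk n _ c)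
      have h2 := hgle c x
      rw [hx] at h2
      rcases hg01 c x with h | h
      · rw [h, mul_zero] at h1; exact h1.symm
      · linarith
  have hkey := quad_ge hs hg hmin (fun x => ⟨hpm.le.trans (hpb x).1, (hpb x).2⟩)
    (fun c f h1 h2 => (hp c f h1 h2).1) hδ hBk0 hstep hη (min_le_left _ _) v
    (fun c => (hvn c).trans h2n) hva hvres
  rw [← hKdef] at hkey
  -- the small terms
  have hU1 : C.ig (Config.U s) ≤ 1 := C.ig_le_of_le fun x => by
    rcases hs.U_01 x with h | h <;> simp [h]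
  have hU0 : 0 ≤ C.ig (Config.U s) := C.ig_nonneg (ContinuousMap.le_def.2 fun x => by
    rcases hs.U_01 x with h | h <;> simp [h])
  have s1 : δ * ((r : ℝ) * (P.pmax * P.Qmax)) = u := by rw [hδdef]; field_simp
  have s2 : K * (8 * r * (r * w ^ 2)) ≤ u := by
    have h1 : w ^ 2 ≤ w := by rw [sq]; exact mul_le_of_le_one_left hw0.le hw1
    have h2 : τ ≤ u * P.pmin / (32 * K * r ^ 2) := min_le_right _ _
    have h3 : w ≤ 2 * (u / (32 * K * r ^ 2)) := by
      rw [hwdef]
      refine mul_le_mul_of_nonneg_left ?_ (by norm_num)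
      rw [div_le_iff₀ hpm, div_mul_eq_mul_div]
      exact h2
    calc K * (8 * r * (r * w ^ 2)) ≤ K * (8 * r * (r * (2 * (u / (32 * K * r ^ 2))))) := by
          gcongr; exact h1.trans h3
      _ = u / 2 := by field_simp; ring
      _ ≤ u := by linarith
  have s3 : K * (8 * r * (r * (4 * a))) = u := by rw [hadef]; field_simp; ring
  have s4 : K * (2 * (d.Tn / n * C.ig d.U)) ≤ u := by
    have hT : d.Tn = Tn := rfl
    have hTn0 : 0 ≤ Tn := by positivity
    have hn' : 2 * K * Tn / u ≤ (n : ℝ) := by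
      refine (Nat.le_ceil _).trans ?_
      rw [hndef]; push_cast; linarith
    rw [div_le_iff₀ hu0] at hn'
    rw [hT]
    calc K * (2 * (Tn / n * C.ig d.U)) ≤ K * (2 * (Tn / n * 1)) := by gcongr
      _ = 2 * K * Tn / n := by ring
      _ ≤ u := by rw [div_le_iff₀ (by positivity)]; linarith
  have s5 : ε1 * Den = u := by rw [hε1def]; field_simp
  have s6 : η * ((r : ℝ) * Cst) ≤ u := by
    calc η * ((r : ℝ) * Cst) ≤ u / (r * Cst) * (r * Cst) :=
          mul_le_mul_of_nonneg_right (min_le_right _ _) (by positivity)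
      _ = u := by field_simp
  have s7 : e * (K + 1) = u := by rw [hedef]; field_simp
  have s8 : ζ ≤ η ^ 2 * u := min_le_right _ _
  rw [hDen] at s5
  have hq := hle.trans hπ
  have hkey2 : η ^ 2 * 0 ≤ η ^ 2 * (u + (quad P C s p δ K v + r * (ε1 * moveErr P Bk))
      + η * ((r : ℝ) * Cst)) := by
    rw [mul_zero]
    linarith
  have hkey3 := le_of_mul_le_mul_left hkey2 (pow_pos hη 2)
  have hb : (4 * ε1 / τ : ℝ) = ε1 * (4 / τ) := by ring
  rw [hb] at hq
  have hmain : 12 * √(r : ℝ) * P.Qmax * P.pmin * C.ig (Config.U s) ≤ 8 * u := by linarith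
  have hsq : 1 ≤ √(r : ℝ) := Real.one_le_sqrt.2 hrR
  have h9 : P.Qmax * P.pmin * C.ig (Config.U s)
      ≤ √(r : ℝ) * P.Qmax * P.pmin * C.ig (Config.U s) := by
    rw [mul_assoc (√(r : ℝ)), mul_assoc (√(r : ℝ))]
    exact le_mul_of_one_le_left (by positivity) hsq
  refine le_of_mul_le_mul_left ?_ (mul_pos hQ hpm)
  rw [← hu]
  linarith

end Vale.Agent.P078.AllMasa
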