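import Vale.Agent.P078.AllMasa.Clean
import Vale.Agent.P078.AllMasa.Start
import Vale.Agent.P078.AllMasa.Step
import Vale.Agent.P078.AllMasa.Reduction
import Vale.Agent.P078.Tracial.Statement

/-! Polynomially many pieces suffice for every MASA of every von Neumann algebra. -/

namespace Vale.Agent.P078.AllMasa

set_option linter.unusedSectionVars false

open Filter Topology ComplexOrder
open Vale.Agent.P078.Tracial

section

variable {M X : Type} [CStarAlgebra M] [PartialOrder M] [StarOrderedRing M]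
variable [TopologicalSpace X] [CompactSpace X] [T2Space X] [TotallyDisconnectedSpace X]

theorem IsCol.mul_self {κ : Type} [Fintype κ] {p : κ → C(X, ℝ)} (hp : IsCol p) (i : κ) :
    p i * p i = p i := by
  ext x
  rcases hp.1 i x with h | h <;> simp [h]

theorem SCore.tr_spinch (C : SCore M X) {κ : Type} [Fintype κ] {p : κ → C(X, ℝ)} (hp : IsCol p)
    (z : M) : C.tr (C.spinch p z) = C.tr z := by
  have h : ∀ i, C.tr (C.r (p i) * z * C.r (p i)) = C.tr (C.r (p i) * z) := fun i => by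
    rw [← C.tr_r_comm, ← mul_assoc, ← C.r_mul, hp.mul_self]
  rw [SCore.spinch, C.tr_sum, Finset.sum_congr rfl fun i _ => h i, ← C.tr_sum, ← Finset.sum_mul,
    ← C.r_sum, hp.2, C.r_one, one_mul]

theorem SCore.spinch_mono (C : SCore M X) {κ : Type} [Fintype κ] (p : κ → C(X, ℝ)) {a b : M}
    (h : a ≤ b) : C.spinch p a ≤ C.spinch p b := by
  refine Finset.sum_le_sum fun i _ => ?_
  have := star_right_conjugate_le_conjugate h (C.r (p i))
  rwa [C.star_r] at this

theorem SCore.spinch_nonneg (C : SCore M X) {κ : Type} [Fintype κ] (p : κ → C(X, ℝ)) {a : M}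
    (h : 0 ≤ a) : 0 ≤ C.spinch p a := by
  have := C.spinch_mono p h
  simpa [SCore.spinch] using this

theorem SCore.spinch_add (C : SCore M X) {κ : Type} [Fintype κ] (p : κ → C(X, ℝ)) (a b : M) :
    C.spinch p (a + b) = C.spinch p a + C.spinch p b := by
  simp [SCore.spinch, mul_add, add_mul, Finset.sum_add_distrib]

theorem SCore.spinch_neg (C : SCore M X) {κ : Type} [Fintype κ] (p : κ → C(X, ℝ)) (a : M) :
    C.spinch p (-a) = -C.spinch p a := by
  simp [SCore.spinch]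

theorem SCore.spinch_smul (C : SCore M X) {κ : Type} [Fintype κ] (p : κ → C(X, ℝ)) (t : ℝ)
    (a : M) : C.spinch p (t • a) = t • C.spinch p a := by
  simp [SCore.spinch, Finset.smul_sum]

theorem SCore.spinch_r (C : SCore M X) {κ : Type} [Fintype κ] {p : κ → C(X, ℝ)} (hp : IsCol p)
    (f : C(X, ℝ)) : C.spinch p (C.r f) = C.r f := by
  simp only [SCore.spinch, ← C.r_mul, ← C.r_sum]
  congr 1
  rw [Finset.sum_congr rfl fun i _ => show p i * f * p i = p i * f by
    rw [mul_right_comm, hp.mul_self], ← Finset.sum_mul, hp.2, one_mul]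

theorem SCore.spinch_algebraMap (C : SCore M X) {κ : Type} [Fintype κ] {p : κ → C(X, ℝ)}
    (hp : IsCol p) (c : ℝ) : C.spinch p (algebraMap ℝ M c) = algebraMap ℝ M c := by
  rw [← C.r_const, C.spinch_r hp]

/-- A small self-adjoint element with zero expectation is cut down on one side. -/
theorem exists_one_sided (C : SCore M X) {y : M} (hy : IsSelfAdjoint y) (hE : C.Er y = 0) {t : ℝ}
    (ht : 0 < t) (ht1 : t ≤ 1 / 100) (hyn : ‖y‖ ≤ t ^ 3) {r : ℕ}
    (hr : 1 ≤ (r : ℝ) * t ^ 116) {δ : ℝ} (hδ : 0 < δ) :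
    ∃ (p : Fin (r + 1) → C(X, ℝ)) (Z : M), IsCol p ∧ 0 ≤ Z ∧ C.tr Z ≤ δ ∧
      C.spinch p y ≤ algebraMap ℝ M (20 * t ^ 4) + Z := by
  have hr0 : 0 < r := by
    rcases Nat.eq_zero_or_pos r with h | h
    · rw [h] at hr; norm_num at hr
    · exact h
  have hrR : (0 : ℝ) < r := Nat.cast_pos.2 hr0
  set b1 : ℝ := t ^ 6 / 4 with hb1
  have hb1p : 0 < b1 := by positivity
  set e := min (t ^ 6 / 8) (δ / (12 * r)) with he
  have hep : 0 < e := lt_min (by positivity) (by positivity)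
  set l := min 1 (δ * b1 / (48 * r)) with hl
  have hlp : 0 < l := lt_min one_pos (by positivity)
  set ν := min 1 (δ / (24 * r)) with hν
  have hνp : 0 < ν := lt_min one_pos (by positivity)
  set P : Prm M := ⟨y, t, r * t ^ 6, e, l, ν, 1 / √ν, ht, ht1, by positivity, hep, hlp,
    min_le_left _ _, hνp, min_le_left _ _, by positivity, by
      rw [div_pow, Real.sq_sqrt hνp.le, one_pow, mul_one_div, div_self hνp.ne']⟩ with hP
  have hPok : P.Ok C := ⟨hy, hE, hyn⟩
  obtain ⟨ζ, hζ, hU⟩ := U_small (r := r) hPok rfl hr (show 0 < δ / (2 * t ^ 3) by positivity)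
  obtain ⟨s00, hs00, hstart⟩ := exists_start (C := C) hPok hr0 rfl (min_le_left _ _)
  obtain ⟨s0, hs0, hle0, hmin⟩ := exists_near_min hPok hs00 hζ
  obtain ⟨s, hs, hgood, hle⟩ := exists_improve hPok hs0
  have hUle := hU s hs hgood fun u hu => hle.trans (hmin u hu)
  obtain ⟨p, Z, hp, hZ, htrZ, hpav⟩ := exists_paving_of_state hPok hr0 hs
  refine ⟨p, Z, hp, hZ, htrZ.trans ?_, hpav⟩
  have h1 : ∑ c, C.tr (s c).Z ≤ δ / 2 := by
    refine (sum_tr_Z_le hPok hs).trans ((hle.trans (hle0.trans hstart)).trans ?_)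
    show (r : ℝ) * (e + l * (4 / b1) + 2 * ν) ≤ δ / 2
    have a1 : (r : ℝ) * e ≤ δ / 12 := by
      calc (r : ℝ) * e ≤ r * (δ / (12 * r)) := by gcongr; exact min_le_right _ _
        _ = δ / 12 := by field_simp
    have a2 : (r : ℝ) * (l * (4 / b1)) ≤ δ / 12 := by
      calc (r : ℝ) * (l * (4 / b1)) ≤ r * (δ * b1 / (48 * r) * (4 / b1)) := by
            gcongr; exact min_le_right _ _
        _ = δ / 12 := by field_simp; ring
    have a3 : (r : ℝ) * ν ≤ δ / 24 := by
      calc (r : ℝ) * ν ≤ r * (δ / (24 * r)) := by gcongr; exact min_le_right _ _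
        _ = δ / 24 := by field_simp
    linarith
  have h2 : P.β * C.ig (Config.U s) ≤ δ / 2 := by
    calc P.β * C.ig (Config.U s) ≤ t ^ 3 * (δ / (2 * t ^ 3)) :=
          mul_le_mul_of_nonneg_left hUle (pow_nonneg ht.le 3)
      _ = δ / 2 := by field_simp
  linarith

end

theorem pavingConclusion_all {t ε : ℝ} (ht : 0 < t) (ht1 : t ≤ 1 / 100) (hε : 40 * t ≤ ε)
    {r : ℕ} (hr : 1 ≤ (r : ℝ) * t ^ 116) : PavingConclusion ε ((r + 1) * (r + 1)) := by
  intro M X _ _ _ _ _ _ _ C x hx hx1 δ hδ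
  set β := t ^ 3 with hβ
  have hβ0 : 0 < β := by positivity
  set x' := (1 / 2 : ℝ) • (x - C.r (C.Er x)) with hx'
  have hx's : IsSelfAdjoint x' :=
    (IsSelfAdjoint.all _).smul (hx.sub (C.r_isSelfAdjoint _))
  have hx'1 : ‖x'‖ ≤ 1 := by
    rw [hx', norm_smul]
    have := norm_sub_le x (C.r (C.Er x))
    have := (C.norm_r_le (C.Er x)).trans (C.norm_Er_le hx)
    norm_num
    linarith
  have hE : C.Er x' = 0 := by
    rw [hx', C.Er_smul, C.Er_sub, C.Er_r, sub_self, smul_zero]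
  set y := β • x' with hy
  have hys : IsSelfAdjoint y := (IsSelfAdjoint.all _).smul hx's
  have hEy : C.Er y = 0 := by rw [hy, C.Er_smul, hE, smul_zero]
  have hyn : ‖y‖ ≤ t ^ 3 := by
    rw [hy, norm_smul, Real.norm_of_nonneg hβ0.le]
    exact mul_le_of_le_one_right hβ0.le hx'1
  set δ' := δ * β / 4 with hδ'
  obtain ⟨p, Z₁, hp, hZ₁, htr₁, h₁⟩ :=
    exists_one_sided C hys hEy ht ht1 hyn hr (show 0 < δ' by positivity)
  obtain ⟨q, Z₂, hq, hZ₂, htr₂, h₂⟩ :=
    exists_one_sided C hys.neg (by rw [C.Er_neg, hEy, neg_zero]) ht ht1 (by rwa [norm_neg]) hr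
      (show 0 < δ' by positivity)
  set f : Fin ((r + 1) * (r + 1)) → C(X, ℝ) :=
    fun k => p (finProdFinEquiv.symm k).1 * q (finProdFinEquiv.symm k).2 with hf
  have hf01 : ∀ c s, f c s = 0 ∨ f c s = 1 := fun c s => by
    show (p (finProdFinEquiv.symm c).1 * q (finProdFinEquiv.symm c).2) s = 0 ∨
      (p (finProdFinEquiv.symm c).1 * q (finProdFinEquiv.symm c).2) s = 1
    rw [ContinuousMap.mul_apply]
    rcases hp.1 (finProdFinEquiv.symm c).1 s with h | h <;>
      rcases hq.1 (finProdFinEquiv.symm c).2 s with h' | h' <;> rw [h, h'] <;> norm_num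
  have hfsum : ∑ c, f c = 1 := by
    rw [Equiv.sum_comp finProdFinEquiv.symm fun k : Fin (r + 1) × Fin (r + 1) => p k.1 * q k.2,
      Fintype.sum_prod_type]
    simp_rw [← Finset.mul_sum, hq.2, mul_one, hp.2]
  have hqp : ∀ z, C.spinch f z = C.spinch q (C.spinch p z) := fun z => by
    rw [SCore.spinch, Equiv.sum_comp finProdFinEquiv.symm
      fun k : Fin (r + 1) × Fin (r + 1) => C.r (p k.1 * q k.2) * z * C.r (p k.1 * q k.2),
      Fintype.sum_prod_type_right, SCore.spinch]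
    refine Finset.sum_congr rfl fun j _ => ?_
    rw [SCore.spinch, Finset.mul_sum, Finset.sum_mul]
    refine Finset.sum_congr rfl fun i _ => ?_
    conv_lhs => arg 1; rw [mul_comm (p i) (q j)]
    simp only [C.r_mul, mul_assoc]
  have hpq : ∀ z, C.spinch f z = C.spinch p (C.spinch q z) := fun z => by
    rw [SCore.spinch, Equiv.sum_comp finProdFinEquiv.symm
      fun k : Fin (r + 1) × Fin (r + 1) => C.r (p k.1 * q k.2) * z * C.r (p k.1 * q k.2),
      Fintype.sum_prod_type, SCore.spinch]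
    refine Finset.sum_congr rfl fun i _ => ?_
    rw [SCore.spinch, Finset.mul_sum, Finset.sum_mul]
    refine Finset.sum_congr rfl fun j _ => ?_
    conv_lhs => arg 2; rw [mul_comm (p i) (q j)]
    simp only [C.r_mul, mul_assoc]
  set Z := (2 / β) • (C.spinch q Z₁ + C.spinch p Z₂) with hZ
  have hkey : C.spinch f x - C.r (C.Er x) = (2 / β) • C.spinch f y := by
    rw [hy, C.spinch_smul, smul_smul, div_mul_cancel₀ _ hβ0.ne', hx', C.spinch_smul,
      smul_smul, show (2 : ℝ) * (1 / 2) = 1 by norm_num, one_smul, sub_eq_add_neg,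
      sub_eq_add_neg, C.spinch_add, C.spinch_neg,
      C.spinch_r (p := f) ⟨hf01, hfsum⟩]
  have hsc : (2 / β) • algebraMap ℝ M (20 * t ^ 4) ≤ algebraMap ℝ M ε := by
    rw [Algebra.algebraMap_eq_smul_one, smul_smul, ← Algebra.algebraMap_eq_smul_one]
    refine algebraMap_mono M (le_trans (le_of_eq ?_) hε)
    rw [hβ]; field_simp; ring
  have hZ0 : 0 ≤ C.spinch q Z₁ ∧ 0 ≤ C.spinch p Z₂ :=
    ⟨C.spinch_nonneg q hZ₁, C.spinch_nonneg p hZ₂⟩
  have up : C.spinch f y ≤ algebraMap ℝ M (20 * t ^ 4) + (C.spinch q Z₁ + C.spinch p Z₂) := by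
    rw [hqp]
    refine (C.spinch_mono q h₁).trans ?_
    rw [C.spinch_add, C.spinch_algebraMap hq]
    exact add_le_add le_rfl (le_add_of_nonneg_right hZ0.2)
  have down : -C.spinch f y ≤ algebraMap ℝ M (20 * t ^ 4) + (C.spinch q Z₁ + C.spinch p Z₂) := by
    rw [← C.spinch_neg, hpq]
    refine (C.spinch_mono p h₂).trans ?_
    rw [C.spinch_add, C.spinch_algebraMap hp]
    exact add_le_add le_rfl (le_add_of_nonneg_left hZ0.1)
  have h2β : (0 : ℝ) ≤ 2 / β := by positivity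
  refine ⟨f, Z, hf01, hfsum, smul_nonneg h2β (add_nonneg hZ0.1 hZ0.2), ?_, ?_, ?_⟩
  · rw [hZ, C.tr_smul, C.tr_add, C.tr_spinch hq, C.tr_spinch hp]
    calc 2 / β * (C.tr Z₁ + C.tr Z₂) ≤ 2 / β * (δ' + δ') :=
          mul_le_mul_of_nonneg_left (add_le_add htr₁ htr₂) h2β
      _ = δ := by rw [hδ']; field_simp; ring
  · rw [hkey]
    refine (smul_le_smul_of_nonneg_left up h2β).trans ?_
    rw [smul_add]
    exact add_le_add hsc le_rfl
  · rw [hkey, neg_le, ← smul_neg]
    refine (smul_le_smul_of_nonneg_left down h2β).trans ?_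
    rw [smul_add]
    exact add_le_add hsc le_rfl

/-- Polynomially many pieces so-pave every self-adjoint element over every MASA of every von
Neumann algebra. -/
theorem soPavableIn_all_polynomial :
    ∃ C : ℝ, 0 < C ∧ ∀ ε : ℝ, 0 < ε → ε ≤ 1 → ∃ n : ℕ, (n : ℝ) ≤ C * (1 / ε) ^ 232 ∧
      ∀ (H : Type) [NormedAddCommGroup H] [InnerProductSpace ℂ H] [CompleteSpace H]
        (M : VonNeumannAlgebra H) (A : StarSubalgebra ℂ (H →L[ℂ] H)),
        SubalgebraOf M A → IsAbelianAlg A → ContainsRelCommutant M A →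
        AllSoPavableIn M A ε n := by
  refine ⟨((200 : ℝ) ^ 116 + 2) ^ 2 + 2, by positivity, fun ε hε hε1 => ?_⟩
  set t := ε / 200 with ht
  have ht0 : 0 < t := by positivity
  set r := ⌈(1 / t) ^ 116⌉₊ with hr
  have hr1 : 1 ≤ (r : ℝ) * t ^ 116 := by
    calc (1 : ℝ) = (1 / t) ^ 116 * t ^ 116 := by
          rw [← mul_pow, one_div_mul_cancel ht0.ne', one_pow]
      _ ≤ r * t ^ 116 := mul_le_mul_of_nonneg_right (Nat.le_ceil _) (by positivity)
  refine ⟨(r + 1) * (r + 1) + (⌊1 / ε⌋₊ + 1), ?_, fun H _ _ _ M A h1 h2 h3 x hx hxs =>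
    soPavableIn_of_paving_all M A h1 h3 h2 hε
      (pavingConclusion_all ht0 (by rw [ht]; linarith) (by rw [ht]; linarith) hr1) hx hxs⟩
  set a := 1 / ε with ha
  have he : 1 ≤ a := one_le_one_div hε hε1
  have e1 : (1 / t) = 200 * a := by rw [ht, ha]; field_simp
  have h1' : (⌊a⌋₊ : ℝ) ≤ a := Nat.floor_le (by linarith)
  have h2' : (r : ℝ) + 1 ≤ ((200 : ℝ) ^ 116 + 2) * a ^ 116 := by
    have h3 : (r : ℝ) < (1 / t) ^ 116 + 1 := Nat.ceil_lt_add_one (by positivity)
    rw [e1, mul_pow] at h3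
    have h4 : 1 ≤ a ^ 116 := one_le_pow₀ he
    linarith
  have h5 : ((r : ℝ) + 1) * (r + 1) ≤ ((200 : ℝ) ^ 116 + 2) ^ 2 * a ^ 232 := by
    calc ((r : ℝ) + 1) * (r + 1)
        ≤ (((200 : ℝ) ^ 116 + 2) * a ^ 116) * (((200 : ℝ) ^ 116 + 2) * a ^ 116) :=
          mul_le_mul h2' h2' (by positivity) (by positivity)
      _ = ((200 : ℝ) ^ 116 + 2) ^ 2 * (a ^ 116 * a ^ 116) := by ring
      _ = ((200 : ℝ) ^ 116 + 2) ^ 2 * a ^ 232 := by rw [← pow_add]
  have h6 : a ≤ a ^ 232 := le_self_pow₀ he (by norm_num)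
  have h7 : 1 ≤ a ^ 232 := one_le_pow₀ he
  push_cast
  linarith

end Vale.Agent.P078.AllMasa
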