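import Vale.Agent.P078.AllMasa.Core

/-! Partial homeomorphisms of the spectrum, symmetric families of weighted translations, and the
operators of the constraint: the linearised budget and the smoothed projection onto its kernel. -/

namespace Vale.Agent.P078.AllMasa

open Filter Topology MeasureTheory
open Vale.Agent.P078.Tracial

variable {X : Type} [TopologicalSpace X]

/-- A homeomorphism between two clopen sets. -/
structure PMap (X : Type) [TopologicalSpace X] where
  dom : Set X
  rng : Set X
  dom_clopen : IsClopen dom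
  rng_clopen : IsClopen rng
  τ : C(X, X)
  σ : C(X, X)
  map_dom : ∀ x ∈ dom, τ x ∈ rng
  map_rng : ∀ x ∈ rng, σ x ∈ dom
  left_inv : ∀ x ∈ dom, σ (τ x) = x
  right_inv : ∀ x ∈ rng, τ (σ x) = x

namespace PMap

/-- The indicator of the domain. -/
noncomputable def d (p : PMap X) : C(X, ℝ) := ind p.dom p.dom_clopen

/-- The inverse. -/
def symm (p : PMap X) : PMap X :=
  ⟨p.rng, p.dom, p.rng_clopen, p.dom_clopen, p.σ, p.τ, p.map_rng, p.map_dom, p.right_inv,
    p.left_inv⟩

/-- The translation of functions. -/
noncomputable def T (p : PMap X) (f : C(X, ℝ)) : C(X, ℝ) := p.d * f.comp p.τ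

/-- Null sets have null preimages. -/
def NullPres [MeasurableSpace X] (p : PMap X) (μ : Measure X) : Prop :=
  ∀ B : Set X, MeasurableSet B → μ (B ∩ p.rng) = 0 → μ (p.dom ∩ p.τ ⁻¹' B) = 0

open Classical in
theorem d_apply (p : PMap X) (x : X) : p.d x = if x ∈ p.dom then 1 else 0 := by
  simp [d, ind, LocallyConstant.charFn, Set.indicator_apply]

theorem T_add (p : PMap X) (f g : C(X, ℝ)) : p.T (f + g) = p.T f + p.T g := by
  ext x; simp [T, mul_add]

theorem T_smul (p : PMap X) (t : ℝ) (f : C(X, ℝ)) : p.T (t • f) = t • p.T f := by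
  ext x; simp [T]

theorem T_nonneg (p : PMap X) {f : C(X, ℝ)} (hf : 0 ≤ f) : 0 ≤ p.T f := by
  classical
  refine ContinuousMap.le_def.2 fun x => ?_
  have := ContinuousMap.le_def.1 hf (p.τ x)
  simp only [T, ContinuousMap.mul_apply, ContinuousMap.comp_apply, d_apply,
    ContinuousMap.zero_apply] at this ⊢
  split_ifs <;> simp [this]

theorem T_mul (p : PMap X) (f g : C(X, ℝ)) : p.T (f * g) = p.T f * p.T g := by
  classical
  ext x
  simp only [T, ContinuousMap.mul_apply, ContinuousMap.comp_apply, d_apply]
  split_ifs <;> ring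

end PMap

/-- A finite family of weighted translations. -/
structure Fam (X : Type) [TopologicalSpace X] where
  num : ℕ
  g : Fin num → C(X, ℝ)
  p : Fin num → PMap X

namespace Fam

/-- The operator of a family. -/
noncomputable def K (F : Fam X) (f : C(X, ℝ)) : C(X, ℝ) := ∑ k, F.g k * (F.p k).T f

/-- The family is positive and closed under transposition. -/
structure Symm (F : Fam X) : Prop where
  g_nonneg : ∀ k, 0 ≤ F.g k
  g_supp : ∀ k, F.g k * (F.p k).d = F.g k
  exists_inv : ∃ inv : Fin F.num → Fin F.num, Function.Involutive inv ∧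
    (∀ k, F.p (inv k) = (F.p k).symm) ∧ ∀ k, F.g (inv k) = (F.p k).symm.T (F.g k)

theorem K_add (F : Fam X) (f h : C(X, ℝ)) : F.K (f + h) = F.K f + F.K h := by
  simp [K, PMap.T_add, mul_add, Finset.sum_add_distrib]

theorem K_smul (F : Fam X) (t : ℝ) (f : C(X, ℝ)) : F.K (t • f) = t • F.K f := by
  simp [K, PMap.T_smul, Finset.smul_sum]

theorem K_nonneg (F : Fam X) (hg : ∀ k, 0 ≤ F.g k) {f : C(X, ℝ)} (hf : 0 ≤ f) : 0 ≤ F.K f :=
  Finset.sum_nonneg fun k _ => ContinuousMap.le_def.2 fun x => by
    have h1 := ContinuousMap.le_def.1 (hg k) x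
    have h2 := ContinuousMap.le_def.1 ((F.p k).T_nonneg hf) x
    simpa using mul_nonneg (by simpa using h1) (by simpa using h2)

end Fam

/-- The data of the linearised budget: activity, unassigned set, diagonal and kernels. -/
structure LData (X : Type) [TopologicalSpace X] (r : ℕ) where
  act : Fin r → C(X, ℝ)
  U : C(X, ℝ)
  e : Fin r → C(X, ℝ)
  F : Fin r → Fam X
  B : ℝ

namespace LData

variable {r : ℕ} (d : LData X r)

/-- The part of one colour; it is its own transpose. -/
noncomputable def Lc (c : Fin r) : C(X, ℝ) →ₗ[ℝ] C(X, ℝ) where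
  toFun f := d.act c * (d.e c * (d.act c * f) - (d.F c).K (d.act c * f))
  map_add' f g := by simp only [mul_add, Fam.K_add]; ring
  map_smul' t f := by
    simp only [mul_smul_comm, Fam.K_smul, ← smul_sub, RingHom.id_apply]

/-- The linearised budget. -/
noncomputable def L : (Fin r → C(X, ℝ)) →ₗ[ℝ] C(X, ℝ) :=
  ∑ c, (d.Lc c).comp (LinearMap.proj c)

/-- The normalising constant. -/
noncomputable def Tn : ℝ := (r + 1) * (2 * d.B) ^ 2

/-- Restriction to the active points. -/
noncomputable def cut : (Fin r → C(X, ℝ)) →ₗ[ℝ] (Fin r → C(X, ℝ)) where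
  toFun u c := d.act c * u c
  map_add' u v := funext fun c => mul_add _ _ _
  map_smul' t u := funext fun c => by simp [mul_smul_comm]

/-- One step of the smoothing. -/
noncomputable def step : (Fin r → C(X, ℝ)) →ₗ[ℝ] (Fin r → C(X, ℝ)) :=
  LinearMap.id - d.Tn⁻¹ • LinearMap.pi fun c => (d.Lc c).comp d.L

/-- The smoothed projection onto the kernel of the linearised budget. -/
noncomputable def P (n : ℕ) : (Fin r → C(X, ℝ)) →ₗ[ℝ] (Fin r → C(X, ℝ)) :=
  (d.step ^ n).comp d.cut

/-- Validity of the data. -/
structure Ok [CompactSpace X] : Prop where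
  act_01 : ∀ c x, d.act c x = 0 ∨ d.act c x = 1
  U_01 : ∀ x, d.U x = 0 ∨ d.U x = 1
  act_le : ∀ c x, d.act c x ≤ d.U x
  B_pos : 0 < d.B
  e_nonneg : ∀ c, 0 ≤ d.e c
  e_le : ∀ c x, d.e c x ≤ d.B
  symm : ∀ c, (d.F c).Symm
  K_le : ∀ c x, (d.F c).K 1 x ≤ d.B

end LData

/-- The noise vector of one colour and one cell. -/
noncomputable def unitVec [CompactSpace X] {r : ℕ} (π : DiscreteQuotient X) (c : Fin r) (j : π) :
    Fin r → C(X, ℝ) :=
  Pi.single c (cellFn π j)

section

variable {M : Type} [CStarAlgebra M] [PartialOrder M] [StarOrderedRing M]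
variable [CompactSpace X] [T2Space X] [TotallyDisconnectedSpace X]

/-- A partial isometry normalising the subalgebra. -/
structure IsNrm (C : SCore M X) (v : M) : Prop where
  partial_iso : v * star v * v = v
  left : ∀ f, ∃ g, v * C.r f * star v = C.r g
  right : ∀ f, ∃ g, star v * C.r f * v = C.r g

/-- The partial homeomorphism is implemented by the partial isometry. -/
structure Implements (C : SCore M X) (v : M) (p : PMap X) : Prop where
  nrm : IsNrm C v
  left : ∀ f, v * C.r f * star v = C.r (p.T f)
  right : ∀ f, star v * C.r f * v = C.r (p.symm.T f)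

/-- The translations of the family are implemented by normalising partial isometries. -/
def Fam.FromNrm (F : Fam X) (C : SCore M X) : Prop := ∀ k, ∃ v, Implements C v (F.p k)

end

end Vale.Agent.P078.AllMasa
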