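import Vale.Agent.P078.AllMasa.Part.Lemmas

/-! Normalising partial isometries act by partial homeomorphisms, and the integral is given by a
measure for which they are nonsingular. -/

namespace Vale.Agent.P078.AllMasa

set_option linter.unusedSectionVars false

open Filter Topology ComplexOrder MeasureTheory
open Vale.Agent.P078.Tracial

variable {M X : Type} [CStarAlgebra M] [PartialOrder M] [StarOrderedRing M]
variable [TopologicalSpace X] [CompactSpace X] [T2Space X] [TotallyDisconnectedSpace X]

theorem exists_implements (C : SCore M X) {v : M} (hv : IsNrm C v) :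
    ∃ p : PMap X, Implements C v p := by
  classical
  -- the map along one partial isometry
  have key : ∀ {w : M}, IsNrm C w → ∃ (q : C(X, ℝ)) (τ : C(X, X)),
      (∀ x, q x = 0 ∨ q x = 1) ∧ w * star w = C.r q ∧
      ∀ f, w * C.r f * star w = C.r (q * f.comp τ) := by
    intro w hw
    choose α hα using hw.left
    have hadd : ∀ f g, α (f + g) = α f + α g := fun f g => C.r_injective (by
      rw [← hα, C.r_add, C.r_add, mul_add, add_mul, hα, hα])
    have hsmul : ∀ (c : ℝ) f, α (c • f) = c • α f := fun c f => C.r_injective (by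
      rw [← hα, C.r_smul, C.r_smul, mul_smul_comm, smul_mul_assoc, hα])
    have hmul : ∀ f g, α (f * g) = α f * α g := fun f g => C.r_injective (by
      rw [← hα, C.r_mul, C.r_mul, ← hα f, ← hα g]
      simp only [← mul_assoc]
      rw [hw.conj_mul])
    have hq : ∀ f, α 1 * α f = α f := fun f => by rw [← hmul, one_mul]
    have hzero : α 0 = 0 := C.r_injective (by rw [← hα, C.r_zero, mul_zero, zero_mul])
    let Φ : C(X, ℝ) →ₐ[ℝ] C(X, ℝ) :=
      { toFun := fun f => α f + (1 - α 1) * f
        map_one' := by simp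
        map_mul' := fun f g => by
          ext x
          have h1 := congrArg (fun k : C(X, ℝ) => k x) (hmul f g)
          have h2 := congrArg (fun k : C(X, ℝ) => k x) (hq f)
          have h3 := congrArg (fun k : C(X, ℝ) => k x) (hq g)
          have h4 := congrArg (fun k : C(X, ℝ) => k x) (hq 1)
          simp only [ContinuousMap.mul_apply, ContinuousMap.add_apply, ContinuousMap.sub_apply,
            ContinuousMap.one_apply] at h1 h2 h3 h4 ⊢
          linear_combination h1 + g x * h2 + f x * h3 - f x * g x * h4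
        map_zero' := by simp [hzero]
        map_add' := fun f g => by rw [hadd]; ring
        commutes' := fun c => by
          rw [Algebra.algebraMap_eq_smul_one, hsmul, mul_smul_comm, mul_one, ← smul_add]
          congr 1
          ring }
    obtain ⟨τ, hτ⟩ := exists_comp_of_algHom Φ
    refine ⟨α 1, τ, fun x => ?_, by rw [← hα 1, C.r_one, mul_one], fun f => ?_⟩
    · have h4 := congrArg (fun k : C(X, ℝ) => k x) (hq 1)
      simp only [ContinuousMap.mul_apply] at h4
      rcases mul_eq_zero.1 (show α 1 x * (α 1 x - 1) = 0 by linarith) with h | h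
      · exact Or.inl h
      · exact Or.inr (by linarith)
    · rw [hα, ← hτ]
      congr 1
      show α f = α 1 * (α f + (1 - α 1) * f)
      have h4 := hq 1
      have h2 := hq f
      linear_combination -h2 + f * h4
  obtain ⟨q, τ, hq01, hqv, hα⟩ := key hv
  obtain ⟨q', σ, hq'01, hqv', hβ⟩ := key hv.star
  simp only [star_star] at hqv' hβ
  have cl : ∀ {k : C(X, ℝ)}, (∀ x, k x = 0 ∨ k x = 1) → IsClopen {x | k x = 1} := fun {k} hk =>
    ⟨isClosed_eq k.continuous continuous_const, by
      have : {x | k x = 1} = {x | k x ≠ 0} := by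
        ext x; rcases hk x with h | h <;> simp [h]
      rw [this]; exact isOpen_ne_fun k.continuous continuous_const⟩
  have sep : ∀ x y : X, (∀ f : C(X, ℝ), f x = f y) → x = y := fun x y h => by
    by_contra hxy
    obtain ⟨f, fx, fy, -⟩ := exists_continuous_zero_one_of_isClosed (isClosed_singleton (x := x))
      (isClosed_singleton (x := y)) (Set.disjoint_singleton.2 hxy)
    have := h f
    rw [fx rfl, fy rfl] at this
    simp at this
  have hτr : q * q'.comp τ = q := C.r_injective (by
    rw [← hα, ← hqv', ← hqv, ← mul_assoc v, hv.partial_iso])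
  have hσr : q' * q.comp σ = q' := C.r_injective (by
    rw [← hβ, ← hqv, ← hqv', ← mul_assoc (star v), hv.star_partial])
  have hαβ : ∀ f, q * (q' * f.comp σ).comp τ = q * f * q := fun f => C.r_injective (by
    rw [← hα, ← hβ, C.r_mul, C.r_mul, ← hqv]; simp only [mul_assoc])
  have hβα : ∀ f, q' * (q * f.comp τ).comp σ = q' * f * q' := fun f => C.r_injective (by
    rw [← hβ, ← hα, C.r_mul, C.r_mul, ← hqv']; simp only [mul_assoc])
  have hdom : ∀ x, q x = 1 → q' (τ x) = 1 := fun x hx => by
    simpa [hx] using congrArg (fun k : C(X, ℝ) => k x) hτr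
  have hrng : ∀ x, q' x = 1 → q (σ x) = 1 := fun x hx => by
    simpa [hx] using congrArg (fun k : C(X, ℝ) => k x) hσr
  let p : PMap X :=
    ⟨{x | q x = 1}, {x | q' x = 1}, cl hq01, cl hq'01, τ, σ, hdom, hrng,
      fun x hx => sep _ _ fun f => by
        simpa [show q x = 1 from hx, hdom x hx] using congrArg (fun k : C(X, ℝ) => k x) (hαβ f),
      fun x hx => sep _ _ fun f => by
        simpa [show q' x = 1 from hx, hrng x hx] using congrArg (fun k : C(X, ℝ) => k x) (hβα f)⟩
  have hd : ∀ {k : C(X, ℝ)} (hk : ∀ x, k x = 0 ∨ k x = 1), ind {x | k x = 1} (cl hk) = k :=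
    fun {k} hk => by
      ext x
      rcases hk x with h | h <;> simp [ind_apply, h]
  refine ⟨p, hv, fun f => ?_, fun f => ?_⟩
  · rw [hα, PMap.T, PMap.d, hd hq01]
  · rw [hβ, PMap.T, PMap.d]
    show _ = C.r (ind {x | q' x = 1} _ * f.comp σ)
    rw [hd hq'01]

theorem Implements.symm {C : SCore M X} {v : M} {p : PMap X} (h : Implements C v p) :
    Implements C (star v) p.symm := by
  exact ⟨h.nrm.star, fun f => by rw [star_star]; exact h.right f,
    fun f => by rw [star_star]; exact h.left f⟩

theorem exists_measure (C : SCore M X) [MeasurableSpace X] [BorelSpace X] {q : C(X, ℝ)}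
    (hq : ∀ x, 0 < q x) :
    ∃ μ : Measure X, IsFiniteMeasure μ ∧ μ.Regular ∧
      (∀ f : C(X, ℝ), ∫ x, f x ∂μ = C.ig (q * f)) ∧
      ∀ (v : M) (p : PMap X), Implements C v p → p.NullPres μ := by
  let Λ : CompactlySupportedContinuousMap X ℝ →ₚ[ℝ] ℝ :=
    { toFun := fun g => C.ig (q * g.toContinuousMap)
      map_add' := fun g g' => by
        rw [← C.ig_add, ← mul_add]; rfl
      map_smul' := fun c g => by
        show C.ig (q * (c • g.toContinuousMap)) = c • C.ig (q * g.toContinuousMap)
        rw [mul_smul_comm, C.ig_smul, smul_eq_mul]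
      monotone' := fun g g' h => C.ig_mono (ContinuousMap.le_def.2 fun x =>
        mul_le_mul_of_nonneg_left (h x) (hq x).le) }
  set μ := RealRMK.rieszMeasure Λ
  have hint : ∀ f : C(X, ℝ), ∫ x, f x ∂μ = C.ig (q * f) := fun f =>
    RealRMK.integral_rieszMeasure Λ ⟨f, HasCompactSupport.of_compactSpace _⟩
  refine ⟨μ, inferInstance, inferInstance, hint, fun v p hvp B hB hB0 => ?_⟩
  have hind : ∀ (W : Set X) (hW : IsClopen W), μ.real W = C.ig (q * ind W hW) := fun W hW => by
    classical
    rw [← hint, ← integral_indicator_one hW.isClosed.measurableSet]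
    exact integral_congr_ae (Eventually.of_forall fun x => by
      by_cases h : x ∈ W <;> simp [ind_apply, h])
  have hD : MeasurableSet (p.dom ∩ p.τ ⁻¹' B) :=
    p.dom_clopen.isClosed.measurableSet.inter (p.τ.continuous.measurable hB)
  rw [hD.measure_eq_iSup_isCompact_of_ne_top (measure_ne_top μ _)]
  simp only [ENNReal.iSup_eq_zero]
  intro K hKD hK
  refine (measureReal_eq_zero_iff (measure_ne_top μ K)).1 ?_
  refine le_antisymm (le_of_forall_pos_le_add fun η hη => ?_) measureReal_nonneg
  rw [zero_add]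
  obtain ⟨δ, hδ, hsmall⟩ := C.exists_small_conj v
    (div_pos hη (show (0 : ℝ) < ‖q‖ + 1 by positivity))
  have hL : IsCompact (p.τ '' K) := hK.image p.τ.continuous
  have hLB : p.τ '' K ⊆ B ∩ p.rng := by
    rintro _ ⟨x, hx, rfl⟩
    exact ⟨(hKD hx).2, p.map_dom x (hKD hx).1⟩
  let qi : C(X, ℝ) := ⟨fun x => (q x)⁻¹, q.continuous.inv₀ fun x => (hq x).ne'⟩
  obtain ⟨V, hLV, hVo, hV⟩ := (p.τ '' K).exists_isOpen_lt_of_lt
    (μ := μ) (ENNReal.ofReal (δ / (‖qi‖ + 1)))
    (by rw [measure_mono_null hLB hB0]; simpa using div_pos hδ (by positivity))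
  obtain ⟨W, hW, hLW, hWV⟩ := exists_clopen_of_closed_subset_open hL.isClosed hVo hLV
  have hWq : C.ig (q * ind W hW) ≤ δ / (‖qi‖ + 1) := by
    rw [← hind W hW, measureReal_def]
    exact ENNReal.toReal_le_of_le_ofReal (by positivity) ((measure_mono hWV).trans hV.le)
  have hw0 : ∀ x, 0 ≤ ind W hW x := fun x => by
    classical
    rw [ind_apply]; split_ifs <;> simp
  have hWi : C.ig (ind W hW) ≤ δ := by
    refine (C.ig_mono (g := (‖qi‖ + 1) • (q * ind W hW))
      (ContinuousMap.le_def.2 fun x => ?_)).trans ?_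
    · show ind W hW x ≤ (‖qi‖ + 1) * (q x * ind W hW x)
      have h1 : (q x)⁻¹ ≤ ‖qi‖ := (le_abs_self _).trans (qi.norm_coe_le_norm x)
      have h2 : 1 ≤ q x * (‖qi‖ + 1) := by
        have := mul_le_mul_of_nonneg_left h1 (hq x).le
        rw [mul_inv_cancel₀ (hq x).ne'] at this
        linarith [hq x]
      calc ind W hW x = 1 * ind W hW x := (one_mul _).symm
        _ ≤ q x * (‖qi‖ + 1) * ind W hW x := mul_le_mul_of_nonneg_right h2 (hw0 x)
        _ = _ := by ring
    · rw [C.ig_smul, mul_comm]
      exact (le_div_iff₀ (by positivity)).1 hWq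
  have hT : C.ig (p.T (ind W hW)) ≤ η / (‖q‖ + 1) := by
    have := hsmall (ind W hW) (fun x => by
      classical
      rw [ind_apply]; split_ifs <;> simp) hWi
    rwa [hvp.left] at this
  have hsub : K ⊆ p.dom ∩ p.τ ⁻¹' W := fun x hx => ⟨(hKD hx).1, hLW ⟨x, hx, rfl⟩⟩
  refine (measureReal_mono hsub).trans ?_
  rw [hind _ (p.dom_clopen.inter (hW.preimage p.τ.continuous))]
  refine (C.ig_mono (g := (‖q‖ + 1) • p.T (ind W hW)) (ContinuousMap.le_def.2 fun x => ?_)).trans ?_
  · classical
    simp only [ContinuousMap.mul_apply, ContinuousMap.smul_apply, smul_eq_mul, PMap.T,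
      ContinuousMap.comp_apply, PMap.d_apply, ind_apply]
    have := (le_abs_self (q x)).trans (q.norm_coe_le_norm x)
    by_cases h1 : x ∈ p.dom
    · by_cases h2 : p.τ x ∈ W
      · simp [h1, h2]; linarith
      · simp [h1, h2]
    · simp [h1]
  · rw [C.ig_smul, mul_comm]
    exact (le_div_iff₀ (by positivity)).1 hT

end Vale.Agent.P078.AllMasa
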