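import Vale.Agent.P078.AllMasa.Defs

/-! Scalar facts on the profile and the counting of active colours. -/

namespace Vale.Agent.P078.AllMasa

set_option linter.unusedSectionVars false

open Filter Topology ComplexOrder
open Vale.Agent.P078.Tracial

/-- The relative excess at a distance at least that of a cap is small. -/
private theorem excess_mono {κ ξ ξ' : ℝ} (hκ : 0 ≤ κ) (hξ : 0 < ξ) (h : ξ ≤ ξ') :
    κ / (ξ' * √ξ') ≤ κ / (ξ * √ξ) := by
  have := Real.sqrt_pos.2 hξ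
  have := hξ.trans_le h
  gcongr

private theorem FP_eq {κ ξ : ℝ} (hξ : 0 < ξ) : FP κ ξ = 1 / ξ * (1 + κ / (ξ * √ξ)) := by
  have := (Real.sqrt_pos.2 hξ).ne'
  unfold FP
  field_simp

private theorem DP_eq {κ ξ : ℝ} (hξ : 0 < ξ) :
    DP κ ξ = 1 / ξ ^ 2 * (1 + 5 / 2 * (κ / (ξ * √ξ))) := by
  have := (Real.sqrt_pos.2 hξ).ne'
  unfold DP
  field_simp

private theorem QP_eq {κ ξ : ℝ} (hξ : 0 < ξ) :
    QP κ ξ = 1 / ξ ^ 3 * (1 + 35 / 8 * (κ / (ξ * √ξ))) := by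
  have := (Real.sqrt_pos.2 hξ).ne'
  unfold QP
  field_simp

/-- The cubic lower bound of the inverse fifth power of a square root. -/
private theorem pow_five_taylor {q : ℝ} (hq : 0 < q) (hq2 : q ≤ 5 / 4) :
    1 + 5 / 2 * (1 - q ^ 2) + 35 / 8 * (1 - q ^ 2) ^ 2 - 54 * |1 - q ^ 2| ^ 3 ≤ 1 / q ^ 5 := by
  set T := 1 + 3 * q + 6 * q ^ 2 + 10 * q ^ 3 + 15 * q ^ 4 + 105 / 8 * q ^ 5 + 35 / 8 * q ^ 6
    with hT
  have e : 1 / q ^ 5 - (1 + 5 / 2 * (1 - q ^ 2) + 35 / 8 * (1 - q ^ 2) ^ 2)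
      = (1 - q) ^ 3 * (T / q ^ 5) := by
    rw [hT]; field_simp; ring
  have hT0 : 0 ≤ T / q ^ 5 := by positivity
  rcases le_or_gt q 1 with h | h
  · have h1 : 0 ≤ (1 - q) ^ 3 := pow_nonneg (sub_nonneg.2 h) 3
    nlinarith [mul_nonneg h1 hT0, pow_nonneg (abs_nonneg (1 - q ^ 2)) 3]
  · have h1 : T ≤ 54 * q ^ 5 := by
      have h2 : ∀ k : ℕ, k ≤ 5 → q ^ k ≤ q ^ 5 := fun k hk => pow_le_pow_right₀ h.le hk
      have h6 : q ^ 6 ≤ 5 / 4 * q ^ 5 := by
        rw [pow_succ' q 5]; exact mul_le_mul_of_nonneg_right hq2 (by positivity)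
      have h0 := h2 0 (by norm_num)
      have h10 := h2 1 (by norm_num)
      rw [pow_zero] at h0
      rw [pow_one] at h10
      rw [hT]
      linarith [h2 2 (by norm_num), h2 3 (by norm_num), h2 4 (by norm_num), pow_pos hq 5]
    have h3 : |1 - q| ≤ |1 - q ^ 2| := by
      rw [show (1:ℝ) - q ^ 2 = (1 - q) * (1 + q) by ring, abs_mul]
      exact le_mul_of_one_le_right (abs_nonneg _) (by rw [abs_of_pos (by linarith)]; linarith)
    have h4 : T / q ^ 5 ≤ 54 := (div_le_iff₀ (by positivity)).2 h1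
    have h5 := mul_le_mul (pow_le_pow_left₀ (abs_nonneg _) h3 3) h4 hT0 (by positivity)
    have h6 := neg_abs_le ((1 - q) ^ 3 * (T / q ^ 5))
    rw [abs_mul, abs_pow, abs_of_nonneg hT0] at h6
    linarith

theorem FP_margin {κ ξ γ : ℝ} (hκ : 0 < κ) (hξ : 0 < ξ) (hs : κ / (ξ * √ξ) ≤ 1 / 10)
    (hγ : γ ≤ FP κ ξ) : κ / 2 / (ξ ^ 4 * √ξ) ≤ QP κ ξ - γ * DP κ ξ := by
  have hu : 0 < κ / (ξ * √ξ) := by have := Real.sqrt_pos.2 hξ; positivity
  have hD : 0 ≤ DP κ ξ := by rw [DP_eq hξ]; positivity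
  refine le_trans ?_ (sub_le_sub_left (mul_le_mul_of_nonneg_right hγ hD) _)
  have e : κ / 2 / (ξ ^ 4 * √ξ) = 1 / ξ ^ 3 * (κ / (ξ * √ξ) / 2) := by
    have := (Real.sqrt_pos.2 hξ).ne'
    field_simp
  rw [e, QP_eq hξ, FP_eq hξ, DP_eq hξ]
  set u := κ / (ξ * √ξ)
  have e2 : 1 / ξ ^ 3 * (1 + 35 / 8 * u) - 1 / ξ * (1 + u) * (1 / ξ ^ 2 * (1 + 5 / 2 * u))
      = 1 / ξ ^ 3 * (7 / 8 * u - 5 / 2 * u ^ 2) := by field_simp; ring
  rw [e2]
  refine mul_le_mul_of_nonneg_left ?_ (by positivity)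
  nlinarith

theorem FP_anti {κ ξ ξ' : ℝ} (hκ : 0 ≤ κ) (hξ : 0 < ξ) (h : ξ ≤ ξ') : FP κ ξ' ≤ FP κ ξ := by
  have := Real.sqrt_pos.2 hξ
  unfold FP
  gcongr

/-- The expansion to second order of the profile, uniformly on an interval away from zero. -/
theorem FP_taylor {κ a b : ℝ} (hκ : 0 ≤ κ) (ha : 0 < a) :
    ∃ C η0 : ℝ, 0 < C ∧ 0 < η0 ∧ ∀ ξ d, a ≤ ξ → ξ ≤ b → |d| ≤ η0 →
      FP κ ξ + d * DP κ ξ + d ^ 2 * QP κ ξ - C * |d| ^ 3 ≤ FP κ (ξ - d) := by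
  set c1 := 1 / (a * a ^ 3) with hc1
  set c2 := κ / (a ^ 2 * √a) / a ^ 3 with hc2
  have hsa := Real.sqrt_pos.2 ha
  refine ⟨2 * c1 + 54 * c2, a / 2, by positivity, by positivity, fun ξ d hξa _ hd => ?_⟩
  have hξ : 0 < ξ := ha.trans_le hξa
  have hsξ := Real.sqrt_pos.2 hξ
  set v := d / ξ with hv
  have hv2 : |v| ≤ 1 / 2 := by
    rw [hv, abs_div, abs_of_pos hξ, div_le_iff₀ hξ]; linarith
  obtain ⟨hvl, hvu⟩ := abs_le.1 hv2
  set q := √(1 - v) with hq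
  have hq0 : 0 < q := Real.sqrt_pos.2 (by linarith)
  have hqq : q ^ 2 = 1 - v := Real.sq_sqrt (by linarith)
  have hq2 : q ≤ 5 / 4 := Real.sqrt_le_iff.2 ⟨by norm_num, by linarith⟩
  have hd' : ξ - d = ξ * (1 - v) := by rw [hv]; field_simp
  have e1 : FP κ (ξ - d) = 1 / ξ * (1 / (1 - v)) + κ / (ξ ^ 2 * √ξ) * (1 / q ^ 5) := by
    rw [hd', FP, Real.sqrt_mul hξ.le, ← hq, ← hqq]
    field_simp
  have e2 : FP κ ξ + d * DP κ ξ + d ^ 2 * QP κ ξ
      = 1 / ξ * (1 + v + v ^ 2) + κ / (ξ ^ 2 * √ξ) * (1 + 5 / 2 * v + 35 / 8 * v ^ 2) := by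
    rw [hv, FP, DP, QP]
    field_simp
    ring
  have t1 : 1 + v + v ^ 2 - 2 * |v| ^ 3 ≤ 1 / (1 - v) := by
    have hp : (0:ℝ) < 1 - v := by linarith
    rw [le_div_iff₀ hp]
    have h3 : -(|v| ^ 3) ≤ v ^ 3 := by rw [← abs_pow]; exact neg_abs_le _
    nlinarith [mul_le_mul_of_nonneg_left hvu (pow_nonneg (abs_nonneg v) 3)]
  have t2 := pow_five_taylor hq0 hq2
  rw [hqq, sub_sub_cancel] at t2
  have hk : 0 ≤ κ / (ξ ^ 2 * √ξ) := by positivity
  have m1 : 1 / ξ * |v| ^ 3 ≤ c1 * |d| ^ 3 := by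
    rw [hv, abs_div, abs_of_pos hξ, div_pow,
      show 1 / ξ * (|d| ^ 3 / ξ ^ 3) = 1 / (ξ * ξ ^ 3) * |d| ^ 3 by ring, hc1]
    gcongr
  have m2 : κ / (ξ ^ 2 * √ξ) * |v| ^ 3 ≤ c2 * |d| ^ 3 := by
    rw [hv, abs_div, abs_of_pos hξ, div_pow,
      show κ / (ξ ^ 2 * √ξ) * (|d| ^ 3 / ξ ^ 3) = κ / (ξ ^ 2 * √ξ) / ξ ^ 3 * |d| ^ 3 by ring, hc2]
    gcongr
  rw [e1, e2]
  linarith [mul_le_mul_of_nonneg_left t1 (one_div_nonneg.2 hξ.le),
    mul_le_mul_of_nonneg_left t2 hk]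

variable {M X : Type} [CStarAlgebra M] [PartialOrder M] [StarOrderedRing M]
variable [TopologicalSpace X] [CompactSpace X] [T2Space X] [TotallyDisconnectedSpace X]
variable {P : Prm M} {C : SCore M X}

namespace Prm

private theorem excess_ξa (P : Prm M) : P.κ / (P.ξa * √P.ξa) ≤ 1 / 10 := by
  have ht := P.t_pos
  have h : 17 / 5 * P.t ^ 2 ≤ √P.ξa :=
    Real.le_sqrt_of_sq_le (by unfold ξa; nlinarith [pow_pos ht 4])
  refine (div_le_iff₀ (mul_pos P.ξa_pos (Real.sqrt_pos.2 P.ξa_pos))).2 ?_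
  have := mul_le_mul_of_nonneg_left h P.ξa_pos.le
  unfold κ ξa at *
  nlinarith [pow_pos ht 6]

private theorem excess_le (P : Prm M) {ξ : ℝ} (h : P.ξa ≤ ξ) : P.κ / (ξ * √ξ) ≤ 1 / 10 :=
  (excess_mono P.κ_pos.le P.ξa_pos h).trans (excess_ξa P)

private theorem FP_le (P : Prm M) {ξ : ℝ} (h : P.ξa ≤ ξ) : FP P.κ ξ ≤ 11 / 10 / ξ := by
  have hξ : 0 < ξ := P.ξa_pos.trans_le h
  rw [FP_eq hξ, div_mul_eq_mul_div, one_mul]
  gcongr
  linarith [excess_le P h]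

private theorem xi_eq {s : Col M X} (hs : s.Ok P C) (x : X) :
    P.xi s x = 1 - s.W x ∧ P.ξa ≤ 1 - s.W x ∧ 1 - s.W x ≤ 4 / P.b1 := by
  have h := hs.W_mem x
  have h1 : P.ξa ≤ 1 - s.W x := by have := h.2; unfold Wa at this; linarith
  refine ⟨?_, h1, ?_⟩
  · show max (1 - s.W x) P.ξa = _
    exact max_eq_left h1
  · have := h.1; unfold Wlo at this; linarith

private theorem Er_G_nonneg {s : Col M X} (hs : s.Ok P C) (x : X) :
    0 ≤ C.Er (s.G : M) x := by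
  simpa using ContinuousMap.le_def.1 (C.Er_nonneg hs.G_nonneg) x

/-- The largest curvature in the window. -/
noncomputable def Qmax (P : Prm M) : ℝ := 2 / P.ξm ^ 3

theorem Dc_bounds {s : Col M X} (hs : s.Ok P C) (x : X) :
    P.Dmin ≤ P.Dc s x ∧ P.Dc s x ≤ P.Dmax := by
  obtain ⟨hxi, hlo, hhi⟩ := xi_eq hs x
  have hξ : 0 < 1 - s.W x := P.ξa_pos.trans_le hlo
  have hu : 0 ≤ P.κ / ((1 - s.W x) * √(1 - s.W x)) := by
    have := P.κ_pos; positivity
  show P.Dmin ≤ DP P.κ (P.xi s x) ∧ DP P.κ (P.xi s x) ≤ P.Dmax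
  rw [hxi, DP_eq hξ]
  constructor
  · have h1 : P.Dmin ≤ 1 / (1 - s.W x) ^ 2 := by
      refine le_trans (le_of_eq ?_) (one_div_le_one_div_of_le (by positivity)
        (pow_le_pow_left₀ hξ.le hhi 2))
      unfold Dmin
      rw [div_pow, one_div_div]
      norm_num
    exact h1.trans (le_mul_of_one_le_right (by positivity) (by linarith))
  · have h2 : 1 / (1 - s.W x) ^ 2 ≤ 1 / P.ξa ^ 2 := by
      have := P.ξa_pos
      gcongr
    refine (mul_le_mul h2 (by linarith [excess_le P hlo] : _ ≤ (4:ℝ)) (by linarith)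
      (by positivity)).trans_eq ?_
    unfold Dmax; ring

theorem Qc_le {s : Col M X} (hs : s.Ok P C) (hg : P.Good C s) {x : X} (hx : s.act x = 1) :
    0 ≤ P.Qc s x ∧ P.Qc s x ≤ P.Qmax := by
  obtain ⟨hxi, hlo, -⟩ := xi_eq hs x
  have hξ : 0 < 1 - s.W x := P.ξa_pos.trans_le hlo
  have hm : P.ξm ≤ 1 - s.W x := by have := hg.high x hx; unfold Wm at this; linarith
  have hm0 : 0 < P.ξm := by unfold ξm; have := P.t_pos; positivity
  have hu : P.κ / ((1 - s.W x) * √(1 - s.W x)) ≤ 1 / 16 := by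
    refine (excess_mono P.κ_pos.le hm0 hm).trans (le_of_eq ?_)
    have e : √P.ξm = 4 * P.t ^ 2 := by
      rw [show P.ξm = (4 * P.t ^ 2) ^ 2 by unfold ξm; ring,
        Real.sqrt_sq (by positivity)]
    have := P.t_pos.ne'
    rw [e]; unfold κ ξm
    field_simp
  have hu0 : 0 ≤ P.κ / ((1 - s.W x) * √(1 - s.W x)) := by
    have := P.κ_pos; positivity
  show 0 ≤ QP P.κ (P.xi s x) ∧ QP P.κ (P.xi s x) ≤ P.Qmax
  rw [hxi, QP_eq hξ]
  refine ⟨mul_nonneg (by positivity) (by linarith), ?_⟩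
  refine (mul_le_mul (one_div_le_one_div_of_le (by positivity) (pow_le_pow_left₀ hm0.le hm 3))
    (by linarith : _ ≤ (2:ℝ)) (by linarith) (by positivity)).trans_eq ?_
  unfold Qmax; ring

theorem Wlo_lt {s : Col M X} (hs : s.Ok P C) {x : X} (hx : s.act x = 1) :
    P.Wlo + 1 / P.b1 ≤ s.W x := by
  obtain ⟨-, hlo, -⟩ := xi_eq hs x
  have hξ : 0 < 1 - s.W x := P.ξa_pos.trans_le hlo
  have h1 : P.b1 ≤ 11 / 10 / (1 - s.W x) := by
    linarith [hs.inv x hx, hs.act_b x hx, Er_G_nonneg hs x, FP_le P hlo]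
  have h2 : 1 - s.W x ≤ 11 / 10 / P.b1 := by
    rw [le_div_iff₀ P.b1_pos]
    rw [le_div_iff₀ hξ] at h1
    linarith
  have h3 : 11 / 10 / P.b1 ≤ 3 / P.b1 := by
    have := P.b1_pos
    gcongr
    norm_num
  unfold Wlo
  have h4 : (4:ℝ) / P.b1 = 1 / P.b1 + 3 / P.b1 := by ring
  linarith

/-- Many colours are active at an unassigned point, so the margins beat the defect. -/
theorem gain {r : ℕ} {s : Config M X r} (hs : StateOk P C s) (hg : ∀ c, P.Good C (s c))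
    (hS : P.S = r * P.b0) (hr : 1 ≤ (r : ℝ) * P.t ^ 116) (x : X) :
    16 * √r * P.Qmax * Config.U s x ≤
      ∑ c, (s c).act x * (P.Qc (s c) x - C.Er ((s c).G : M) x * P.Dc (s c) x) := by
  rcases hs.U_01 x with hU | hU
  · have h0 : ∀ c, (s c).act x = 0 := fun c => by
      rcases (hs.col c).act_01 x with h | h
      · exact h
      · have := hs.act_le c x; linarith
    simp [hU, h0]
  have ht := P.t_pos
  have hb0 : 0 < P.b0 := by unfold b0; positivity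
  set m := P.t ^ 27 / 71 with hm
  have hterm : ∀ c, m * ((s c).b x - (s c).act x * (P.b0 / 2)) ≤
      (s c).act x * (P.Qc (s c) x - C.Er ((s c).G : M) x * P.Dc (s c) x) := by
    intro c
    rcases (hs.col c).act_01 x with h | h
    · rw [h, zero_mul, zero_mul, sub_zero]
      exact mul_nonpos_of_nonneg_of_nonpos (by positivity) (hs.b_drop c x h)
    rw [h, one_mul, one_mul]
    obtain ⟨hxi, hlo, -⟩ := xi_eq (hs.col c) x
    show _ ≤ QP P.κ (P.xi (s c) x) - C.Er ((s c).G : M) x * DP P.κ (P.xi (s c) x)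
    rw [hxi]
    set ξ := 1 - (s c).W x with hξdef
    have hξ : 0 < ξ := P.ξa_pos.trans_le hlo
    have hsξ := Real.sqrt_pos.2 hξ
    have hinv := (hs.col c).inv x h
    rw [← hξdef] at hinv
    have hbb := (hs.col c).act_b x h
    have hb1 := P.b1_pos
    have hmarg := FP_margin (γ := C.Er ((s c).G : M) x) P.κ_pos hξ (excess_le P hlo)
      (by linarith)
    refine le_trans ?_ hmarg
    have hk := P.κ_pos
    rcases le_or_gt ((s c).b x) (P.b0 / 2) with hb | hb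
    · refine (mul_nonpos_of_nonneg_of_nonpos (by positivity) (by linarith)).trans ?_
      positivity
    have hbξ : (s c).b x * ξ ≤ 11 / 10 := by
      rw [← le_div_iff₀ hξ]
      linarith [Er_G_nonneg (hs.col c) x, FP_le P hlo]
    have hξt : ξ * P.t ^ 6 ≤ 4 := by
      have := mul_le_mul_of_nonneg_right hb.le hξ.le
      unfold b0 at this
      linarith
    have hs' : √ξ * P.t ^ 3 ≤ 2 := by
      rw [← Real.sqrt_sq (by positivity : 0 ≤ P.t ^ 3), ← Real.sqrt_mul hξ.le]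
      exact Real.sqrt_le_iff.2 ⟨by norm_num, by linarith [show (P.t ^ 3) ^ 2 = P.t ^ 6 by ring]⟩
    have h35 : (ξ * P.t ^ 6) ^ 3 * (√ξ * P.t ^ 3) ≤ 128 :=
      (mul_le_mul (pow_le_pow_left₀ (by positivity) hξt 3) hs' (by positivity)
        (by norm_num)).trans_eq (by norm_num)
    rw [le_div_iff₀ (by positivity)]
    calc m * ((s c).b x - P.b0 / 2) * (ξ ^ 4 * √ξ) ≤ m * (s c).b x * (ξ ^ 4 * √ξ) := by
          gcongr; linarith
      _ = ((s c).b x * ξ) * ((ξ * P.t ^ 6) ^ 3 * (√ξ * P.t ^ 3)) * (P.t ^ 6 / 71) := by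
          rw [hm]; ring
      _ ≤ 11 / 10 * 128 * (P.t ^ 6 / 71) := by gcongr
      _ ≤ P.κ / 2 := by unfold κ; linarith [pow_pos ht 6]
  have hb : ∑ c, (s c).b x = P.S := by
    simpa [hU] using congrArg (fun f : C(X, ℝ) => f x) hs.b_sum
  have hact : ∑ c, (s c).act x ≤ r := by
    refine (Finset.sum_le_sum fun c _ => (show (s c).act x ≤ 1 by
      rcases (hs.col c).act_01 x with h | h <;> simp [h])).trans_eq ?_
    simp
  refine le_trans ?_ (Finset.sum_le_sum fun c _ => hterm c)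
  rw [← Finset.mul_sum, Finset.sum_sub_distrib, hb, ← Finset.sum_mul, hS, hU, mul_one]
  have h1 : m * (r * P.b0 / 2) ≤ m * (r * P.b0 - (∑ c, (s c).act x) * (P.b0 / 2)) := by
    refine mul_le_mul_of_nonneg_left ?_ (by positivity)
    linarith [mul_le_mul_of_nonneg_right hact (half_pos hb0).le]
  refine le_trans ?_ h1
  have hq : 1 ≤ √r * P.t ^ 58 := by
    rw [← Real.sqrt_sq (by positivity : 0 ≤ P.t ^ 58), ← Real.sqrt_mul (Nat.cast_nonneg r)]
    exact Real.one_le_sqrt.2 (by linarith [show (P.t ^ 58) ^ 2 = P.t ^ 116 by ring])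
  have hr0 : (0:ℝ) ≤ r := Nat.cast_nonneg r
  have e : m * (r * P.b0 / 2) = √r * (√r * P.t ^ 58) / (142 * P.t ^ 25) := by
    rw [hm, b0, ← mul_assoc, Real.mul_self_sqrt hr0]
    field_simp; ring
  have e' : 16 * √r * P.Qmax = √r / (128 * P.t ^ 12) := by
    unfold Qmax ξm; field_simp; ring
  rw [e, e']
  refine le_trans ?_ (div_le_div_of_nonneg_right
    (mul_le_mul_of_nonneg_left hq (Real.sqrt_nonneg _)) (by positivity))
  rw [mul_one]
  have h13 : P.t ^ 13 ≤ P.t := pow_le_of_le_one ht.le (by linarith [P.t_le]) (by norm_num)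
  refine div_le_div_of_nonneg_left (Real.sqrt_nonneg _) (by positivity) ?_
  calc 142 * P.t ^ 25 = 142 * P.t ^ 13 * P.t ^ 12 := by ring
    _ ≤ 128 * P.t ^ 12 := by gcongr; linarith [P.t_le]

end Prm

end Vale.Agent.P078.AllMasa
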