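import Vale.Agent.P078.AllMasa.Profile
import Vale.Agent.P078.AllMasa.Stationary.Moves
import Vale.Agent.P078.AllMasa.Stationary.Density

/-! At an approximate minimiser all colours have one common price, and the price is a
supersolution of the kernels. Exactness is recovered outside a small clopen set. -/

namespace Vale.Agent.P078.AllMasa

set_option linter.unusedSectionVars false
set_option linter.unusedVariables false

open Filter Topology ComplexOrder
open Vale.Agent.P078.Tracial

variable {M X : Type} [CStarAlgebra M] [PartialOrder M] [StarOrderedRing M]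
variable [TopologicalSpace X] [CompactSpace X] [T2Space X] [TotallyDisconnectedSpace X]
variable {P : Prm M} {C : SCore M X}

theorem exists_price (hP : P.Ok C) (r : ℕ) {ε : ℝ} (hε : 0 < ε) :
    ∃ ζ > 0, ∀ s : Config M X r, StateOk P C s → (∀ c, P.Good C (s c)) → P.IsMin C s ζ →
      ∃ p : C(X, ℝ), (∀ x, P.pmin ≤ p x ∧ p x ≤ P.pmax) ∧
        ∀ c, ∀ f : C(X, ℝ), (∀ x, 0 ≤ f x ∧ f x ≤ 1) → f * (s c).act = f →
          |P.VW C (s c) f - C.ig (p * P.Dc (s c) * f)| ≤ ε ∧
          C.ig (p * (s c).act * C.K ((s c).G : M) f) ≤ C.ig (p * P.Dc (s c) * f) + ε := by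
  classical
  have hDm := P.Dmin_pos
  have hDM := P.Dmax_pos
  have hΛ := P.Λ_pos
  set L := P.Λ ^ 2 / P.Dmin with hL
  have hL0 : 0 < L := by positivity
  set ε1 := ε / (L + 2) with hε1
  have hε10 : 0 < ε1 := by positivity
  have hεL : ε1 * (L + 2) = ε := by rw [hε1, div_mul_cancel₀]; positivity
  set δ := min ε1 (ε1 / (2 * P.Dmax * (1 / P.Dmin + 1) * (r + 1))) with hδdef
  have hδ : 0 < δ := lt_min hε10 (by positivity)
  obtain ⟨ζ, hζ, hmoves⟩ := exists_moves (M := M) (X := X) (P := P) (C := C) r hδ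
  refine ⟨ζ, hζ, fun s hs hg hmin => ?_⟩
  obtain ⟨hA, hB, hK⟩ := hmoves s hs hg hmin
  have hcl : ∀ c, IsClopen {x | (s c).act x = 1} := fun c => by
    refine ⟨isClosed_eq (map_continuous _) continuous_const, ?_⟩
    have : {x | (s c).act x = 1} = {x | 1 / 2 < (s c).act x} := by
      ext x
      rcases (hs.col c).act_01 x with h | h <;> simp [h]; norm_num
    rw [this]
    exact isOpen_lt continuous_const (map_continuous _)
  obtain ⟨t, ht01, htS, htsum⟩ := exists_disjointify _ hcl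
  set T : C(X, ℝ) := ∑ c, t c with hT
  have hT01 : ∀ x, 0 ≤ T x ∧ T x ≤ 1 := fun x => by
    have e : T x = ∑ c, t c x := by simp [hT]
    rcases htsum x with ⟨h, _⟩ | h <;> rw [e, h] <;> norm_num
  have hti : ∀ c x, 0 ≤ t c x ∧ t c x ≤ 1 := fun c x => by
    rcases ht01 c x with h | h <;> simp [h]
  have htact : ∀ c, t c * (s c).act = t c := fun c => by
    ext x
    rcases ht01 c x with h | h
    · simp [h]
    · have : (s c).act x = 1 := htS c x h
      simp [h, this]
  have hiD : ∀ c x, 0 < P.iD (s c) x ∧ P.iD (s c) x ≤ 1 / P.Dmin ∧ 1 / P.Dmax ≤ P.iD (s c) x ∧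
      P.iD (s c) x * P.Dc (s c) x = 1 := fun c x => by
    have h := Prm.Dc_pos P (s c) x
    obtain ⟨h1, h2⟩ := Prm.Dc_bounds (hs.col c) x
    refine ⟨inv_pos.2 h, ?_, ?_, inv_mul_cancel₀ h.ne'⟩
    · show (P.Dc (s c) x)⁻¹ ≤ _
      rw [one_div]; exact inv_anti₀ hDm h1
    · show _ ≤ (P.Dc (s c) x)⁻¹
      rw [one_div]; exact inv_anti₀ h h2
  -- the functional
  let Φ : C(X, ℝ) →ₗ[ℝ] ℝ :=
    { toFun := fun g => ∑ c, P.VW C (s c) (t c * g * P.iD (s c)) + P.pmin * C.ig ((1 - T) * g)
      map_add' := fun f g => by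
        simp only [mul_add, add_mul, Prm.VW_add, C.ig_add, Finset.sum_add_distrib]
        ring
      map_smul' := fun a g => by
        simp only [mul_smul_comm, smul_mul_assoc, Prm.VW_smul, C.ig_smul, ← Finset.mul_sum,
          RingHom.id_apply, smul_eq_mul]
        ring }
  have hΦ : ∀ g, Φ g = ∑ c, P.VW C (s c) (t c * g * P.iD (s c)) + P.pmin * C.ig ((1 - T) * g) :=
    fun g => rfl
  have hsplit : ∀ g : C(X, ℝ), C.ig g = ∑ c, C.ig (t c * g) + C.ig ((1 - T) * g) := fun g => by
    rw [← C.ig_sum, ← C.ig_add, ← Finset.sum_mul, ← add_mul, ← hT, add_sub_cancel, one_mul]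
  have hrest : ∀ g : C(X, ℝ), (∀ x, 0 ≤ g x ∧ g x ≤ 1) → 0 ≤ C.ig ((1 - T) * g) := fun g hg =>
    C.ig_nonneg (ContinuousMap.le_def.2 fun x => by
      simpa using mul_nonneg (sub_nonneg.2 (hT01 x).2) (hg x).1)
  have hpp : P.pmin ≤ P.pmax := by
    obtain ⟨h1, h2, h3, h4⟩ : 0 < P.Dmin ∧ 0 < P.Dmax ∧ P.l ≤ 1 ∧ P.Dmin ≤ P.Dmax := by
      refine ⟨hDm, hDM, P.l_le, ?_⟩
      have ht : P.t ≤ 1 := by linarith [P.t_le]
      have hp := P.t_pos
      have e1 : P.Dmin = P.t ^ 12 / 256 := by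
        unfold Prm.Dmin Prm.b1; ring
      have e2 : P.Dmax = 4 / (144 * P.t ^ 8) := by
        unfold Prm.Dmax Prm.ξa; ring
      have h5 : P.t ^ 8 ≤ 1 := pow_le_one₀ hp.le ht
      have h6 : P.t ^ 12 ≤ 1 := pow_le_one₀ hp.le ht
      rw [e1, e2]
      calc P.t ^ 12 / 256 ≤ 4 / 144 := by linarith
        _ ≤ 4 / (144 * P.t ^ 8) :=
          div_le_div_of_nonneg_left (by norm_num) (by positivity) (by linarith)
    unfold Prm.pmin Prm.pmax
    calc P.l / P.Dmax ≤ 1 / P.Dmax := by gcongr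
      _ ≤ 1 / P.Dmin := one_div_le_one_div_of_le h1 h4
      _ ≤ 2 / P.Dmin := by gcongr; norm_num
  set δ' := (r : ℝ) * (δ / P.Dmin) with hδ'
  have hsize : P.Dmax * (r * δ + δ' + ε1 / (4 * P.Dmax)) ≤ ε1 := by
    have h1 : δ * (2 * P.Dmax * (1 / P.Dmin + 1) * (r + 1)) ≤ ε1 :=
      (le_div_iff₀ (by positivity)).1 (min_le_right _ _)
    have e : P.Dmax * (r * δ + δ' + ε1 / (4 * P.Dmax)) =
        P.Dmax * (1 / P.Dmin + 1) * δ * r + ε1 / 4 := by
      rw [hδ']; field_simp; ring
    have h2 : 0 ≤ P.Dmax * (1 / P.Dmin + 1) * δ := by positivity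
    rw [e]
    linarith
  obtain ⟨p, hp, hpΦ⟩ := C.exists_density Φ (lo := P.pmin) (hi := P.pmax) (δ := δ')
    (ε := ε1 / (4 * P.Dmax)) P.pmin_pos.le hpp (by positivity) (by positivity) (fun g hg => by
      rw [hΦ, hsplit g, mul_add, Finset.mul_sum]
      refine add_le_add (Finset.sum_le_sum fun c _ => ?_) le_rfl
      refine le_trans ?_ (Prm.l_ig_le_VW (hs.col c) (ContinuousMap.le_def.2 fun x => by
        simpa using mul_nonneg (mul_nonneg (hti c x).1 (hg x).1) (hiD c x).1.le))
      rw [Prm.pmin, div_mul_eq_mul_div, mul_comm (P.l), div_le_iff₀ hDM]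
      have : C.ig (t c * g) ≤ C.ig (P.Dmax • (t c * g * P.iD (s c))) := by
        refine C.ig_mono (ContinuousMap.le_def.2 fun x => ?_)
        simp only [ContinuousMap.smul_apply, ContinuousMap.mul_apply, smul_eq_mul]
        have h1 : 1 ≤ P.Dmax * P.iD (s c) x := by
          have := (div_le_iff₀ hDM).1 (hiD c x).2.2.1
          linarith
        have := mul_le_mul_of_nonneg_left h1 (mul_nonneg (hti c x).1 (hg x).1)
        linarith
      rw [C.ig_smul] at this
      have := mul_le_mul_of_nonneg_left this P.l_pos.le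
      linarith) (fun g hg => by
      rw [hΦ, hsplit g, mul_add, Finset.mul_sum]
      have h1 : ∀ c ∈ (Finset.univ : Finset (Fin r)), P.VW C (s c) (t c * g * P.iD (s c)) ≤
          P.pmax * C.ig (t c * g) + δ / P.Dmin := fun c _ => by
        have hh := hB c (P.Dmin • (t c * g * P.iD (s c))) fun x => by
          simp only [ContinuousMap.smul_apply, ContinuousMap.mul_apply, smul_eq_mul]
          obtain ⟨a1, a2, _⟩ := hiD c x
          have a3 := (le_div_iff₀ hDm).1 a2
          refine ⟨mul_nonneg hDm.le (mul_nonneg (mul_nonneg (hti c x).1 (hg x).1) a1.le), ?_⟩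
          calc P.Dmin * (t c x * g x * P.iD (s c) x) = t c x * g x * (P.iD (s c) x * P.Dmin) := by
                ring
            _ ≤ 1 := mul_le_one₀ (mul_le_one₀ (hti c x).2 (hg x).1 (hg x).2) (by positivity) a3
        rw [Prm.VW_smul, C.ig_smul] at hh
        have h2 : C.ig (t c * g * P.iD (s c)) ≤ (1 / P.Dmin) * C.ig (t c * g) := by
          rw [← C.ig_smul]
          refine C.ig_mono (ContinuousMap.le_def.2 fun x => ?_)
          simp only [ContinuousMap.smul_apply, ContinuousMap.mul_apply, smul_eq_mul]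
          rw [mul_comm (1 / P.Dmin)]
          exact mul_le_mul_of_nonneg_left (hiD c x).2.1 (mul_nonneg (hti c x).1 (hg x).1)
        have h3 := mul_le_mul_of_nonneg_left h2 (show (0:ℝ) ≤ 2 * P.Dmin by positivity)
        have e : 2 * P.Dmin * (1 / P.Dmin * C.ig (t c * g)) = 2 * C.ig (t c * g) := by field_simp
        have h4 : P.Dmin * P.VW C (s c) (t c * g * P.iD (s c)) ≤
            P.Dmin * (P.pmax * C.ig (t c * g) + δ / P.Dmin) := by
          have : P.Dmin * (P.pmax * C.ig (t c * g) + δ / P.Dmin) = 2 * C.ig (t c * g) + δ := by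
            rw [Prm.pmax]; field_simp
          linarith
        exact le_of_mul_le_mul_left h4 hDm
      have h5 := Finset.sum_le_sum h1
      rw [Finset.sum_add_distrib, Finset.sum_const, Finset.card_univ, Fintype.card_fin,
        nsmul_eq_mul, ← hδ'] at h5
      have h6 := mul_le_mul_of_nonneg_right hpp (hrest g hg)
      linarith)
  refine ⟨p, hp, fun c => ?_⟩
  have hkey : ∀ f : C(X, ℝ), (∀ x, 0 ≤ f x ∧ f x ≤ 1) → f * (s c).act = f →
      |P.VW C (s c) f - C.ig (p * P.Dc (s c) * f)| ≤ ε1 := fun f hf hfa => by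
    set g := P.Dmax⁻¹ • (P.Dc (s c) * f) with hgdef
    have hg : ∀ x, 0 ≤ g x ∧ g x ≤ 1 := fun x => by
      simp only [hgdef, ContinuousMap.smul_apply, ContinuousMap.mul_apply, smul_eq_mul]
      have h1 := (Prm.Dc_bounds (hs.col c) x).2
      have h0 := (Prm.Dc_pos P (s c) x).le
      refine ⟨mul_nonneg (inv_nonneg.2 hDM.le) (mul_nonneg h0 (hf x).1), ?_⟩
      rw [inv_mul_le_iff₀ hDM, mul_one]
      exact (mul_le_of_le_one_right h0 (hf x).2).trans h1
    have hTg : (1 - T) * g = 0 := by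
      ext x
      simp only [hgdef, ContinuousMap.mul_apply, ContinuousMap.smul_apply, ContinuousMap.sub_apply,
        ContinuousMap.one_apply, ContinuousMap.zero_apply, smul_eq_mul]
      have hx := congrArg (fun k : C(X, ℝ) => k x) hfa
      simp only [ContinuousMap.mul_apply] at hx
      rcases (hs.col c).act_01 x with h | h
      · rw [h, mul_zero] at hx
        simp [← hx]
      · have e : T x = ∑ d, t d x := by simp [hT]
        rcases htsum x with ⟨_, hn⟩ | h1
        · exact absurd h (hn c)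
        · simp [e, h1]
    have hgi : P.Dmax • (g * P.iD (s c)) = f := by
      ext x
      simp only [hgdef, ContinuousMap.mul_apply, ContinuousMap.smul_apply, smul_eq_mul]
      have h1 := (hiD c x).2.2.2
      field_simp
      linear_combination f x * h1
    have hgsum : g = ∑ d, t d * g := by
      have h1 : g = T * g + (1 - T) * g := by ring
      rw [hTg, add_zero, hT, Finset.sum_mul] at h1
      exact h1
    have hdiff : |P.VW C (s c) (g * P.iD (s c)) - Φ g| ≤ r * δ := by
      rw [hΦ, hTg, C.ig_zero, mul_zero, add_zero]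
      conv_lhs => rw [hgsum, Finset.sum_mul, Prm.VW_sum, ← Finset.sum_sub_distrib]
      refine (Finset.abs_sum_le_sum_abs _ _).trans ?_
      refine (Finset.sum_le_sum fun d _ => (?_ : _ ≤ δ)).trans (by simp)
      rw [← hgsum]
      have hu : ∀ x, 0 ≤ (t d * g) x ∧ (t d * g) x ≤ 1 := fun x =>
        ⟨by simpa using mul_nonneg (hti d x).1 (hg x).1,
          by simpa using mul_le_one₀ (hti d x).2 (hg x).1 (hg x).2⟩
      have hud : t d * g * (s d).act = t d * g := by rw [mul_right_comm, htact]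
      have huc : t d * g * (s c).act = t d * g := by
        have : g * (s c).act = g := by
          simp only [hgdef, smul_mul_assoc, mul_assoc, hfa]
        rw [mul_assoc, this]
      rw [abs_le]
      constructor
      · linarith [hA c d _ hu huc hud]
      · linarith [hA d c _ hu hud huc]
    have hv : P.VW C (s c) f = P.Dmax * P.VW C (s c) (g * P.iD (s c)) := by
      rw [← Prm.VW_smul, hgi]
    have hi : C.ig (p * P.Dc (s c) * f) = P.Dmax * C.ig (p * g) := by
      rw [← C.ig_smul]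
      congr 1
      rw [hgdef, mul_smul_comm, smul_smul, mul_inv_cancel₀ hDM.ne', one_smul, mul_assoc]
    rw [hv, hi, ← mul_sub, abs_mul, abs_of_pos hDM]
    refine le_trans (mul_le_mul_of_nonneg_left ?_ hDM.le) hsize
    exact (abs_sub_le _ (Φ g) _).trans (by linarith [hpΦ g hg, hdiff])
  intro f hf hfa
  have h1 := hkey f hf hfa
  refine ⟨h1.trans (by nlinarith), ?_⟩
  set h0 := (s c).act * C.K ((s c).G : M) f * P.iD (s c) with hh0
  have hGn : ‖((s c).G : M)‖ ≤ P.Λ :=
    norm_le_of_le_algebraMap₀ hΛ.le (hs.col c).G_nonneg (hg c).G_le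
  have hKb : ∀ x, 0 ≤ C.K ((s c).G : M) f x ∧ C.K ((s c).G : M) f x ≤ P.Λ ^ 2 := fun x => by
    have hf0 : 0 ≤ f := ContinuousMap.le_def.2 fun x => (hf x).1
    rw [SCore.K, (IsSelfAdjoint.of_nonneg (hs.col c).G_nonneg).star_eq]
    refine ⟨ContinuousMap.le_def.1 (C.Er_nonneg
      ((IsSelfAdjoint.of_nonneg (hs.col c).G_nonneg).conjugate_nonneg (C.r_nonneg hf0))) x, ?_⟩
    refine ((le_abs_self _).trans ((C.Er _).norm_coe_le_norm x)).trans
      ((C.norm_Er_le ((C.r_isSelfAdjoint f).conjugate_self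
        (IsSelfAdjoint.of_nonneg (hs.col c).G_nonneg))).trans ?_)
    have hfn : ‖C.r f‖ ≤ 1 := (C.norm_r_le f).trans ((ContinuousMap.norm_le _ zero_le_one).2
      fun x => by rw [Real.norm_of_nonneg (hf x).1]; exact (hf x).2)
    calc ‖((s c).G : M) * C.r f * (s c).G‖ ≤ ‖((s c).G : M)‖ * ‖C.r f‖ * ‖((s c).G : M)‖ :=
          norm_mul₃_le
      _ ≤ P.Λ * 1 * P.Λ := by gcongr
      _ = P.Λ ^ 2 := by ring
  have h2 := hkey (L⁻¹ • h0) (fun x => by
      simp only [hh0, ContinuousMap.smul_apply, ContinuousMap.mul_apply, smul_eq_mul]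
      obtain ⟨a1, a2, _⟩ := hiD c x
      have h0' : 0 ≤ (s c).act x ∧ (s c).act x ≤ 1 := by
        rcases (hs.col c).act_01 x with h | h <;> simp [h]
      refine ⟨mul_nonneg (inv_nonneg.2 hL0.le) (mul_nonneg (mul_nonneg h0'.1 (hKb x).1) a1.le), ?_⟩
      rw [inv_mul_le_iff₀ hL0, mul_one, hL, mul_assoc]
      refine (mul_le_of_le_one_left (mul_nonneg (hKb x).1 a1.le) h0'.2).trans ?_
      calc C.K ((s c).G : M) f x * P.iD (s c) x ≤ P.Λ ^ 2 * (1 / P.Dmin) :=
            mul_le_mul (hKb x).2 a2 a1.le (by positivity)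
        _ = P.Λ ^ 2 / P.Dmin := mul_one_div _ _)
    (by
      rw [smul_mul_assoc]
      congr 1
      ext x
      rcases (hs.col c).act_01 x with h | h <;> simp [hh0, h])
  rw [Prm.VW_smul, mul_smul_comm, C.ig_smul, ← mul_sub, abs_mul, abs_of_pos (inv_pos.2 hL0),
    inv_mul_le_iff₀ hL0] at h2
  have e : p * P.Dc (s c) * h0 = p * (s c).act * C.K ((s c).G : M) f := by
    ext x
    simp only [hh0, ContinuousMap.mul_apply]
    linear_combination p x * (s c).act x * C.K ((s c).G : M) f x * (hiD c x).2.2.2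
  rw [e] at h2
  have h3 := hK c f hf
  have h4 := (abs_le.1 h2).1
  have h5 := (abs_le.1 h1).2
  have h6 : δ ≤ ε1 := min_le_left _ _
  rw [← hh0] at h3
  linarith

/-- An inequality up to a small error between weakly continuous functionals holds exactly outside
a small clopen set. -/
theorem SCore.exists_good_set (C : SCore M X) (a b : M) (q w : C(X, ℝ)) {act : C(X, ℝ)}
    (ha : ∀ x, act x = 0 ∨ act x = 1) {ε τ : ℝ} (hε : 0 ≤ ε) (hτ : 0 < τ) (hw : ∀ x, 1 ≤ w x)
    (h : ∀ f, (∀ x, 0 ≤ f x ∧ f x ≤ act x) → C.tr (a * C.r f * b) ≤ C.ig (q * f) + ε) :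
    ∃ good : C(X, ℝ), (∀ x, good x = 0 ∨ good x = 1) ∧ (∀ x, good x ≤ act x) ∧
      (∀ f, 0 ≤ f → f * good = f →
        C.tr (a * C.r f * b) ≤ C.ig ((q + τ • w) * f)) ∧
      C.ig (act - good) ≤ 4 * ε / τ := by
  set ν : C(X, ℝ) → ℝ := fun f => C.tr (a * C.r f * b) - C.ig ((q + τ • w) * f) with hν
  have hν0 : ν 0 = 0 := by simp [hν, C.r_zero, C.tr_zero, C.ig_zero]
  have hνadd : ∀ (f g : C(X, ℝ)) (u : ℝ), ν (f + u • g) = ν f + u * ν g := fun f g u => by
    simp only [hν, C.r_add, C.r_smul, mul_add, add_mul, mul_smul_comm, smul_mul_assoc, C.tr_add,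
      C.tr_smul, C.ig_add, C.ig_smul]
    ring
  set A := {f : C(X, ℝ) | ∀ x, 0 ≤ f x ∧ f x ≤ act x} with hA
  have hact : ∀ x, 0 ≤ act x ∧ act x ≤ 1 := fun x => by rcases ha x with h | h <;> simp [h]
  have hA0 : (0 : C(X, ℝ)) ∈ A := fun x => by simp [(hact x).1]
  have hAb : ∀ f ∈ A, C.tr (a * C.r f * b) - C.ig (q * f) ≤ ε ∧ 0 ≤ C.ig (w * f) ∧
      C.ig f ≤ C.ig (w * f) ∧ ν f = C.tr (a * C.r f * b) - C.ig (q * f) - τ * C.ig (w * f) :=
    fun f hf => by
      have h1 : C.ig f ≤ C.ig (w * f) := C.ig_mono (ContinuousMap.le_def.2 fun x => by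
        simpa using le_mul_of_one_le_left (hf x).1 (hw x))
      have h2 := C.ig_nonneg (f := f) (ContinuousMap.le_def.2 fun x => (hf x).1)
      refine ⟨by linarith [h f hf], by linarith, h1, ?_⟩
      simp only [hν, add_mul, smul_mul_assoc, C.ig_add, C.ig_smul]
      ring
  have hne : (ν '' A).Nonempty := ⟨_, 0, hA0, rfl⟩
  have hbd : BddAbove (ν '' A) := by
    refine ⟨ε, ?_⟩
    rintro v ⟨f, hf, rfl⟩
    obtain ⟨h1, h2, _, h3⟩ := hAb f hf
    have := mul_nonneg hτ.le h2
    linarith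
  set m := sSup (ν '' A) with hm
  have hseq : ∀ n : ℕ, ∃ f ∈ A, m - 1 / ((n : ℝ) + 1) ≤ ν f := fun n => by
    obtain ⟨_, ⟨f, hf, rfl⟩, hlt⟩ :=
      exists_lt_of_lt_csSup hne (sub_lt_self m (Nat.one_div_pos_of_nat (α := ℝ) (n := n)))
    exact ⟨f, hf, hlt.le⟩
  choose fn hfn hfm using hseq
  let U : Ultrafilter ℕ := Ultrafilter.of atTop
  have hU : (U : Filter ℕ) ≤ atTop := Ultrafilter.of_le _
  have hfn1 : ∀ n, ‖C.r (fn n)‖ ≤ 1 := fun n => (C.norm_r_le _).trans
    ((ContinuousMap.norm_le _ zero_le_one).2 fun x => by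
      rw [Real.norm_of_nonneg (hfn n x).1]; exact (hfn n x).2.trans (hact x).2)
  obtain ⟨v, _, hv⟩ := C.weakLimit U (fun n => C.r (fn n)) 1 hfn1
  have hcomm : ∀ g, C.r g * v = v * C.r g := fun g => by
    refine C.ext_weak fun a' b' => tendsto_nhds_unique
      (f := fun n => C.φ (a' * C.r g * C.r (fn n) * b')) (l := (U : Filter ℕ)) ?_ ?_
    · simpa only [mul_assoc] using hv (a' * C.r g) b'
    · refine Tendsto.congr (fun n => ?_) (by simpa only [mul_assoc] using hv a' (C.r g * b'))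
      congr 1
      simp only [← mul_assoc]
      rw [mul_assoc a' (C.r (fn n)), mul_assoc a' (C.r g), C.r_comm]
  have hvι := C.eq_ι_E_of_comm hcomm
  have him : ∀ g : C(X, ℝ), (C.φ (C.r g)).im = 0 := fun g => by
    have hpos : ∀ k : C(X, ℝ), 0 ≤ k → (C.φ (C.r k)).im = 0 := fun k hk => by
      obtain ⟨u, hu⟩ := CStarAlgebra.nonneg_iff_eq_star_mul_self.1 (C.r_nonneg hk)
      rw [hu]
      exact (Complex.le_def.1 (C.φ_pos u)).2.symm
    have e : g = (g + ‖g‖ • 1) - ‖g‖ • (1 : C(X, ℝ)) := by rw [add_sub_cancel_right]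
    have h1 := hpos (g + ‖g‖ • 1) (ContinuousMap.le_def.2 fun x => by
      have := (abs_le.1 (g.norm_coe_le_norm x)).1
      simp only [ContinuousMap.zero_apply, ContinuousMap.add_apply, ContinuousMap.smul_apply,
        ContinuousMap.one_apply, smul_eq_mul, mul_one]
      linarith)
    have h2 := hpos (‖g‖ • 1) (ContinuousMap.le_def.2 fun x => by simp)
    rw [e, C.r_sub, map_sub, Complex.sub_im, h1, h2, sub_zero]
  set hc := C.E v with hhc
  set f0 := reC hc with hf0
  set fi : C(X, ℝ) := ⟨fun x => (hc x).im, by fun_prop⟩ with hfi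
  have hdec : hc = toC f0 + Complex.I • toC fi := by
    ext x
    simp only [hf0, hfi, ContinuousMap.add_apply, ContinuousMap.smul_apply, toC_apply, reC_apply,
      smul_eq_mul, ContinuousMap.coe_mk]
    exact (mul_comm Complex.I _ ▸ (Complex.re_add_im (hc x)).symm)
  have hlim : ∀ g : C(X, ℝ), Tendsto (fun n => C.φ (C.r (g * fn n))) U
      (𝓝 (C.φ (C.r (g * f0)) + Complex.I * C.φ (C.r (g * fi)))) := fun g => by
    have := hv (C.r g) 1
    simp only [mul_one] at this
    have e : C.φ (C.r g * v) = C.φ (C.r (g * f0)) + Complex.I * C.φ (C.r (g * fi)) := by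
      rw [hvι, hdec, map_add, map_smul, mul_add, mul_smul_comm, map_add, map_smul,
        smul_eq_mul]
      simp only [SCore.r, toC_mul, map_mul]
    rw [e] at this
    exact this.congr fun n => by rw [C.r_mul]
  have hre : ∀ g : C(X, ℝ), Tendsto (fun n => C.ig (g * fn n)) U (𝓝 (C.ig (g * f0))) ∧
      C.ig (g * fi) = 0 := fun g => by
    constructor
    · have h1 := ((Complex.continuous_re.tendsto _).comp (hlim g))
      simpa [Complex.add_re, Complex.mul_re, him, SCore.ig, SCore.tr, Function.comp_def] using h1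
    · have h1 := ((Complex.continuous_im.tendsto _).comp (hlim g))
      simp only [Function.comp_def, him, Complex.add_im, Complex.mul_im, Complex.I_re,
        Complex.I_im, zero_mul, one_mul, zero_add] at h1
      exact (tendsto_nhds_unique h1 tendsto_const_nhds).trans rfl
  have hfi0 : fi = 0 := by
    have h1 := C.eq_zero_of_ig_eq_zero (f := fi * fi)
      (ContinuousMap.le_def.2 fun x => by simpa using mul_self_nonneg (fi x)) (hre fi).2
    ext x
    have := congrArg (fun k : C(X, ℝ) => k x) h1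
    simpa using this
  have hv0 : v = C.r f0 := by
    rw [hvι, hdec, hfi0, toC_zero, smul_zero, add_zero]; rfl
  have hneg : ∀ k : C(X, ℝ),
      (∀ g : C(X, ℝ), 0 ≤ g → 0 ≤ C.ig (g * k)) → ∀ x, 0 ≤ k x := fun k hk x => by
    set g : C(X, ℝ) := ⟨fun x => max (-k x) 0, by fun_prop⟩ with hg
    have hg0 : 0 ≤ g := ContinuousMap.le_def.2 fun x => le_max_right _ _
    have e : g * k = -(g * g) := by
      ext x
      simp only [hg, ContinuousMap.mul_apply, ContinuousMap.neg_apply, ContinuousMap.coe_mk]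
      rcases le_total 0 (k x) with h1 | h1
      · simp [max_eq_right (neg_nonpos.2 h1)]
      · rw [max_eq_left (neg_nonneg.2 h1)]; ring
    have h1 := hk g hg0
    rw [e, C.ig_neg] at h1
    have h2 : 0 ≤ g * g := ContinuousMap.le_def.2 fun x => by simpa using mul_self_nonneg (g x)
    have h3 := C.eq_zero_of_ig_eq_zero h2 (le_antisymm (by linarith) (C.ig_nonneg h2))
    have h4 : g x = 0 := by
      have := congrArg (fun k : C(X, ℝ) => k x) h3
      simpa using this
    have h5 : -k x ≤ g x := le_max_left _ _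
    linarith
  have hf0A : f0 ∈ A := fun x => by
    refine ⟨hneg f0 (fun g hg => ge_of_tendsto' (hre g).1 fun n =>
      C.ig_nonneg (ContinuousMap.le_def.2 fun x => ?_)) x, ?_⟩
    · simpa using mul_nonneg (ContinuousMap.le_def.1 hg x) (hfn n x).1
    · have h1 := hneg (act - f0) (fun g hg => by
        rw [mul_sub, C.ig_sub, sub_nonneg]
        refine le_of_tendsto' (hre g).1 fun n => C.ig_mono (ContinuousMap.le_def.2 fun x => ?_)
        simpa using mul_le_mul_of_nonneg_left (hfn n x).2 (ContinuousMap.le_def.1 hg x)) x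
      simpa using h1
  have hνlim : Tendsto (fun n => ν (fn n)) U (𝓝 (ν f0)) := by
    have h1 := ((Complex.continuous_re.tendsto _).comp (hv a b))
    rw [hv0] at h1
    exact h1.sub (hre (q + τ • w)).1
  have hm0 : ν f0 = m := by
    refine le_antisymm (le_csSup hbd ⟨f0, hf0A, rfl⟩) ?_
    have h1 : Tendsto (fun n : ℕ => m - 1 / ((n : ℝ) + 1)) U (𝓝 m) := by
      simpa using (tendsto_const_nhds.sub
        ((tendsto_one_div_add_atTop_nhds_zero_nat (𝕜 := ℝ)).mono_left hU))
    exact le_of_tendsto_of_tendsto' h1 hνlim hfm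
  have hig : C.ig f0 ≤ ε / τ := by
    obtain ⟨h1, _, h3, h4⟩ := hAb f0 hf0A
    have h5 : 0 ≤ ν f0 := hm0 ▸ hν0 ▸ le_csSup hbd ⟨0, hA0, rfl⟩
    rw [le_div_iff₀ hτ]
    have := mul_le_mul_of_nonneg_left h3 hτ.le
    linarith
  obtain ⟨V, hV, hVge, hVle⟩ := exists_clopen_of_closed_subset_open
    (isClosed_le continuous_const (map_continuous f0) : IsClosed {x | 1 / 2 ≤ f0 x})
    (isOpen_lt continuous_const (map_continuous f0) : IsOpen {x | 1 / 4 < f0 x})
    (fun x (hx : 1 / 2 ≤ f0 x) => show 1 / 4 < f0 x by linarith)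
  set good := act * (1 - ind V hV) with hgood
  have hgv : ∀ x, (x ∈ V ∧ good x = 0 ∧ act x = 1 ∧ 1 / 4 < f0 x) ∨
      (x ∉ V ∧ good x = act x ∧ f0 x < 1 / 2) := fun x => by
    by_cases hx : x ∈ V
    · refine Or.inl ⟨hx, by simp [hgood, ind_mem _ hx], ?_, hVle hx⟩
      have h1 : 1 / 4 < f0 x := hVle hx
      rcases ha x with h' | h'
      · linarith [(hf0A x).2]
      · exact h'
    · exact Or.inr ⟨hx, by simp [hgood, ind_notMem _ hx], not_le.1 fun h' => hx (hVge h')⟩
  refine ⟨good, fun x => ?_, fun x => ?_, fun f hf hfg => ?_, ?_⟩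
  · rcases hgv x with ⟨_, h1, _⟩ | ⟨_, h1, _⟩
    · exact Or.inl h1
    · rw [h1]; exact ha x
  · rcases hgv x with ⟨_, h1, h2, _⟩ | ⟨_, h1, _⟩ <;> rw [h1]
    exact (hact x).1
  · set u := 1 / (2 * (‖f‖ + 1)) with hu
    have hu0 : 0 < u := by positivity
    have hmem : f0 + u • f ∈ A := fun x => by
      have h1 := ContinuousMap.le_def.1 hf x
      simp only [ContinuousMap.zero_apply] at h1
      have h2 : u * f x ≤ 1 / 2 := by
        have : f x ≤ ‖f‖ + 1 := by linarith [(abs_le.1 (f.norm_coe_le_norm x)).2]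
        calc u * f x ≤ u * (‖f‖ + 1) := mul_le_mul_of_nonneg_left this hu0.le
          _ = 1 / 2 := by rw [hu]; field_simp
      simp only [ContinuousMap.add_apply, ContinuousMap.smul_apply, smul_eq_mul]
      refine ⟨by linarith [(hf0A x).1, mul_nonneg hu0.le h1], ?_⟩
      have hx := congrArg (fun k : C(X, ℝ) => k x) hfg
      simp only [ContinuousMap.mul_apply] at hx
      rcases hgv x with ⟨_, hg, _⟩ | ⟨_, hg, hlt⟩ <;> rw [hg] at hx
      · rw [mul_zero] at hx
        rw [← hx]
        linarith [(hf0A x).2]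
      · rcases ha x with h' | h' <;> rw [h'] at hx ⊢
        · rw [mul_zero] at hx
          rw [← hx]
          linarith [(hf0A x).2]
        · linarith
    have h1 := le_csSup hbd ⟨_, hmem, rfl⟩
    rw [hνadd, ← hm, hm0] at h1
    have h2 : ν f ≤ 0 := by
      by_contra hc
      have := mul_pos hu0 (not_le.1 hc)
      linarith
    simp only [hν] at h2
    linarith
  · have h1 : C.ig (act - good) ≤ 4 * C.ig f0 := by
      rw [← C.ig_smul]
      refine C.ig_mono (ContinuousMap.le_def.2 fun x => ?_)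
      simp only [ContinuousMap.sub_apply, ContinuousMap.smul_apply, smul_eq_mul]
      rcases hgv x with ⟨_, hg, h', h''⟩ | ⟨_, hg, _⟩ <;> rw [hg]
      · linarith
      · linarith [(hf0A x).1]
    have h2 : 4 * ε / τ = 4 * (ε / τ) := mul_div_assoc _ _ _
    linarith

end Vale.Agent.P078.AllMasa
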